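import Crest.Agent.N207.I.Car2

/-!
# Row 207, block I (helper98): `core_ok`, `glob_ok`, `core_pou`, `glob_pou`, scales
-/

set_option autoImplicit false
set_option linter.unusedSectionVars false

open scoped ContDiff Topology
open Set Filter Metric

noncomputable section

namespace Crest.Agent.N207.I

namespace TD

variable {M : Type*} {T : TD M} {L : T.V → ℝ}

/-! ### the charts of `core v` -/

theorem mem_core_inl {v : T.V} {a : T.B} {x : E4} :
    x ∈ (T.core v).U (Sum.inl a) ↔ T.vx a = v ∧ ‖x‖ < 2 := mem_bU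

theorem core_c_inl (v : T.V) (a : T.B) (x : E4) :
    (T.core v).c (Sum.inl a) x = Sum.inl (T.vx a, T.φ a x) := rfl

theorem mem_core_out {v : T.V} {x : E4} : x ∈ (T.core v).U (Sum.inr v) ↔ 1 < ‖x‖ := by simp [core]

theorem mem_core_inn {v w : T.V} (h : w ≠ v) {x : E4} :
    x ∈ (T.core v).U (Sum.inr w) ↔ T.kid v w ∧ 0 < ‖x‖ ∧ ‖x‖ < T.r := by
  by_cases hk : T.kid v w <;> simp [core, h, hk]

theorem core_c_out (v : T.V) (x : E4) : (T.core v).c (Sum.inr v) x =
    if ‖x‖ < 4 then Sum.inl (v, T.co v x) else Sum.inr (v, T.orb v x) := by simp [core]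

theorem core_c_inn {v w : T.V} (h : w ≠ v) (x : E4) : (T.core v).c (Sum.inr w) x =
    if T.r / 4 < ‖x‖ then Sum.inl (v, T.ci w x) else Sum.inr (w, T.orb w x) := by simp [core, h]

theorem Ok.str_core (h : T.Ok) (v : T.V) : T.Str (T.core v) (fun u => u = v) fun _ _ => 1 := by
  have hr := h.r_pos
  refine ⟨rfl, fun w => ?_, fun a x => mem_core_inl, core_c_inl v, fun w x hx => ?_,
    fun w γ hγ x hx => ?_, fun _ _ => one_pos, ?_, fun w x hx => ?_⟩
  · by_cases hw : w = v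
    · subst hw
      have : (T.core w).U (Sum.inr w) = {x | 1 < ‖x‖} := by ext x; exact mem_core_out
      rw [this]; exact isOpen_lt continuous_const continuous_norm
    · have : (T.core v).U (Sum.inr w) = {x | T.kid v w} ∩ ({x | 0 < ‖x‖} ∩ {x | ‖x‖ < T.r}) := by
        ext x; exact mem_core_inn hw
      rw [this]
      exact isOpen_const.inter ((isOpen_lt continuous_const continuous_norm).inter
        (isOpen_lt continuous_norm continuous_const))
  · rw [← norm_pos_iff]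
    by_cases hw : w = v
    · subst hw; linarith [mem_core_out.1 hx]
    · exact ((mem_core_inn hw).1 hx).2.1
  · by_cases hw : w = v
    · subst hw
      rw [mem_core_out] at hx
      refine ⟨mem_core_out.2 (by simpa using hx), ?_⟩
      rw [core_c_out, core_c_out, γ.norm_map, orb_inv hγ]
      split_ifs with h4
      · have := (h.base w).c_inv (a := Sum.inr w) hγ (mem_base_out.2 ⟨hx, h4⟩)
        rw [base_c_out] at this; rw [this]
      · rfl
    · rw [mem_core_inn hw] at hx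
      refine ⟨(mem_core_inn hw).2 (by simpa using hx), ?_⟩
      rw [core_c_inn hw, core_c_inn hw, γ.norm_map, orb_inv hγ]
      split_ifs with h4
      · have := (h.base v).c_inv (a := Sum.inr w) hγ ((mem_base_inn hw).2 ⟨hx.1, h4, hx.2.2⟩)
        rw [base_c_inn hw] at this; rw [this]
      · rfl
  · rintro w _ x rfl hx
    rw [one_smul] at hx ⊢
    rename_i v
    by_cases hw : w = v
    · subst hw
      rw [mem_base_out] at hx
      exact ⟨mem_core_out.2 hx.1, by rw [core_c_out, if_pos hx.2, base_c_out]⟩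
    · rw [mem_base_inn hw] at hx
      exact ⟨(mem_core_inn hw).2 ⟨hx.1, by linarith [hx.2.1], hx.2.2⟩,
        by rw [core_c_inn hw, if_pos hx.2.1, base_c_inn hw]⟩
  · simp only [one_smul]
    by_cases hw : w = v
    · subst hw
      by_cases h4 : ‖x‖ < 4
      · exact Or.inl ⟨w, rfl, mem_base_out.2 ⟨mem_core_out.1 hx, h4⟩⟩
      · refine Or.inr ⟨by rw [core_c_out, if_neg h4], ?_⟩
        filter_upwards [continuous_norm.continuousAt.eventually
          (lt_mem_nhds (show 3 < ‖x‖ by linarith))] with z hz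
        rintro _ rfl -
        exact ⟨fun _ => hz.le, fun h5 => absurd rfl h5⟩
    · rw [mem_core_inn hw] at hx
      by_cases h4 : T.r / 4 < ‖x‖
      · exact Or.inl ⟨v, rfl, (mem_base_inn hw).2 ⟨hx.1, h4, hx.2.2⟩⟩
      · refine Or.inr ⟨by rw [core_c_inn hw, if_neg h4], ?_⟩
        filter_upwards [continuous_norm.continuousAt.eventually
          (gt_mem_nhds (show ‖x‖ < T.r / 3 by linarith))] with z hz
        rintro _ rfl -
        exact ⟨fun h5 => absurd h5 hw, fun _ => hz.le⟩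

theorem Ok.core_ok (h : T.Ok) (v : T.V) : (T.core v).Ok := (h.str_core v).ok h

theorem mem_cK_inl {v : T.V} {a : T.B} {x : E4} :
    x ∈ T.cK v (Sum.inl a) ↔ T.vx a = v ∧ ‖x‖ ≤ 3 / 2 := by
  by_cases hv : T.vx a = v <;> simp [cK, hv]

theorem mem_cK_out {v : T.V} {x : E4} : x ∈ T.cK v (Sum.inr v) ↔ 3 / 2 ≤ ‖x‖ := by simp [cK]

theorem mem_cK_inn {v w : T.V} (h : w ≠ v) {x : E4} :
    x ∈ T.cK v (Sum.inr w) ↔ T.kid v w ∧ 0 < ‖x‖ ∧ ‖x‖ ≤ 3 / 4 * T.r := by
  by_cases hk : T.kid v w <;> simp [cK, h, hk]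

theorem Ok.core_pou (h : T.Ok) (v : T.V) : (T.core v).PoU T.χ (T.cK v) := by
  have hr := h.r_pos
  refine (h.str_core v).pou h (fun a x => mem_cK_inl) fun w x => ?_
  simp only [one_smul, forall_eq]
  by_cases hw : w = v
  · subst hw
    rw [mem_cK_out, mem_core_out, mem_base_out]
    refine ⟨fun h1 => ⟨by linarith, fun _ => ⟨fun _ => h1, fun h2 => absurd rfl h2⟩⟩, fun h1 => ?_⟩
    by_contra h2
    exact h2 ((h1.2 ⟨h1.1, by linarith⟩).1 rfl)
  · rw [mem_cK_inn hw, mem_core_inn hw, mem_base_inn hw]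
    refine ⟨fun h1 => ⟨⟨h1.1, h1.2.1, by linarith [h1.2.2]⟩,
      fun _ => ⟨fun h2 => absurd h2 hw, fun _ => h1.2.2⟩⟩, fun h1 => ⟨h1.1.1, h1.1.2.1, ?_⟩⟩
    by_contra h2
    exact h2 ((h1.2 ⟨h1.1.1, by linarith, h1.1.2.2⟩).2 hw)

/-- `χ` on the far part of the outer end -/
theorem Ok.core_χ_out (h : T.Ok) (v : T.V) {x : E4} (hx : 3 ≤ ‖x‖) (s : T.S) :
    T.χ s ((T.core v).c (Sum.inr v) x) = if s = Sum.inr v then 1 else 0 :=
  (h.str_core v).χ_far h (mem_core_out.2 (by linarith)) (by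
    rintro _ rfl -
    exact ⟨fun _ => by simpa using hx, fun h5 => absurd rfl h5⟩) s

/-- `χ` near a puncture -/
theorem Ok.core_χ_inn (h : T.Ok) {v w : T.V} (hk : T.kid v w) {x : E4} (h0 : 0 < ‖x‖)
    (hx : ‖x‖ ≤ T.r / 3) (s : T.S) :
    T.χ s ((T.core v).c (Sum.inr w) x) = if s = Sum.inr w then 1 else 0 :=
  (h.str_core v).χ_far h ((mem_core_inn (h.kid_ne hk)).2 ⟨hk, h0, by linarith [h.r_pos]⟩) (by
    rintro _ rfl -
    exact ⟨fun h5 => absurd h5 (h.kid_ne hk), fun _ => by simpa using hx⟩) s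

/-! ### the charts of `glob L` -/

/-- the scalings of the necks -/
def lm (L : T.V → ℝ) (w v : T.V) : ℝ := if w = v then 1 else Real.exp (-L w)

theorem mem_glob_inl {a : T.B} {x : E4} : x ∈ (T.glob L).U (Sum.inl a) ↔ ‖x‖ < 2 :=
  mem_ball_zero_iff

theorem glob_c_inl (a : T.B) (x : E4) :
    (T.glob L).c (Sum.inl a) x = Sum.inl (T.vx a, T.φ a x) := rfl

theorem mem_glob_inr {w : T.V} {x : E4} : x ∈ (T.glob L).U (Sum.inr w) ↔
    1 < ‖x‖ ∧ (w ≠ T.root → ‖x‖ < T.r * Real.exp (L w)) := Iff.rfl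

theorem glob_c_inr (w : T.V) (x : E4) : (T.glob L).c (Sum.inr w) x =
    if ‖x‖ < 4 then Sum.inl (w, T.co w x)
    else if w ≠ T.root ∧ T.r / 4 < ‖Real.exp (-L w) • x‖ then
      Sum.inl (T.par w, T.ci w (Real.exp (-L w) • x))
    else Sum.inr (w, T.orb w x) := rfl

theorem nrm_exp (t : ℝ) (x : E4) : ‖Real.exp (-t) • x‖ = ‖x‖ / Real.exp t := by
  rw [norm_smul, Real.norm_of_nonneg (Real.exp_pos _).le, Real.exp_neg, inv_mul_eq_div]

theorem lt_nrm_exp {t c : ℝ} {x : E4} : c < ‖Real.exp (-t) • x‖ ↔ c * Real.exp t < ‖x‖ := by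
  rw [nrm_exp, lt_div_iff₀ (Real.exp_pos _)]

theorem nrm_exp_lt {t c : ℝ} {x : E4} : ‖Real.exp (-t) • x‖ < c ↔ ‖x‖ < c * Real.exp t := by
  rw [nrm_exp, div_lt_iff₀ (Real.exp_pos _)]

theorem nrm_exp_le {t c : ℝ} {x : E4} : ‖Real.exp (-t) • x‖ ≤ c ↔ ‖x‖ ≤ c * Real.exp t := by
  rw [nrm_exp, div_le_iff₀ (Real.exp_pos _)]

theorem glob_open (w : T.V) : IsOpen ((T.glob L).U (Sum.inr w)) := by
  have : (T.glob L).U (Sum.inr w) =
      {x | 1 < ‖x‖} ∩ ({x | w = T.root} ∪ {x | ‖x‖ < T.r * Real.exp (L w)}) := by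
    ext x; simp [mem_glob_inr, imp_iff_not_or]
  rw [this]
  exact (isOpen_lt continuous_const continuous_norm).inter
    (isOpen_const.union (isOpen_lt continuous_norm continuous_const))

theorem glob_c_out {w : T.V} {x : E4} (hx : ‖x‖ < 4) :
    (T.glob L).c (Sum.inr w) x = Sum.inl (w, T.co w x) := by rw [glob_c_inr, if_pos hx]

theorem glob_c_inn (hL : T.Long L) {w : T.V} (hw : w ≠ T.root) {x : E4}
    (hx : T.r / 4 < ‖Real.exp (-L w) • x‖) :
    (T.glob L).c (Sum.inr w) x = Sum.inl (T.par w, T.ci w (Real.exp (-L w) • x)) := by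
  have h1 := lt_nrm_exp.1 hx
  rw [glob_c_inr, if_neg (by linarith [hL w hw]), if_pos ⟨hw, hx⟩]

theorem Ok.str_glob (h : T.Ok) (hL : T.Long L) : T.Str (T.glob L) (fun _ => True) (lm L) := by
  have hr := h.r_pos
  have hconv : ∀ w v x, lm L w v • x ∈ (T.base v).U (Sum.inr w) → x ∈ (T.glob L).U (Sum.inr w) ∧
      (T.glob L).c (Sum.inr w) x = Sum.inl (v, (T.base v).c (Sum.inr w) (lm L w v • x)) := by
    intro w v x hx
    by_cases hw : w = v
    · subst hw
      simp only [lm, if_true, one_smul, mem_base_out] at hx ⊢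
      exact ⟨⟨hx.1, fun h1 => by linarith [hL w h1, hx.2]⟩, by rw [glob_c_out hx.2, base_c_out]⟩
    · simp only [lm, if_neg hw, mem_base_inn hw] at hx ⊢
      obtain ⟨⟨h1, rfl⟩, h2, h3⟩ := hx
      have h4 := lt_nrm_exp.1 h2
      exact ⟨⟨by linarith [hL w h1], fun _ => nrm_exp_lt.1 h3⟩,
        by rw [glob_c_inn hL h1 h2, base_c_inn hw]⟩
  have hcase : ∀ w, ∀ x ∈ (T.glob L).U (Sum.inr w),
      (∃ v, lm L w v • x ∈ (T.base v).U (Sum.inr w)) ∨
        (4 ≤ ‖x‖ ∧ (w ≠ T.root → ‖Real.exp (-L w) • x‖ ≤ T.r / 4) ∧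
          (T.glob L).c (Sum.inr w) x = Sum.inr (w, T.orb w x)) := by
    intro w x hx
    by_cases h4 : ‖x‖ < 4
    · exact Or.inl ⟨w, by simpa [lm, mem_base_out, h4] using hx.1⟩
    by_cases h5 : w ≠ T.root ∧ T.r / 4 < ‖Real.exp (-L w) • x‖
    · have hw := h.par_ne h5.1
      refine Or.inl ⟨T.par w, ?_⟩
      rw [lm, if_neg hw, mem_base_inn hw]
      exact ⟨⟨h5.1, rfl⟩, h5.2, nrm_exp_lt.2 (hx.2 h5.1)⟩
    · exact Or.inr ⟨not_lt.1 h4, fun h6 => not_lt.1 fun h7 => h5 ⟨h6, h7⟩,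
        by rw [glob_c_inr, if_neg h4, if_neg h5]⟩
  refine ⟨rfl, glob_open, fun a x => by simp [mem_glob_inl], glob_c_inl, fun w x hx => ?_,
    fun w γ hγ x hx => ?_, fun w v => ?_, fun w v x _ hx => hconv w v x hx, fun w x hx => ?_⟩
  · rw [← norm_pos_iff]; linarith [hx.1]
  · refine ⟨by simpa [mem_glob_inr] using hx, ?_⟩
    rcases hcase w x hx with ⟨v, h1⟩ | ⟨h1, h2, h3⟩
    · have h2 := (h.base v).inv (Sum.inr w) γ hγ _ h1
      have h3 := (h.base v).c_inv (a := Sum.inr w) hγ h1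
      rw [map_smul] at h2 h3
      rw [(hconv w v _ h2).2, (hconv w v _ h1).2, h3]
    · have h4 : ‖Real.exp (-L w) • γ x‖ = ‖Real.exp (-L w) • x‖ := by simp [norm_smul]
      rw [h3, glob_c_inr, γ.norm_map, if_neg (not_lt.2 h1), h4,
        if_neg fun h5 => absurd h5.2 (not_lt.2 (h2 h5.1)), orb_inv hγ]
  · unfold lm; split_ifs
    exacts [one_pos, Real.exp_pos _]
  · rcases hcase w x hx with ⟨v, h1⟩ | ⟨h1, h2, h3⟩
    · exact Or.inl ⟨v, trivial, h1⟩
    · refine Or.inr ⟨h3, ?_⟩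
      have h4 : ∀ᶠ z in 𝓝 x, w ≠ T.root → ‖Real.exp (-L w) • z‖ < T.r / 3 := by
        by_cases hw : w = T.root
        · exact Eventually.of_forall fun _ h5 => absurd hw h5
        · have hc : Continuous fun z : E4 => ‖Real.exp (-L w) • z‖ := by fun_prop
          exact (hc.continuousAt.eventually
            (gt_mem_nhds (show _ < T.r / 3 by linarith [h2 hw]))).mono fun z hz _ => hz
      filter_upwards [h4, continuous_norm.continuousAt.eventually
        (lt_mem_nhds (show 3 < ‖x‖ by linarith))] with z h5 h6 v _ h7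
      refine ⟨fun hw => by simpa [lm, hw] using h6.le, fun hw => ?_⟩
      rw [mem_base_inn hw] at h7
      rw [lm, if_neg hw]
      exact (h5 h7.1.1).le

theorem Ok.glob_ok (h : T.Ok) (hL : T.Long L) : (T.glob L).Ok := (h.str_glob hL).ok h

theorem mem_gK_inl {a : T.B} {x : E4} : x ∈ T.gK L (Sum.inl a) ↔ ‖x‖ ≤ 3 / 2 :=
  mem_closedBall_zero_iff

theorem mem_gK_inr {w : T.V} {x : E4} : x ∈ T.gK L (Sum.inr w) ↔
    3 / 2 ≤ ‖x‖ ∧ (w ≠ T.root → ‖x‖ ≤ 3 / 4 * T.r * Real.exp (L w)) := Iff.rfl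

theorem Ok.glob_pou (h : T.Ok) (hL : T.Long L) : (T.glob L).PoU T.χ (T.gK L) := by
  have hr := h.r_pos
  refine (h.str_glob hL).pou h (fun a x => by simp [mem_gK_inl]) fun w x => ?_
  rw [mem_gK_inr, mem_glob_inr]
  have he := mul_pos hr (Real.exp_pos (L w))
  refine ⟨fun h1 => ⟨⟨by linarith [h1.1], fun hw => by linarith [h1.2 hw]⟩, fun v _ h2 =>
    ⟨fun hw => by simpa [lm, hw] using h1.1, fun hw => ?_⟩⟩, fun h1 => ⟨?_, fun hw => ?_⟩⟩
  · rw [mem_base_inn hw] at h2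
    rw [lm, if_neg hw]
    exact nrm_exp_le.2 (h1.2 h2.1.1)
  · by_contra h2
    have h3 := (h1.2 w trivial (by
      simp only [lm, if_true, one_smul, mem_base_out]; exact ⟨h1.1.1, by linarith⟩)).1 rfl
    exact h2 (by simpa [lm] using h3)
  · by_contra h2
    have hp := h.par_ne hw
    have h3 := (h1.2 (T.par w) trivial (by
      rw [lm, if_neg hp, mem_base_inn hp]
      exact ⟨⟨hw, rfl⟩, lt_nrm_exp.2 (by linarith), nrm_exp_lt.2 (h1.1.2 hw)⟩)).2 hp
    rw [lm, if_neg hp] at h3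
    exact h2 (nrm_exp_le.1 h3)

/-- `χ` on the middle part of a neck -/
theorem Ok.glob_χ_mid (h : T.Ok) (hL : T.Long L) {w : T.V} {x : E4} (hx : 3 ≤ ‖x‖)
    (hx' : w ≠ T.root → ‖x‖ ≤ T.r / 3 * Real.exp (L w)) (s : T.S) :
    T.χ s ((T.glob L).c (Sum.inr w) x) = if s = Sum.inr w then 1 else 0 := by
  have he := mul_pos h.r_pos (Real.exp_pos (L w))
  refine (h.str_glob hL).χ_far h ⟨by linarith, fun hw => by linarith [hx' hw]⟩ (fun v _ h1 =>
    ⟨fun hw => by simpa [lm, hw] using hx, fun hw => ?_⟩) s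
  rw [mem_base_inn hw] at h1
  rw [lm, if_neg hw]
  exact nrm_exp_le.2 (hx' h1.1.1)

/-- the first half of the neck `w` is the outer end of `core w` -/
theorem glob_eq_out {w : T.V} {x : E4} (hx : w ≠ T.root → ‖x‖ ≤ T.r / 4 * Real.exp (L w)) :
    (T.glob L).c (Sum.inr w) x = (T.core w).c (Sum.inr w) x := by
  rw [glob_c_inr, core_c_out]
  split_ifs with h1 h2
  · rfl
  · exact absurd (lt_nrm_exp.1 h2.2) (not_lt.2 (hx h2.1))
  · rfl

/-- `χ` on the second half of the neck `w` is `χ` on the puncture of `core (par w)` -/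
theorem Ok.χ_glob_inn (h : T.Ok) (hL : T.Long L) {w : T.V} (hw : w ≠ T.root) {x : E4}
    (hx : 4 ≤ ‖x‖) (s : T.S) : T.χ s ((T.glob L).c (Sum.inr w) x) =
      T.χ s ((T.core (T.par w)).c (Sum.inr w) (Real.exp (-L w) • x)) := by
  rw [core_c_inn (h.par_ne hw)]
  split_ifs with h1
  · rw [glob_c_inn hL hw h1]
  · rw [glob_c_inr, if_neg (not_lt.2 hx), if_neg fun h2 => h1 h2.2, χ_inr, χ_inr]

/-! ### scales -/

theorem eps_pos (L : T.V → ℝ) (v : T.V) : 0 < T.eps L v := Real.exp_pos _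

theorem Ok.eps_root (h : T.Ok) (L : T.V → ℝ) : T.eps L T.root = 1 := by simp [eps, h.dep_root]

theorem Ok.eps_kid (h : T.Ok) (L : T.V → ℝ) {w : T.V} (hw : w ≠ T.root) :
    T.eps L w = T.eps L (T.par w) * Real.exp (-L w) := by
  rw [eps, eps, h.dep_par w hw, Finset.sum_range_succ', ← Real.exp_add]
  simp only [Function.iterate_succ, Function.comp_apply, Function.iterate_zero, id_eq]
  congr 1; ring

/-- induction over the tree -/
theorem Ok.ind (h : T.Ok) {P : T.V → Prop} (h0 : P T.root)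
    (h1 : ∀ w, w ≠ T.root → P (T.par w) → P w) (v : T.V) : P v := by
  induction hd : T.dep v generalizing v with
  | zero =>
    by_cases hv : v = T.root
    · exact hv ▸ h0
    · have := h.dep_par v hv; omega
  | succ n ih =>
    have hv : v ≠ T.root := fun e => by rw [e, h.dep_root] at hd; omega
    exact h1 v hv (ih _ (by have := h.dep_par v hv; omega))

/-- scales given in advance: `eps L v = s v / s root` for `L w = log (s (par w) / s w)` -/
theorem Ok.eps_log (h : T.Ok) {s : T.V → ℝ} (hs : ∀ v, 0 < s v) (v : T.V) :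
    T.eps (fun w => Real.log (s (T.par w) / s w)) v = s v / s T.root := by
  refine h.ind (P := fun v => T.eps _ v = s v / s T.root) ?_ (fun w hw ih => ?_) v
  · rw [h.eps_root, div_self (hs _).ne']
  · have := hs w; have := hs (T.par w); have := hs T.root
    rw [h.eps_kid _ hw, ih, Real.exp_neg, Real.exp_log (by positivity)]
    field_simp

end TD

end Crest.Agent.N207.I

end
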