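import Crest.Agent.N207.I.Jet2
import Crest.Agent.N207.Tens
import Crest.Agent.R202.GeoTens

/-!
# Row 207, block I (helper24): jet calculus for coordinate metrics and tensors

`ME l g x g' x'`: the metrics `g j` at `x j` and `g' j` at `x' j` have bounded, asymptotically equal
jets and are uniformly positive.  `TE`: the same for tensors.  Every natural operation preserves it.
-/

set_option autoImplicit false
open Set Filter Topology Function Metric
open scoped ContDiff
open Crest.GeometryTopology.CoordMetric Crest.GeometryTopology.ChartCurvature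
  Crest.GeometryTopology.MetricFamily
open Crest.Agent.R202.Tens

noncomputable section

namespace Crest.Agent.N207.Jt

variable {ι κ : Type} {l : Filter ι} {n k : ℕ}

section gen

variable {X Y : Type} [NormedAddCommGroup X] [NormedSpace ℝ X] [NormedAddCommGroup Y]
  [NormedSpace ℝ Y] [FiniteDimensional ℝ Y] {x x' : ι → X}

theorem GE.pi {α : Type} [Fintype α] {f f' : ι → X → α → Y}
    (h : ∀ a, GE l (fun j z => f j z a) x (fun j z => f' j z a) x') : GE l f x f' x' := by
  classical
  have := GE.sum Finset.univ fun a _ => (h a).clm (ContinuousLinearMap.single ℝ (fun _ : α => Y) a)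
  simpa [Finset.univ_sum_single] using this

theorem GE.ev {α : Type} [Fintype α] {f f' : ι → X → α → Y} (h : GE l f x f' x') (a : α) :
    GE l (fun j z => f j z a) x (fun j z => f' j z a) x' :=
  h.clm (ContinuousLinearMap.proj (R := ℝ) (φ := fun _ : α => Y) a)

theorem GE.coord {f f' : ι → X → En n} (h : GE l f x f' x') (a : Fin n) :
    GE l (fun j z => f j z a) x (fun j z => f' j z a) x' :=
  h.clm (EuclideanSpace.proj a : En n →L[ℝ] ℝ)

theorem GE.neg {f f' : ι → X → Y} (h : GE l f x f' x') :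
    GE l (fun j z => -f j z) x (fun j z => -f' j z) x' :=
  h.smooth (Φ := fun p : Y => -p) (by fun_prop)

theorem GE.cmul {f f' : ι → X → ℝ} (c : ℝ) (h : GE l f x f' x') :
    GE l (fun j z => c * f j z) x (fun j z => c * f' j z) x' := (GE.const' c).mul h

end gen

variable {x x' x'' : ι → En n}

theorem GE.pd {f f' : ι → En n → ℝ} (h : GE l f x f' x') (a : Fin n) :
    GE l (fun j => pderiv a (f j)) x (fun j => pderiv a (f' j)) x' :=
  h.fderiv.app (GE.const' (EuclideanSpace.single a (1 : ℝ)))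

/-- symmetric and `≥ c` -/
def Pos (c : ℝ) (A : Matrix (Fin n) (Fin n) ℝ) : Prop :=
  (∀ a b, A a b = A b a) ∧ ∀ v : En n, c * ‖v‖ ^ 2 ≤ bil A v v

theorem Pos.posDef {c : ℝ} {A : Matrix (Fin n) (Fin n) ℝ} (h : Pos c A) (hc : 0 < c) :
    A.PosDef := by
  refine Matrix.PosDef.of_dotProduct_mulVec_pos ?_ fun v hv => ?_
  · ext i j
    simp only [Matrix.conjTranspose_apply, star_trivial]
    exact h.1 j i
  · have hv' : (WithLp.toLp 2 v : En n) ≠ 0 := fun h0 => hv (by simpa using congrArg WithLp.ofLp h0)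
    have e : star v ⬝ᵥ A.mulVec v = bil A (WithLp.toLp 2 v) (WithLp.toLp 2 v) := by
      rw [bil_apply]
      simp only [dotProduct, Matrix.mulVec, Finset.mul_sum, star_trivial]
      refine Finset.sum_congr rfl fun i _ => Finset.sum_congr rfl fun j _ => by ring
    rw [e]
    exact lt_of_lt_of_le (mul_pos hc (pow_pos (norm_pos_iff.2 hv') 2)) (h.2 _)

theorem Pos.mono {c d : ℝ} {A : Matrix (Fin n) (Fin n) ℝ} (h : Pos c A) (hd : d ≤ c) : Pos d A :=
  ⟨h.1, fun v => (mul_le_mul_of_nonneg_right hd (sq_nonneg _)).trans (h.2 v)⟩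

theorem isClosed_pos (c : ℝ) : IsClosed {A : Fin n → Fin n → ℝ | Pos c (Matrix.of A)} := by
  simp only [Pos, Set.ofPred_and, Set.ofPred_forall, bil_apply, Matrix.of_apply]
  exact (isClosed_iInter fun a => isClosed_iInter fun b => isClosed_eq (by fun_prop) (by fun_prop)
    ).inter (isClosed_iInter fun v => isClosed_le continuous_const (by fun_prop))

/-- the quadratic form is bounded by the entries -/
theorem abs_bil_le {A : Matrix (Fin n) (Fin n) ℝ} {C : ℝ} (h : ∀ a b, |A a b| ≤ C) (v w : En n) :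
    |bil A v w| ≤ n ^ 2 * C * (‖v‖ * ‖w‖) := by
  rw [bil_apply]
  calc _ ≤ ∑ _i : Fin n, ∑ _j : Fin n, C * (‖v‖ * ‖w‖) := by
        refine (Finset.abs_sum_le_sum_abs _ _).trans (Finset.sum_le_sum fun i _ => ?_)
        refine (Finset.abs_sum_le_sum_abs _ _).trans (Finset.sum_le_sum fun j _ => ?_)
        rw [mul_assoc, abs_mul, abs_mul]
        exact mul_le_mul (h i j) (mul_le_mul (PiLp.norm_apply_le v i) (PiLp.norm_apply_le w j)
          (abs_nonneg _) (norm_nonneg _)) (by positivity) ((abs_nonneg _).trans (h i j))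
    _ = _ := by simp; ring

/-- a positive definite matrix is `≥ c` for some `c > 0` -/
theorem pos_of_compact {α : Type} [TopologicalSpace α] {K : Set α} (hK : IsCompact K)
    {A : α → Matrix (Fin n) (Fin n) ℝ} (hc : ∀ a b, ContinuousOn (fun z => A z a b) K)
    (hA : ∀ z ∈ K, (A z).PosDef) : ∃ c > 0, ∀ z ∈ K, Pos c (A z) := by
  have hS : IsCompact (K ×ˢ sphere (0 : En n) 1) := hK.prod (isCompact_sphere _ _)
  have hf : ContinuousOn (fun p : α × En n => bil (A p.1) p.2 p.2) (K ×ˢ sphere (0 : En n) 1) := by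
    simp only [bil_apply]
    refine continuousOn_finsetSum _ fun i _ => continuousOn_finsetSum _ fun j _ => ?_
    exact (((hc i j).comp continuousOn_fst fun p hp => hp.1).mul (by fun_prop)).mul (by fun_prop)
  have hp : ∀ z ∈ K, ∀ v : En n, v ≠ 0 → 0 < bil (A z) v v := fun z hz v hv => by
    have h2 := (hA z hz).dotProduct_mulVec_pos (x := WithLp.ofLp v) fun h0 => hv (by
      ext i; exact congrFun h0 i)
    rw [bil_apply]
    refine h2.trans_eq ?_
    simp only [dotProduct, Matrix.mulVec, Finset.mul_sum, star_trivial]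
    refine Finset.sum_congr rfl fun i _ => Finset.sum_congr rfl fun j _ => by ring
  obtain ⟨c, hc0, hc1⟩ := hS.exists_forall_le' hf (a := 0) fun p hp' =>
    hp p.1 hp'.1 p.2 (ne_zero_of_mem_unit_sphere ⟨p.2, hp'.2⟩)
  refine ⟨c, hc0, fun z hz => ⟨fun a b => ?_, fun v => ?_⟩⟩
  · simpa using ((hA z hz).isHermitian.apply a b).symm
  · rcases eq_or_ne v 0 with rfl | hv
    · simp
    · have hn : 0 < ‖v‖ := norm_pos_iff.2 hv
      have := hc1 (z, ‖v‖⁻¹ • v) ⟨hz, by simp [norm_smul, hn.ne']⟩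
      simp only [map_smul, smul_apply, smul_eq_mul] at this
      calc c * ‖v‖ ^ 2 ≤ ‖v‖⁻¹ * (‖v‖⁻¹ * bil (A z) v v) * ‖v‖ ^ 2 := by gcongr
        _ = _ := by field_simp

/-- metrics with bounded, asymptotically equal jets, uniformly positive -/
structure ME (l : Filter ι) (g : ι → MetricField n) (x : ι → En n) (g' : ι → MetricField n)
    (x' : ι → En n) : Prop where
  ge : ∀ a b, GE l (fun j y => g j y a b) x (fun j y => g' j y a b) x'
  pos : ∃ c > 0, ∀ᶠ j in l, Pos c (g j (x j)) ∧ Pos c (g' j (x' j))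

/-- metrics with bounded jets, uniformly positive -/
structure MB (l : Filter ι) (g : ι → MetricField n) (x : ι → En n) : Prop where
  gb : ∀ a b, GB l (fun j y => g j y a b) x
  pos : ∃ c > 0, ∀ᶠ j in l, Pos c (g j (x j))

/-- tensors with bounded, asymptotically equal jets -/
def TE (l : Filter ι) (T : ι → Tn n k) (x : ι → En n) (T' : ι → Tn n k) (x' : ι → En n) : Prop :=
  ∀ I, GE l (fun j y => T j y I) x (fun j y => T' j y I) x'

variable {g g' g'' : ι → MetricField n} {S S' T T' : ι → Tn n k}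

theorem MB.me (h : MB l g x) : ME l g x g x :=
  ⟨fun a b => (h.gb a b).ge, h.pos.imp fun _ hc => ⟨hc.1, hc.2.mono fun _ h => ⟨h, h⟩⟩⟩

theorem MB.comap (h : MB l g x) {m : Filter κ} {e : κ → ι} (he : Tendsto e m l) :
    MB m (fun j => g (e j)) fun j => x (e j) :=
  ⟨fun a b => (h.gb a b).comap he, h.pos.imp fun _ hc => ⟨hc.1, he.eventually hc.2⟩⟩

theorem MB.congr (h : MB l g x) (e : ∀ᶠ j in l, x' j = x j ∧ g' j =ᶠ[𝓝 (x j)] g j) : MB l g' x' :=
  ⟨fun a b => (h.gb a b).congr (e.mono fun _ hj => ⟨hj.1, hj.2.mono fun _ hz => by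
      simp only [hz]⟩), h.pos.imp fun _ hc => ⟨hc.1, by
    filter_upwards [hc.2, e] with j h1 h2
    rwa [h2.1, h2.2.eq_of_nhds]⟩⟩

/-- upper bound of the quadratic form -/
theorem MB.upper (h : MB l g x) : ∃ C > 0, ∀ᶠ j in l, ∀ v w : En n,
    |bil (g j (x j)) v w| ≤ C * (‖v‖ * ‖w‖) := by
  obtain ⟨C, hC⟩ := (GE.pi fun a => GE.pi fun b => (h.gb a b).ge).left.val
  refine ⟨n ^ 2 * |C| + 1, by positivity, hC.mono fun j hj v w => ?_⟩
  refine (abs_bil_le (C := |C|) (fun a b => ?_) v w).trans (by gcongr; linarith)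
  exact ((norm_le_pi_norm (_ : Fin n → ℝ) b).trans ((norm_le_pi_norm _ a).trans hj)).trans
    (le_abs_self C)

/-- positivity passes to a close symmetric metric -/
theorem MB.me_of (h : MB l g x) (hg : ∀ a b, GE l (fun j y => g j y a b) x (fun j y => g' j y a b) x')
    (hs : ∀ᶠ j in l, ∀ a b, g' j (x' j) a b = g' j (x' j) b a) : ME l g x g' x' := by
  obtain ⟨c, hc, hp⟩ := h.pos
  refine ⟨hg, c / 2, by positivity, ?_⟩
  have h0 : ∀ᶠ j in l, ∀ a b, |(g j (x j) - g' j (x' j)) a b| ≤ c / (2 * (n ^ 2 + 1)) :=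
    eventually_all.2 fun a => eventually_all.2 fun b =>
      (Metric.tendsto_nhds.1 (hg a b).val (c / (2 * (n ^ 2 + 1))) (by positivity)).mono
        fun j hj => by simpa using hj.le
  filter_upwards [hp, hs, h0] with j h1 h2 h3
  refine ⟨h1.mono (by linarith), h2, fun v => ?_⟩
  have h4 := (abs_le.1 (abs_bil_le h3 v v)).2
  have h5 : bil (g j (x j) - g' j (x' j)) v v = bil (g j (x j)) v v - bil (g' j (x' j)) v v := by
    simp only [bil_apply, Matrix.sub_apply, sub_mul, Finset.sum_sub_distrib]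
  have h6 : (n : ℝ) ^ 2 * (c / (2 * (n ^ 2 + 1))) ≤ c / 2 := by
    rw [mul_div_assoc', div_le_div_iff₀ (by positivity) (by positivity)]; nlinarith [sq_nonneg (n : ℝ)]
  have h7 := mul_le_mul_of_nonneg_right h6 (mul_self_nonneg ‖v‖)
  have := h1.2 v
  nlinarith

namespace ME

theorem left (h : ME l g x g' x') : MB l g x :=
  ⟨fun a b => (h.ge a b).left, h.pos.imp fun _ hc => ⟨hc.1, hc.2.mono fun _ h => h.1⟩⟩

theorem symm (h : ME l g x g' x') : ME l g' x' g x :=
  ⟨fun a b => (h.ge a b).symm, h.pos.imp fun _ hc => ⟨hc.1, hc.2.mono fun _ h => h.symm⟩⟩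

theorem right (h : ME l g x g' x') : MB l g' x' := h.symm.left

theorem trans (h : ME l g x g' x') (h' : ME l g' x' g'' x'') : ME l g x g'' x'' := by
  obtain ⟨c, hc, h1⟩ := h'.pos
  exact h.left.me_of (fun a b => (h.ge a b).trans (h'.ge a b)) (h1.mono fun j hj => hj.2.1)

theorem comap (h : ME l g x g' x') {m : Filter κ} {e : κ → ι} (he : Tendsto e m l) :
    ME m (fun j => g (e j)) (fun j => x (e j)) (fun j => g' (e j)) fun j => x' (e j) :=
  ⟨fun a b => (h.ge a b).comap he, h.pos.imp fun _ hc => ⟨hc.1, he.eventually hc.2⟩⟩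

variable (h : ME l g x g' x')
include h

/-- smooth functions of a positive definite matrix -/
theorem fn {Z : Type} [NormedAddCommGroup Z] [NormedSpace ℝ Z] {Φ : (Fin n → Fin n → ℝ) → Z}
    (hΦ : ∀ A, (Matrix.of A).PosDef → ContDiffAt ℝ ∞ Φ A) :
    GE l (fun j y => Φ (g j y)) x (fun j y => Φ (g' j y)) x' := by
  obtain ⟨c, hc, hp⟩ := h.pos
  have hg := GE.pi fun a => GE.pi fun b => h.ge a b
  obtain ⟨C, hC⟩ := hg.left.val
  obtain ⟨D, hD⟩ := hg.right.val
  refine GE.smoothOn (Φ := Φ) ((isCompact_closedBall (0 : Fin n → Fin n → ℝ) (max C D)).inter_right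
    (isClosed_pos c))
    (fun A hA => hΦ A (hA.2.posDef hc)) hg ?_ ?_
  · filter_upwards [hC, hp] with j a b using ⟨by simpa using Or.inl a, b.1⟩
  · filter_upwards [hD, hp] with j a b using ⟨by simpa using Or.inr a, b.2⟩

omit h in
theorem sm_det : ContDiff ℝ ∞ fun A : Fin n → Fin n → ℝ => (Matrix.of A).det := by
  simp only [Matrix.det_apply', Matrix.of_apply]
  fun_prop

theorem det : GE l (fun j y => (g j y).det) x (fun j y => (g' j y).det) x' :=
  h.fn (Φ := fun A => (Matrix.of A).det) fun _ _ => sm_det.contDiffAt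

theorem sqrt_det : GE l (fun j y => √(g j y).det) x (fun j y => √(g' j y).det) x' :=
  h.fn (Φ := fun A => √(Matrix.of A).det) fun _ hA => sm_det.contDiffAt.sqrt hA.det_pos.ne'

theorem inv_sqrt_det : GE l (fun j y => 1 / √(g j y).det) x (fun j y => 1 / √(g' j y).det) x' :=
  h.fn (Φ := fun A => 1 / √(Matrix.of A).det) fun _ hA => contDiffAt_const.div
    (sm_det.contDiffAt.sqrt hA.det_pos.ne') (Real.sqrt_pos.2 hA.det_pos).ne'

theorem inv (a b : Fin n) : GE l (fun j y => (g j y)⁻¹ a b) x (fun j y => (g' j y)⁻¹ a b) x' := by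
  refine h.fn (Φ := fun A => (Matrix.of A)⁻¹ a b) fun A hA => ?_
  simp only [Matrix.inv_def, Ring.inverse_eq_inv, Matrix.smul_apply, smul_eq_mul,
    Matrix.adjugate_apply]
  refine (sm_det.contDiffAt.inv hA.det_pos.ne').mul (ContDiff.contDiffAt ?_)
  refine sm_det.comp (f := fun A : Fin n → Fin n → ℝ => Function.update A b (Pi.single a 1)) ?_
  refine contDiff_pi.2 fun i => ?_
  by_cases hi : i = b
  · subst hi; simpa using contDiff_const
  · simpa [Function.update_of_ne hi] using contDiff_apply ℝ (Fin n → ℝ) i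

theorem chr (c a b : Fin n) : GE l (fun j y => christoffel (g j) y c a b) x
    (fun j y => christoffel (g' j) y c a b) x' :=
  GE.cmul (1 / 2) (GE.sum Finset.univ fun d _ => (h.inv c d).mul
    ((((h.ge b d).pd a).add ((h.ge a d).pd b)).sub ((h.ge a b).pd d)))

theorem gam : GE l (fun j => Gam (g j)) x (fun j => Gam (g' j)) x' :=
  GE.sum Finset.univ fun a _ => GE.sum Finset.univ fun b _ => GE.sum Finset.univ fun c _ =>
    (h.chr c a b).smul (GE.const' _)

theorem riemann (d c a b : Fin n) : GE l (fun j y => riemann (g j) y d c a b) x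
    (fun j y => riemann (g' j) y d c a b) x' :=
  (((h.chr d b c).pd a).sub ((h.chr d a c).pd b)).add (GE.sum Finset.univ fun e _ =>
    ((h.chr d a e).mul (h.chr e b c)).sub ((h.chr d b e).mul (h.chr e a c)))

theorem ricci (a b : Fin n) : GE l (fun j y => ricci (g j) y a b) x
    (fun j y => ricci (g' j) y a b) x' :=
  (((GE.sum Finset.univ fun c _ => (h.chr c a b).pd c).sub
    ((GE.sum Finset.univ fun c _ => h.chr c c a).pd b)).add
    (GE.sum Finset.univ fun c _ => GE.sum Finset.univ fun d _ =>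
      (h.chr c c d).mul (h.chr d a b))).sub
    (GE.sum Finset.univ fun c _ => GE.sum Finset.univ fun d _ => (h.chr c b d).mul (h.chr d c a))

theorem scal : GE l (fun j => scalarCurv (g j)) x (fun j => scalarCurv (g' j)) x' :=
  GE.sum Finset.univ fun a _ => GE.sum Finset.univ fun b _ => (h.inv a b).mul (h.ricci a b)

theorem lap {f f' : ι → En n → ℝ} (hf : GE l f x f' x') :
    GE l (fun j => laplaceBeltrami (g j) (f j)) x (fun j => laplaceBeltrami (g' j) (f' j)) x' :=
  h.inv_sqrt_det.mul (GE.sum Finset.univ fun a _ => (h.sqrt_det.mul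
    (GE.sum Finset.univ fun b _ => (h.inv a b).mul (hf.pd b))).pd a)

theorem matT : TE l (fun j => matT (g j)) x (fun j => matT (g' j)) x' := fun _ => h.ge _ _

theorem ricT : TE l (fun j => ricT (g j)) x (fun j => ricT (g' j)) x' := fun _ => h.ricci _ _

theorem rmT : TE l (fun j => rmT (g j)) x (fun j => rmT (g' j)) x' := fun I =>
  GE.sum Finset.univ fun m _ => (h.ge (I 0) m).mul (h.riemann m (I 1) (I 2) (I 3))

theorem cov (hT : TE l T x T' x') :
    TE l (fun j => cov (g j) (T j)) x (fun j => cov (g' j) (T' j)) x' := fun _ =>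
  ((hT _).pd _).sub (GE.sum Finset.univ fun _ _ => GE.sum Finset.univ fun _ _ =>
    (h.chr _ _ _).mul (hT _))

theorem covN (hT : TE l T x T' x') (i : ℕ) :
    TE l (fun j => covN (g j) (T j) i) x (fun j => covN (g' j) (T' j) i) x' := by
  induction i with
  | zero => exact hT
  | succ i ih => exact h.cov ih

theorem ip (hS : TE l S x S' x') (hT : TE l T x T' x') :
    GE l (fun j => ip (g j) (S j) (T j)) x (fun j => ip (g' j) (S' j) (T' j)) x' :=
  GE.sum Finset.univ fun _ _ => GE.sum Finset.univ fun _ _ =>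
    (GE.prod Finset.univ fun _ _ => h.inv _ _).mul ((hS _).mul (hT _))

theorem nsq (hT : TE l T x T' x') :
    GE l (fun j => nsq (g j) (T j)) x (fun j => nsq (g' j) (T' j)) x' := h.ip hT hT

theorem trT {T T' : ι → Tn n (k + 2)} (hT : TE l T x T' x') :
    TE l (fun j => trT (g j) (T j)) x (fun j => trT (g' j) (T' j)) x' := fun _ =>
  GE.sum Finset.univ fun _ _ => GE.sum Finset.univ fun _ _ => (h.inv _ _).mul (hT _)

theorem divT {T T' : ι → Tn n (k + 1)} (hT : TE l T x T' x') :
    TE l (fun j => divT (g j) (T j)) x (fun j => divT (g' j) (T' j)) x' := h.trT (h.cov hT)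

theorem lapT (hT : TE l T x T' x') :
    TE l (fun j => lapT (g j) (T j)) x (fun j => lapT (g' j) (T' j)) x' := h.trT (h.cov (h.cov hT))

end ME

/-- pull-back -/
theorem TE.pullT {Φ Φ' : ι → En n → En n} (hΦ : GE l Φ x Φ' x')
    (hT : TE l T (fun j => Φ j (x j)) T' fun j => Φ' j (x' j)) :
    TE l (fun j => pullT (Φ j) (T j)) x (fun j => pullT (Φ' j) (T' j)) x' := fun _ =>
  GE.sum Finset.univ fun J _ => (GE.prod Finset.univ fun s _ =>
    (hΦ.fderiv.app (GE.const' _)).coord (J s)).mul ((hT J).comp hΦ)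

end Crest.Agent.N207.Jt

end
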