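import Crest.Agent.N207.I.Defs
import Crest.Agent.N207.I.Met

/-!
# Row 207, block I (helper56): ultralimits of coordinate metrics on open sets
-/

set_option autoImplicit false

open scoped ContDiff Topology
open Set Filter Metric
open Crest.GeometryTopology.CoordMetric Crest.Agent.R202.Tens

noncomputable section

namespace Crest.Agent.N207.I

open Jt

variable {ι : Type} {n : ℕ}

/-- jets of `f (c • ·)` -/
theorem norm_iter_smul {X Y : Type} [NormedAddCommGroup X] [NormedSpace ℝ X]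
    [NormedAddCommGroup Y] [NormedSpace ℝ Y] (f : X → Y) {c : ℝ} (hc : 0 < c) (k : ℕ) (x : X) :
    ‖iteratedFDeriv ℝ k (fun z => f (c • z)) x‖ ≤ c ^ k * ‖iteratedFDeriv ℝ k f (c • x)‖ := by
  let g : X ≃L[ℝ] X := ContinuousLinearEquiv.smulLeft (Units.mk0 c hc.ne')
  have h := g.iteratedFDerivWithin_comp_right f uniqueDiffOn_univ (mem_univ (g x)) k
  rw [preimage_univ, iteratedFDerivWithin_univ, iteratedFDerivWithin_univ] at h
  have e : (fun z => f (c • z)) = f ∘ g := rfl
  rw [e, h]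
  refine (ContinuousMultilinearMap.norm_compContinuousLinearMap_le _ _).trans ?_
  have h1 : ‖(g : X →L[ℝ] X)‖ ≤ c := ContinuousLinearMap.opNorm_le_bound _ hc.le fun z => by
    show ‖c • z‖ ≤ _
    rw [norm_smul, Real.norm_of_nonneg hc.le]
  rw [mul_comm]
  refine mul_le_mul_of_nonneg_right ?_ (norm_nonneg _)
  calc ∏ _i : Fin k, ‖(g : X →L[ℝ] X)‖ ≤ ∏ _i : Fin k, c :=
        Finset.prod_le_prod (fun _ _ => norm_nonneg _) fun _ _ => h1
    _ = c ^ k := by simp

/-- near the identity matrix -/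
theorem pos_of_small {A : Matrix (Fin 4) (Fin 4) ℝ} (hs : ∀ a b, A a b = A b a)
    (h : ∀ a b, |A a b - (1 : Matrix (Fin 4) (Fin 4) ℝ) a b| ≤ 1 / 100) : Pos (1 / 2) A := by
  refine ⟨hs, fun v => ?_⟩
  have h1 := abs_bil_le (A := A - 1) (C := 1 / 100) h v v
  have h2 : bil A v v = bil (A - 1) v v + ‖v‖ ^ 2 := by
    rw [EuclideanSpace.real_norm_sq_eq]
    simp only [bil_apply, Matrix.sub_apply, Matrix.one_apply,
      sub_mul, Finset.sum_sub_distrib, ite_mul, one_mul, zero_mul, Finset.sum_ite_eq,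
      Finset.mem_univ, if_true, sq]
    ring
  have h3 := neg_abs_le (bil (A - 1) v v)
  push_cast at h1
  nlinarith [norm_nonneg v]

/-- the ultralimit of coordinate metrics -/
def mlim (U : Ultrafilter ι) (H : ι → MetricField n) : MetricField n :=
  fun x => Matrix.of fun p q => ul U (fun i y => H i y p q) x

/-- locally uniform bounds on `O` -/
def LocB (U : Ultrafilter ι) (H : ι → MetricField n) (O : Set (En n)) : Prop :=
  ∀ K, IsCompact K → K ⊆ O → ∃ O', IsOpen O' ∧ K ⊆ O' ∧
    (∀ p q, UB U (fun i y => H i y p q) fun _ => O') ∧ ∃ c > 0, ∀ᶠ i in U, ∀ y ∈ O', Pos c (H i y)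

variable {U : Ultrafilter ι} {H : ι → MetricField n} {O : Set (En n)}

theorem LocB.ue (h : LocB U H O) {K : Set (En n)} (hK : IsCompact K) (hKO : K ⊆ O) (p q : Fin n) :
    UE U (fun i y => H i y p q) (fun _ y => mlim U H y p q) fun _ => K := by
  obtain ⟨O', hO', hK', hb, -⟩ := h K hK hKO
  exact ((hb p q).lim hO').2 K hK hK'

theorem LocB.ge (h : LocB U H O) {x : En n} (hx : x ∈ O) (p q : Fin n) :
    GE U (fun i y => H i y p q) (fun _ => x) (fun _ y => mlim U H y p q) fun _ => x :=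
  (h.ue isCompact_singleton (singleton_subset_iff.2 hx) p q).at tendsto_id
    (Eventually.of_forall fun _ => mem_singleton x)

theorem LocB.tendsto (h : LocB U H O) {x : En n} (hx : x ∈ O) (p q : Fin n) :
    Tendsto (fun i => H i x p q) U (𝓝 (mlim U H x p q)) := by
  simpa using ((h.ge hx p q).val.add_const (mlim U H x p q))

theorem LocB.pos (h : LocB U H O) {x : En n} (hx : x ∈ O) {c : ℝ}
    (hc : ∀ᶠ i in U, Pos c (H i x)) : Pos c (mlim U H x) := by
  have h1 : Tendsto (fun i p q => H i x p q) U (𝓝 fun p q => mlim U H x p q) :=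
    tendsto_pi_nhds.2 fun p => tendsto_pi_nhds.2 fun q => h.tendsto hx p q
  have h2 := (isClosed_pos c).mem_of_tendsto h1 hc
  exact h2

theorem LocB.me (h : LocB U H O) {x : En n} (hx : x ∈ O) :
    ME U H (fun _ => x) (fun _ => mlim U H) fun _ => x := by
  obtain ⟨O', -, hK', -, c, hc, hp⟩ := h {x} isCompact_singleton (singleton_subset_iff.2 hx)
  have h1 := hp.mono fun i hi => hi x (hK' rfl)
  exact ⟨h.ge hx, c, hc, h1.mono fun i hi => ⟨hi, h.pos hx h1⟩⟩

theorem LocB.riem (h : LocB U H O) (hO : IsOpen O) : IsRiemannianOn (mlim U H) O := by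
  refine ⟨hO, fun p q x hx => ?_, fun x hx => ?_⟩
  · obtain ⟨i, hi⟩ := (h.ge hx p q).right.sm.exists
    exact hi.contDiffWithinAt
  · obtain ⟨c, hc, hp⟩ := (h.me hx).pos
    obtain ⟨i, hi⟩ := hp.exists
    exact hi.2.posDef hc

theorem LocB.ricci (h : LocB U H O) {x : En n} (hx : x ∈ O) (p q : Fin n)
    (hr : Tendsto (fun i => ricci (H i) x p q) U (𝓝 0)) : ricci (mlim U H) x p q = 0 := by
  have h1 := hr.sub ((h.me hx).ricci p q).val
  simp only [sub_sub_cancel, sub_zero] at h1
  exact tendsto_nhds_unique tendsto_const_nhds h1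

/-- bounds on jets of `H - δ` pass to the limit -/
theorem LocB.jet {H : ι → MetricField 4} {O : Set E4} (h : LocB U H O) {x : E4} (hx : x ∈ O)
    (p q : Fin 4) (k : ℕ) {b : ι → ℝ} {b0 : ℝ} (hb : Tendsto b U (𝓝 b0))
    (hk : ∀ᶠ i in U, ‖iteratedFDeriv ℝ k (TD.dv (H i) p q) x‖ ≤ b i) :
    ‖iteratedFDeriv ℝ k (TD.dv (mlim U H) p q) x‖ ≤ b0 := by
  have h1 : GE U (fun i => TD.dv (H i) p q) (fun _ => x) (fun _ => TD.dv (mlim U H) p q)
      fun _ => x := (h.ge hx p q).sub (GE.const' _)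
  have h2 := (h1.lim k).norm
  rw [norm_zero] at h2
  refine ge_of_tendsto (by simpa using hb.add h2) (hk.mono fun i hi => ?_)
  have := norm_sub_norm_le (iteratedFDeriv ℝ k (TD.dv (mlim U H) p q) x)
    (iteratedFDeriv ℝ k (TD.dv (H i) p q) x)
  rw [norm_sub_rev] at this
  linarith

theorem LocB.small {H : ι → MetricField 4} {O : Set E4} (h : LocB U H O) {x : E4} (hx : x ∈ O)
    (p q : Fin 4) {b : ℝ} (hk : ∀ᶠ i in U, |TD.dv (H i) p q x| ≤ b) :
    |TD.dv (mlim U H) p q x| ≤ b := by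
  have := h.jet hx p q 0 (tendsto_const_nhds (x := b)) (by simpa using hk)
  simpa using this

/-- from jets of `H - δ` to jets of `H` -/
theorem ub_of_dv {l : Filter ι} {H : ι → MetricField 4} {S : ι → Set E4} {p q : Fin 4}
    (h : UB l (fun i => TD.dv (H i) p q) S) : UB l (fun i y => H i y p q) S := by
  have := GB.add h (GB.const' ((1 : Matrix (Fin 4) (Fin 4) ℝ) p q))
  simp only [TD.dv, sub_add_cancel] at this
  exact this

/-- the tensor transformation law passes to the limit -/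
theorem LocB.compat {H' : ι → MetricField n} {O' : Set (En n)} (h : LocB U H O)
    (h' : LocB U H' O') {x : En n} {F : En n → En n} (hx : x ∈ O) (hy : F x ∈ O')
    (e : ∀ᶠ i in U, matT (H i) x = pullT F (matT (H' i)) x) :
    matT (mlim U H) x = pullT F (matT (mlim U H')) x := by
  funext I
  refine tendsto_nhds_unique_of_eventuallyEq (h.tendsto hx (I 0) (I 1)) ?_
    (e.mono fun i hi => congrFun hi I)
  exact tendsto_finset_sum _ fun J _ => (h'.tendsto hy (J 0) (J 1)).const_mul _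

end Crest.Agent.N207.I

end
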