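import Crest.Agent.N207.I.Defs
import Crest.Agent.N207.AI.Glob1
import Crest.Agent.N207.A.Co3

/-!
# Row 207, block I (helper67): calculus on an atlas, part 1: transitions, compatible families
-/

set_option autoImplicit false

open scoped ContDiff Topology
open Set Filter
open Crest.GeometryTopology.CoordMetric Crest.GeometryTopology.ChartCurvature
  Crest.GeometryTopology.MetricFamily
open Crest.Agent.R247 Crest.Agent.R202.Tens

noncomputable section

namespace Crest.Agent.N207.I.Atl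

variable {X : Type*} {α : Type} {A : Atl X α} {k : ℕ} {a b d : α} {x y : E4} {F F' : E4 → E4}

namespace Tr

theorem cda (t : A.Tr a b x F) : ContDiffAt ℝ ∞ F x := t.sm.self_of_nhds

theorem cont (t : A.Tr a b x F) : ContinuousAt F x := t.cda.continuousAt

theorem diff (t : A.Tr a b x F) : DifferentiableAt ℝ F x := t.cda.differentiableAt (by simp)

theorem eq0 (t : A.Tr a b x F) : A.c b (F x) = A.c a x := t.eq.self_of_nhds

theorem ev (h : A.Ok) (t : A.Tr a b x F) : ∀ᶠ z in 𝓝 x, A.Tr a b z F := by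
  filter_upwards [(h.isOpen a).mem_nhds t.mem, t.cont ((h.isOpen b).mem_nhds t.mem'),
    t.sm.eventually_nhds, t.eq.eventually_nhds] with z h1 h2 h3 h4 using ⟨h1, h2, h3, h4⟩

theorem comp (t : A.Tr a b x F) (t' : A.Tr b d (F x) F') : A.Tr a d x fun z => F' (F z) := by
  refine ⟨t.mem, t'.mem', ?_, ?_⟩
  · filter_upwards [t.sm, t.cont t'.sm] with z h1 h2 using ContDiffAt.comp z h2 h1
  · filter_upwards [t.eq, t.cont t'.eq] with z h1 h2 using Eq.trans h2 h1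

theorem congr (t : A.Tr a b x F) (e : F' =ᶠ[𝓝 x] F) : A.Tr a b x F' := by
  refine ⟨t.mem, e.eq_of_nhds ▸ t.mem', ?_, ?_⟩
  · filter_upwards [t.sm, e.eventuallyEq_nhds] with z h1 h2 using h1.congr_of_eventuallyEq h2
  · filter_upwards [t.eq, e] with z h1 h2 using h2 ▸ h1

end Tr

theorem tr_id (hx : x ∈ A.U a) : A.Tr a a x fun z => z :=
  ⟨hx, hx, Eventually.of_forall fun _ => contDiffAt_id, Eventually.of_forall fun _ => rfl⟩

theorem Ok.c_deck (h : A.Ok) {γ : Iso4} (hγ : γ ∈ A.Γ a) (hx : x ∈ A.U a) :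
    A.c a (γ x) = A.c a x := ((h.fib a x hx _ (h.inv a γ hγ x hx)).2 ⟨γ, hγ, rfl⟩).symm

theorem Ok.tr_deck (h : A.Ok) {γ : Iso4} (hγ : γ ∈ A.Γ a) (hx : x ∈ A.U a) : A.Tr a a x γ :=
  ⟨hx, h.inv a γ hγ x hx, Eventually.of_forall fun _ => γ.contDiff.contDiffAt, by
    filter_upwards [(h.isOpen a).mem_nhds hx] with z hz using h.c_deck hγ hz⟩

theorem Ok.deck_inj (h : A.Ok) {γ δ : Iso4} (hγ : γ ∈ A.Γ a) (hδ : δ ∈ A.Γ a) (hx : x ∈ A.U a)
    (e : γ x = δ x) : γ = δ := by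
  have := h.free a (δ⁻¹ * γ) (mul_mem (inv_mem hδ) hγ) x hx (by
    rw [LinearIsometryEquiv.coe_mul, Function.comp, e]; exact δ.symm_apply_apply x)
  exact (inv_mul_eq_one.1 this).symm

/-- charts are locally injective -/
theorem Ok.locInj (h : A.Ok) (hx : x ∈ A.U a) :
    ∀ᶠ p : E4 × E4 in 𝓝 (x, x), A.c a p.1 = A.c a p.2 → p.1 = p.2 := by
  have := h.fin a
  have h1 : ∀ γ : A.Γ a, ∀ᶠ p : E4 × E4 in 𝓝 (x, x), (γ : Iso4) p.1 = p.2 → p.1 = p.2 := by
    intro γ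
    by_cases e : (γ : Iso4) = 1
    · exact Eventually.of_forall fun p hp => by rwa [e] at hp
    · have : ∀ᶠ p : E4 × E4 in 𝓝 (x, x), (γ : Iso4) p.1 ≠ p.2 :=
        (isOpen_ne_fun (γ.1.continuous.comp continuous_fst) continuous_snd).mem_nhds
          fun e' => e (h.free a γ γ.2 x hx e')
      exact this.mono fun p hp hp' => absurd hp' hp
  have h2 : ∀ᶠ p : E4 × E4 in 𝓝 (x, x), p.1 ∈ A.U a ∧ p.2 ∈ A.U a :=
    ((h.isOpen a).prod (h.isOpen a)).mem_nhds ⟨hx, hx⟩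
  filter_upwards [eventually_all.2 h1, h2] with p hp hq e
  obtain ⟨γ, hγ, e'⟩ := (h.fib a _ hq.1 _ hq.2).1 e
  exact hp ⟨γ, hγ⟩ e'

namespace Tr

theorem uniq (h : A.Ok) (t : A.Tr a b x F) (t' : A.Tr a b x F') (e : F x = F' x) :
    F =ᶠ[𝓝 x] F' := by
  have h1 : Tendsto (fun z => (F z, F' z)) (𝓝 x) (𝓝 (F x, F x)) :=
    t.cont.tendsto.prodMk_nhds (e ▸ t'.cont.tendsto)
  filter_upwards [h1 (h.locInj t.mem'), t.eq, t'.eq] with z h2 h3 h4 using h2 (h3.trans h4.symm)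

theorem exists_inv (h : A.Ok) (t : A.Tr a b x F) : ∃ F', A.Tr b a (F x) F' ∧ F' (F x) = x ∧
    (fun z => F' (F z)) =ᶠ[𝓝 x] fun z => z := by
  obtain ⟨F', t', e⟩ := h.loc b a _ t.mem' _ t.mem t.eq0
  exact ⟨F', t', e, (t.comp t').uniq h (tr_id t.mem) e⟩

theorem inj (h : A.Ok) (t : A.Tr a b x F) : Function.Injective (fderiv ℝ F x) := by
  obtain ⟨F', t', -, e⟩ := t.exists_inv h
  have h1 : fderiv ℝ (fun z => F' (F z)) x = (fderiv ℝ F' (F x)).comp (fderiv ℝ F x) :=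
    fderiv_comp x t'.diff t.diff
  rw [e.fderiv_eq, fderiv_fun_id] at h1
  exact Function.LeftInverse.injective (g := fderiv ℝ F' (F x)) fun v =>
    (congrArg (fun L : E4 →L[ℝ] E4 => L v) h1).symm

/-- an open set on which `F` is an injective change of charts -/
theorem exists_nbhd (h : A.Ok) (t : A.Tr a b x F) :
    ∃ V, IsOpen V ∧ x ∈ V ∧ (∀ z ∈ V, A.Tr a b z F) ∧ InjOn F V := by
  obtain ⟨F', -, -, e⟩ := t.exists_inv h
  obtain ⟨V, h1, h2, h3⟩ := eventually_nhds_iff.1 ((t.ev h).and e)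
  exact ⟨V, h2, h3, fun z hz => (h1 z hz).1, fun z hz w hw e' =>
    (h1 z hz).2.symm.trans ((congrArg F' e').trans (h1 w hw).2)⟩

/-- open images -/
theorem ev_mem_image (h : A.Ok) {B : Set E4} (hB : IsOpen B) (hBU : B ⊆ A.U a) (hy : y ∈ A.U b)
    (e : A.c b y ∈ A.c a '' B) : ∀ᶠ z in 𝓝 y, A.c b z ∈ A.c a '' B := by
  obtain ⟨x, hx, e⟩ := e
  obtain ⟨F, t, rfl⟩ := h.loc b a y hy x (hBU hx) e.symm
  filter_upwards [t.eq, t.cont (hB.mem_nhds hx)] with z h1 h2 using ⟨_, h2, h1⟩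

end Tr

variable {G : α → MetricField 4} {S T : α → Tn 4 k} {V : Set E4}

theorem Compat.rel (hT : A.Compat T) (hV : ∀ z ∈ V, A.Tr a b z F) : Rel F V (T a) (T b) :=
  fun z hz => hT a b z F (hV z hz)

theorem CompF.tr {Y : Type*} {f : α → E4 → Y} (hf : A.CompF f) (t : A.Tr a b x F) :
    f a x = f b (F x) := hf a b x t.mem _ t.mem' t.eq0.symm

theorem IsMet.pull (h : A.Ok) (hG : A.IsMet G) (hV : IsOpen V) (t : ∀ z ∈ V, A.Tr a b z F) :
    Pull (G a) (G b) F V (A.U b) := by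
  refine ⟨hV, hG.riem b, fun z hz => (t z hz).mem', fun z hz => (t z hz).cda.contDiffWithinAt,
    fun z hz i j => ?_, fun z hz => (t z hz).inj h⟩
  have := congrFun (hG.compat a b z F (t z hz)) ![i, j]
  rw [pullT, AI.evT_two] at this
  refine this.trans (Finset.sum_congr rfl fun p _ => Finset.sum_congr rfl fun q _ => ?_)
  simp [matT]
  ring

/-- the tool for all the closure properties -/
theorem IsMet.loc (h : A.Ok) (hG : A.IsMet G) (t : A.Tr a b x F) :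
    ∃ V, x ∈ V ∧ (∀ z ∈ V, A.Tr a b z F) ∧ Pull (G a) (G b) F V (A.U b) := by
  obtain ⟨V, h1, h2, h3, -⟩ := t.exists_nbhd h
  exact ⟨V, h2, h3, hG.pull h h1 h3⟩

theorem IsMet.sqrt_det (h : A.Ok) (hG : A.IsMet G) (t : A.Tr a b x F) :
    √(G a x).det = √(G b (F x)).det * |(fderiv ℝ F x).det| := by
  obtain ⟨V, h1, -, p⟩ := hG.loc h t
  rw [p.det_pull h1, Real.sqrt_mul (Bo84.det_pos p.riem (p.maps x h1)).le, Real.sqrt_sq_eq_abs]

theorem compF_of_tr {Y : Type*} {f : α → E4 → Y} (h : A.Ok)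
    (hf : ∀ a b x F, A.Tr a b x F → f a x = f b (F x)) : A.CompF f := fun a b x hx y hy e => by
  obtain ⟨F, t, rfl⟩ := h.loc a b x hx y hy e
  exact hf a b x F t

theorem compF_comp {Y : Type*} (f : X → Y) : A.CompF fun a x => f (A.c a x) :=
  fun _ _ _ _ _ _ e => congrArg f e

theorem CompF.map {Y Z : Type*} {f : α → E4 → Y} (hf : A.CompF f) (φ : Y → Z) :
    A.CompF fun a x => φ (f a x) := fun a b x hx y hy e => congrArg φ (hf a b x hx y hy e)

theorem CompF.map₂ {Y Y' Z : Type*} {f : α → E4 → Y} {g : α → E4 → Y'} (hf : A.CompF f)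
    (hg : A.CompF g) (φ : Y → Y' → Z) : A.CompF fun a x => φ (f a x) (g a x) :=
  fun a b x hx y hy e => congrArg₂ φ (hf a b x hx y hy e) (hg a b x hx y hy e)

namespace Compat

theorem one (hT : A.Compat T) (t : A.Tr a b x F) : Rel F {x} (T a) (T b) :=
  hT.rel fun _ hz => hz ▸ t

theorem congr (hT : A.Compat T) (e : ∀ a, ∀ x ∈ A.U a, S a x = T a x) : A.Compat S :=
  fun a b x F t => by
    rw [e a x t.mem, hT a b x F t]
    exact AI.pullT_congr EventuallyEq.rfl (e b _ t.mem').symm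

theorem zero : A.Compat (0 : α → Tn 4 k) := fun _ _ x _ _ => Rel.zero (V := {x}) x rfl

theorem add (hS : A.Compat S) (hT : A.Compat T) : A.Compat (S + T) :=
  fun _ _ x _ t => ((hS.one t).add (hT.one t)) x rfl

theorem sub (hS : A.Compat S) (hT : A.Compat T) : A.Compat (S - T) :=
  fun _ _ x _ t => ((hS.one t).sub (hT.one t)) x rfl

theorem neg (hT : A.Compat T) : A.Compat (-T) := fun _ _ x _ t => (hT.one t).neg x rfl

theorem smul (c : ℝ) (hT : A.Compat T) : A.Compat (c • T) :=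
  fun _ _ x _ t => (hT.one t).smul c x rfl

theorem sum {ι : Type*} (s : Finset ι) {R : ι → α → Tn 4 k} (hR : ∀ i ∈ s, A.Compat (R i)) :
    A.Compat (∑ i ∈ s, R i) := fun _ _ x _ t => by
  simp only [Finset.sum_apply (s := s) (g := R)]
  exact Rel.sum s (fun i hi => (hR i hi).one t) x rfl

theorem prmT (σ : Equiv.Perm (Fin k)) (hT : A.Compat T) : A.Compat fun a => prmT σ (T a) :=
  fun _ _ x _ t => (hT.one t).prmT σ x rfl

theorem smT {f : α → E4 → ℝ} (hf : A.CompF f) (hT : A.Compat T) :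
    A.Compat fun a => smT (f a) (T a) :=
  fun _ _ x _ t => Rel.smT (fun _ hz => hz ▸ hf.tr t) (hT.one t) x rfl

theorem fnT {f : α → E4 → ℝ} (hf : A.CompF f) : A.Compat fun a => fnT (f a) :=
  fun _ _ x _ t => Rel.fnT (V := {x}) (fun _ hz => hz ▸ hf.tr t) x rfl

theorem val {T : α → Tn 4 0} (h : A.Ok) (hT : A.Compat T) : A.CompF fun a x => T a x ![] :=
  compF_of_tr h fun _ _ _ _ t => (hT.one t).val rfl

/-- a compatible tensor vanishes in all charts or in none -/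
theorem eq_zero (h : A.Ok) (hT : A.Compat T) (hx : x ∈ A.U a) (hy : y ∈ A.U b)
    (e : A.c a x = A.c b y) (h0 : T b y = 0) : T a x = 0 := by
  obtain ⟨F, t, rfl⟩ := h.loc a b x hx y hy e
  rw [hT a b x F t]
  funext I
  simp [pullT, evT, h0]

variable (h : A.Ok) (hG : A.IsMet G)
include h hG

theorem trT {T : α → Tn 4 (k + 2)} (hT : A.Compat T) : A.Compat fun a => trT (G a) (T a) :=
  fun _ _ x _ t => let ⟨_, h1, h2, p⟩ := hG.loc h t; (hT.rel h2).trT p x h1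

theorem conT {T : α → Tn 4 (k + 1)} (hS : A.Compat S) (hT : A.Compat T) :
    A.Compat fun a => conT (G a) (S a) (T a) :=
  fun _ _ x _ t => let ⟨_, h1, h2, p⟩ := hG.loc h t; (hS.rel h2).conT p (hT.rel h2) x h1

theorem ip (hS : A.Compat S) (hT : A.Compat T) : A.CompF fun a => ip (G a) (S a) (T a) :=
  compF_of_tr h fun _ _ _ _ t =>
    let ⟨_, h1, h2, p⟩ := hG.loc h t; (hS.rel h2).ip p (hT.rel h2) h1

theorem nsq (hT : A.Compat T) : A.CompF fun a => nsq (G a) (T a) := hT.ip h hG hT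

end Compat

theorem IsMet.compF_scal (h : A.Ok) (hG : A.IsMet G) : A.CompF fun a => scalarCurv (G a) :=
  compF_of_tr h fun _ _ _ _ t => let ⟨_, h1, _, p⟩ := hG.loc h t; AI.scalarCurv_pull p h1

namespace Sec

theorem congr (hT : A.Sec T) (e : ∀ a, ∀ x ∈ A.U a, S a x = T a x) : A.Sec S :=
  ⟨fun a => (hT.sm a).congr (e a), hT.compat.congr e⟩

theorem zero : A.Sec (0 : α → Tn 4 k) := ⟨fun _ => SmT.zero, Compat.zero⟩

theorem add (hS : A.Sec S) (hT : A.Sec T) : A.Sec (S + T) :=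
  ⟨fun a => (hS.sm a).add (hT.sm a), hS.compat.add hT.compat⟩

theorem sub (hS : A.Sec S) (hT : A.Sec T) : A.Sec (S - T) :=
  ⟨fun a => (hS.sm a).sub (hT.sm a), hS.compat.sub hT.compat⟩

theorem neg (hT : A.Sec T) : A.Sec (-T) := ⟨fun a => (hT.sm a).neg, hT.compat.neg⟩

theorem smul (c : ℝ) (hT : A.Sec T) : A.Sec (c • T) :=
  ⟨fun a => (hT.sm a).smul c, hT.compat.smul c⟩

theorem sum {ι : Type*} (s : Finset ι) {R : ι → α → Tn 4 k} (hR : ∀ i ∈ s, A.Sec (R i)) :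
    A.Sec (∑ i ∈ s, R i) :=
  ⟨fun a => by
    rw [Finset.sum_apply]; exact SmT.sum s fun i hi => (hR i hi).sm a,
    Compat.sum s fun i hi => (hR i hi).compat⟩

theorem prmT (σ : Equiv.Perm (Fin k)) (hT : A.Sec T) : A.Sec fun a => prmT σ (T a) :=
  ⟨fun a _ => hT.sm a _, hT.compat.prmT σ⟩

theorem smT {f : α → E4 → ℝ} (hf : A.CompF f) (hs : ∀ a, ContDiffOn ℝ ∞ (f a) (A.U a))
    (hT : A.Sec T) : A.Sec fun a => smT (f a) (T a) :=
  ⟨fun a => (hT.sm a).smT (hs a), hT.compat.smT hf⟩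

theorem smF {f : X → ℝ} (hf : A.SmF f) (hT : A.Sec T) :
    A.Sec fun a => N207.smT (fun x => f (A.c a x)) (T a) := hT.smT (compF_comp f) hf

theorem fnT {f : α → E4 → ℝ} (hf : A.CompF f) (hs : ∀ a, ContDiffOn ℝ ∞ (f a) (A.U a)) :
    A.Sec fun a => fnT (f a) := ⟨fun a => SmT.fnT (hs a), Compat.fnT hf⟩

theorem met (hG : A.IsMet G) : A.Sec fun a => matT (G a) :=
  ⟨fun a => SmT.met (hG.riem a), hG.compat⟩

variable (h : A.Ok) (hG : A.IsMet G)
include h hG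

theorem cov (hT : A.Sec T) : A.Sec fun a => cov (G a) (T a) :=
  ⟨fun a => (hT.sm a).cov (hG.riem a), fun _ b x _ t =>
    let ⟨_, h1, h2, p⟩ := hG.loc h t; (hT.compat.rel h2).cov p (hT.sm b) x h1⟩

theorem covN (hT : A.Sec T) : ∀ j, A.Sec fun a => covN (G a) (T a) j
  | 0 => hT
  | j + 1 => (covN hT j).cov h hG

theorem trT {T : α → Tn 4 (k + 2)} (hT : A.Sec T) : A.Sec fun a => trT (G a) (T a) :=
  ⟨fun a => (hT.sm a).trT (hG.riem a), hT.compat.trT h hG⟩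

theorem divT {T : α → Tn 4 (k + 1)} (hT : A.Sec T) : A.Sec fun a => divT (G a) (T a) :=
  (hT.cov h hG).trT h hG

theorem lapT (hT : A.Sec T) : A.Sec fun a => lapT (G a) (T a) :=
  ((hT.cov h hG).cov h hG).trT h hG

theorem conT {T : α → Tn 4 (k + 1)} (hS : A.Sec S) (hT : A.Sec T) :
    A.Sec fun a => conT (G a) (S a) (T a) :=
  ⟨fun a => (hS.sm a).conT (hG.riem a) (hT.sm a), hS.compat.conT h hG hT.compat⟩

theorem dT {f : α → E4 → ℝ} (hf : A.CompF f) (hs : ∀ a, ContDiffOn ℝ ∞ (f a) (A.U a)) :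
    A.Sec fun a => dT (f a) := by
  simpa only [cov_fnT] using (fnT hf hs).cov h hG

theorem hessT {f : α → E4 → ℝ} (hf : A.CompF f) (hs : ∀ a, ContDiffOn ℝ ∞ (f a) (A.U a)) :
    A.Sec fun a => hessT (G a) (f a) := (dT h hG hf hs).cov h hG

theorem ricT : A.Sec fun a => ricT (G a) :=
  ⟨fun a => SmT.ricT (hG.riem a), fun _ _ x _ t =>
    let ⟨_, h1, _, p⟩ := hG.loc h t; Rel.ricT p x h1⟩

theorem rmT : A.Sec fun a => rmT (G a) :=
  ⟨fun a => SmT.rmT (hG.riem a), fun _ _ x _ t =>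
    let ⟨_, h1, _, p⟩ := hG.loc h t; Rel.rmT p x h1⟩

end Sec

theorem CompF.lap {f : α → E4 → ℝ} (h : A.Ok) (hG : A.IsMet G) (hf : A.CompF f)
    (hs : ∀ a, ContDiffOn ℝ ∞ (f a) (A.U a)) : A.CompF fun a => laplaceBeltrami (G a) (f a) :=
  fun a b x hx y hy e => by
    have h2 : ∀ a, ∀ x ∈ A.U a, ContDiffAt ℝ 2 (f a) x := fun a x hx =>
      ((hs a).contDiffAt ((h.isOpen a).mem_nhds hx)).of_le (by norm_cast)
    show laplaceBeltrami (G a) (f a) x = laplaceBeltrami (G b) (f b) y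
    rw [lapB_eq_divT (hG.riem a) hx (h2 a x hx), lapB_eq_divT (hG.riem b) hy (h2 b y hy)]
    exact ((Sec.dT h hG hf hs).divT h hG).compat.val h a b x hx y hy e

end Crest.Agent.N207.I.Atl

end
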