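import Crest.Agent.N207.I.Car3
import Crest.Agent.N207.G.Tr

/-!
# Row 207, block I (helper98): compatibility criterion, atlases from parametrisations
-/

set_option autoImplicit false
set_option linter.unusedSectionVars false

open scoped ContDiff Topology Manifold
open Set Filter Metric

noncomputable section

namespace Crest.Agent.N207.I

theorem pullT_ev {k : ℕ} {Φ Φ' : E4 → E4} (S : Tn 4 k) {y : E4} (h : Φ =ᶠ[𝓝 y] Φ') :
    pullT Φ S y = pullT Φ' S y := by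
  funext I
  rw [pullT, pullT, h.fderiv_eq, h.eq_of_nhds]

namespace Atl

variable {X : Type*} {α : Type} {A : Atl X α}

/-- a change of charts from a chart to itself is a deck transformation -/
theorem Ok.tr_self (h : A.Ok) {a : α} {x : E4} {F : E4 → E4} (hF : A.Tr a a x F) :
    ∃ γ ∈ A.Γ a, F =ᶠ[𝓝 x] γ := by
  obtain ⟨γ, hγ, e⟩ := (h.fib a x hF.mem _ hF.mem').1 hF.eq.self_of_nhds.symm
  refine ⟨γ, hγ, ?_⟩
  have := h.fin a
  have hc := hF.sm.self_of_nhds.continuousAt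
  have h1 : ∀ δ : A.Γ a, ∀ᶠ z in 𝓝 x, (δ : Iso4) z = F z → (δ : Iso4) = γ := fun δ => by
    by_cases hd : (δ : Iso4) = γ
    · exact Eventually.of_forall fun _ _ => hd
    · have h2 : (δ : Iso4) x ≠ F x := fun e' => hd (by
        have h3 := h.free a (γ⁻¹ * δ) (mul_mem (inv_mem hγ) δ.2) x hF.mem (by
          simp [e', ← e])
        exact (inv_mul_eq_one.1 h3).symm)
      exact (((δ : Iso4).continuous.continuousAt.sub hc).eventually_ne (sub_ne_zero.2 h2)).mono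
        fun z hz e' => absurd (sub_eq_zero.2 e') hz
  filter_upwards [eventually_all.2 h1, hF.eq, (h.isOpen a).mem_nhds hF.mem,
    hc.eventually ((h.isOpen a).mem_nhds hF.mem')] with z h2 h3 h4 h5
  obtain ⟨δ, hδ, e'⟩ := (h.fib a z h4 _ h5).1 h3.symm
  rw [← e', show δ = γ from h2 ⟨δ, hδ⟩ e']

/-- parametrisations of a manifold form an atlas -/
theorem ok_of_par {M : Type*} [TopologicalSpace M] [ChartedSpace E4 M] [IsManifold 𝓘(ℝ, E4) ∞ M]
    [T2Space M] {A : Atl M α} (hp : ∀ a, Par (A.c a) (A.U a)) (fin : ∀ a, Finite (A.Γ a))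
    (inv : ∀ a, ∀ γ ∈ A.Γ a, ∀ x ∈ A.U a, γ x ∈ A.U a)
    (free : ∀ a, ∀ γ ∈ A.Γ a, ∀ x ∈ A.U a, γ x = x → γ = 1)
    (fib : ∀ a, ∀ x ∈ A.U a, ∀ y ∈ A.U a, A.c a x = A.c a y ↔ ∃ γ ∈ A.Γ a, γ x = y) : A.Ok := by
  refine ⟨fun a => (hp a).isOpen, fin, inv, free, fib, fun a b x hx y hy e => ?_,
    fun a b x hx y hy e => ?_⟩
  · obtain ⟨F, V, hV, hxV, -, hF, hs, hm⟩ := Gs.exists_trans0 (hp a) (hp b) hx hy e.symm
    refine ⟨F, ⟨hx, hF ▸ hy, ?_, ?_⟩, hF⟩
    · exact (hV.eventually_mem hxV).mono fun z hz => hs.contDiffAt (hV.mem_nhds hz)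
    · exact (hV.eventually_mem hxV).mono fun z hz => (hm z hz).2
  · have h1 := (Gs.par_cont (hp a)).continuousAt ((hp a).isOpen.mem_nhds hx)
    have h2 := (Gs.par_cont (hp b)).continuousAt ((hp b).isOpen.mem_nhds hy)
    have h3 : ContinuousAt (fun p : E4 × E4 => (A.c a p.1, A.c b p.2)) (x, y) :=
      (h1.comp (f := Prod.fst) continuousAt_fst).prodMk (h2.comp (f := Prod.snd) continuousAt_snd)
    exact h3.eventually (isClosed_diagonal.isOpen_compl.mem_nhds e)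

end Atl

namespace TD

variable {M : Type*} {T : TD M} {A : Atl T.Car T.S} {act : T.V → Prop} {lam : T.V → T.V → ℝ}

/-- a change of charts comes from one `base v`, or is a deck transformation of an end -/
theorem Str.tr_cases (hA : T.Str A act lam) (h : T.Ok) {a b : T.S} {x : E4} {F : E4 → E4}
    (hF : A.Tr a b x F) :
    (∃ v, act v ∧ ∀ᶠ z in 𝓝 x, sc lam a v • z ∈ (T.base v).U a ∧ sc lam b v • F z ∈ (T.base v).U b ∧
      (T.base v).c b (sc lam b v • F z) = (T.base v).c a (sc lam a v • z)) ∨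
    ∃ w, a = Sum.inr w ∧ b = Sum.inr w ∧ ∃ γ ∈ T.Γ w, F =ᶠ[𝓝 x] γ := by
  rcases hA.rel hF.mem hF.mem' hF.eq.self_of_nhds.symm with ⟨v, hv, h1, h2, -⟩ | ⟨rfl, -⟩
  · refine Or.inl ⟨v, hv, ?_⟩
    filter_upwards [hA.conv_ev h hv h1,
      hF.sm.self_of_nhds.continuousAt.eventually (hA.conv_ev h hv h2), hF.eq] with z h3 h4 h5
    rw [h3.2, h4.2] at h5
    exact ⟨h3.1, h4.1, (Prod.mk.inj (Sum.inl.inj h5)).2⟩
  · obtain ⟨γ, hγ, e⟩ := (hA.ok h).tr_self hF
    rw [hA.grp] at hγ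
    cases a with
    | inr w => exact Or.inr ⟨w, rfl, rfl, γ, hγ, e⟩
    | inl a =>
      obtain rfl : γ = 1 := Subgroup.mem_bot.1 hγ
      obtain ⟨h1, -⟩ := (hA.Ub a x).1 hF.mem
      refine Or.inl ⟨T.vx a, h1, ?_⟩
      filter_upwards [e, (hA.op _).mem_nhds hF.mem] with z h2 h3
      have h4 : F z = z := h2
      have h5 : z ∈ (T.base (T.vx a)).U (Sum.inl a) := mem_base_inl.2 ⟨rfl, ((hA.Ub a z).1 h3).2⟩
      simp only [sc, Sum.elim_inl, one_smul, h4]
      exact ⟨h5, h5, trivial⟩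

/-- **compatibility criterion** -/
theorem Str.compat_of (hA : T.Str A act lam) (h : T.Ok) {k : ℕ} {S : T.S → Tn 4 k}
    (h1 : ∀ a b x F v, act v → A.Tr a b x F → (∀ᶠ z in 𝓝 x, sc lam a v • z ∈ (T.base v).U a ∧
      sc lam b v • F z ∈ (T.base v).U b ∧
      (T.base v).c b (sc lam b v • F z) = (T.base v).c a (sc lam a v • z)) →
      S a x = pullT F (S b) x)
    (h2 : ∀ w, ∀ γ ∈ T.Γ w, ∀ x ∈ A.U (Sum.inr w), S (Sum.inr w) x = pullT γ (S (Sum.inr w)) x) :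
    A.Compat S := by
  intro a b x F hF
  rcases hA.tr_cases h hF with ⟨v, hv, h3⟩ | ⟨w, rfl, rfl, γ, hγ, e⟩
  · exact h1 a b x F v hv hF h3
  · rw [pullT_ev _ e]; exact h2 w γ hγ x hF.mem

end TD

end Crest.Agent.N207.I

end
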