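import Crest.Agent.N207.I.Cal4

/-!
# Row 207, block I (helper67): calculus on an atlas, part 5: maps between two atlases
-/

set_option autoImplicit false

open scoped ContDiff Topology ENNReal
open Set Filter MeasureTheory
open Crest.GeometryTopology.CoordMetric
open Crest.Agent.R202.Tens

noncomputable section

namespace Crest.Agent.N207.I.Atl

theorem exists_linv {U : Set E4} {u : E4 → E4} {x : E4} (hU : IsOpen U) (hu : ContDiffOn ℝ ∞ u U)
    (hi : ∀ x ∈ U, Function.Injective (fderiv ℝ u x)) (hx : x ∈ U) : ∃ v : E4 → E4, v (u x) = x ∧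
      (∀ᶠ z in 𝓝 (u x), ContDiffAt ℝ ∞ v z) ∧ ∀ᶠ z in 𝓝 (u x), u (v z) = z := by
  have hc : ∀ x ∈ U, ContDiffAt ℝ ∞ u x := fun x hx => hu.contDiffAt (hU.mem_nhds hx)
  have he : ∀ x ∈ U, ∃ L : E4 ≃L[ℝ] E4, HasFDerivAt u (L : E4 →L[ℝ] E4) x := fun x hx =>
    ⟨(LinearEquiv.ofInjectiveEndo (fderiv ℝ u x : E4 →ₗ[ℝ] E4) (hi x hx)).toContinuousLinearEquiv,
      ((hc x hx).differentiableAt (by simp)).hasFDerivAt⟩
  obtain ⟨L, hL⟩ := he x hx
  let e := (hc x hx).toOpenPartialHomeomorph u hL (by simp)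
  have h1 : x ∈ e.source := (hc x hx).mem_toOpenPartialHomeomorph_source hL _
  have h2 : u x ∈ e.target := (hc x hx).image_mem_toOpenPartialHomeomorph_target hL _
  have h3 : e.symm (u x) = x := e.left_inv h1
  refine ⟨e.symm, h3, ?_, ?_⟩
  · filter_upwards [e.open_target.mem_nhds h2,
      e.continuousAt_symm h2 (hU.mem_nhds (h3.symm ▸ hx))] with z hz hz'
    obtain ⟨L', hL'⟩ := he _ hz'
    exact e.contDiffAt_symm hz hL' (hc _ hz')
  · filter_upwards [e.open_target.mem_nhds h2] with z hz using e.right_inv hz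

variable {X X' : Type*} {α α' : Type} {A : Atl X α} {A' : Atl X' α'} {j : α → α'}
  {u : α → E4 → E4} {k : ℕ} {a b : α} {x : E4} {F : E4 → E4}

/-- a local diffeomorphism, given in the charts `a` of `A` and `j a` of `A'` -/
structure Mor (A : Atl X α) (A' : Atl X' α') (j : α → α') (u : α → E4 → E4) : Prop where
  maps : ∀ a, ∀ x ∈ A.U a, u a x ∈ A'.U (j a)
  sm : ∀ a, ContDiffOn ℝ ∞ (u a) (A.U a)
  imm : ∀ a, ∀ x ∈ A.U a, Function.Injective (fderiv ℝ (u a) x)
  cmp : ∀ a b, ∀ x ∈ A.U a, ∀ y ∈ A.U b, A.c a x = A.c b y →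
    A'.c (j a) (u a x) = A'.c (j b) (u b y)

/-- the map is injective -/
def MInj (A : Atl X α) (A' : Atl X' α') (j : α → α') (u : α → E4 → E4) : Prop :=
  ∀ a b, ∀ x ∈ A.U a, ∀ y ∈ A.U b, A'.c (j a) (u a x) = A'.c (j b) (u b y) → A.c a x = A.c b y

/-- the image of the map -/
def img (A : Atl X α) (A' : Atl X' α') (j : α → α') (u : α → E4 → E4) : Set X' :=
  {p | ∃ a, ∃ x ∈ A.U a, A'.c (j a) (u a x) = p}

/-- `G` is the pull-back of `G'` -/
def PM (A : Atl X α) (j : α → α') (u : α → E4 → E4) (G : α → MetricField 4)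
    (G' : α' → MetricField 4) : Prop :=
  ∀ a, ∀ x ∈ A.U a, matT (G a) x = pullT (u a) (matT (G' (j a))) x

namespace Mor

variable (m : Mor A A' j u) (h : A.Ok) (h' : A'.Ok)
include m h

theorem cda (hx : x ∈ A.U a) : ContDiffAt ℝ ∞ (u a) x :=
  (m.sm a).contDiffAt ((h.isOpen a).mem_nhds hx)

theorem diff (hx : x ∈ A.U a) : DifferentiableAt ℝ (u a) x :=
  (m.cda h hx).differentiableAt (by simp)

theorem pull {G : α → MetricField 4} {G' : α' → MetricField 4} (hG' : A'.IsMet G')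
    (e : PM A j u G G') (a : α) : Pull (G a) (G' (j a)) (u a) (A.U a) (A'.U (j a)) := by
  refine ⟨h.isOpen a, hG'.riem _, m.maps a, m.sm a, fun z hz p q => ?_, m.imm a⟩
  have := congrFun (e a z hz) ![p, q]
  rw [pullT, AI.evT_two] at this
  refine this.trans (Finset.sum_congr rfl fun p _ => Finset.sum_congr rfl fun q _ => ?_)
  simp [matT]
  ring

include h'

/-- the map intertwines the changes of charts -/
theorem tr (t : A.Tr a b x F) : ∃ F', A'.Tr (j a) (j b) (u a x) F' ∧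
    (fun z => F' (u a z)) =ᶠ[𝓝 x] fun z => u b (F z) := by
  obtain ⟨F', t', e⟩ := h'.loc _ _ _ (m.maps a x t.mem) _ (m.maps b _ t.mem')
    (m.cmp a b x t.mem _ t.mem' t.eq0.symm)
  have c1 := (m.cda h t.mem).continuousAt
  have h1 : Tendsto (fun z => (F' (u a z), u b (F z))) (𝓝 x) (𝓝 (u b (F x), u b (F x))) :=
    Tendsto.prodMk_nhds (e ▸ t'.cont.tendsto.comp c1)
      ((m.cda h t.mem').continuousAt.tendsto.comp t.cont)
  refine ⟨F', t', ?_⟩
  filter_upwards [h1 (h'.locInj (m.maps b _ t.mem')), c1 t'.eq, t.ev h] with z h2 h3 h4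
  exact h2 (Eq.trans h3 (m.cmp a b z h4.mem _ h4.mem' h4.eq0.symm))

theorem compat {T : α' → Tn 4 k} (hT : A'.Compat T) :
    A.Compat fun a => pullT (u a) (T (j a)) := fun a b x F t => by
  obtain ⟨F', t', e⟩ := m.tr h h' t
  rw [AI.pullT_comp _ t.diff (m.diff h t.mem'), ← AI.pullT_congr e rfl,
    ← AI.pullT_comp _ (m.diff h t.mem) t'.diff]
  exact AI.pullT_congr EventuallyEq.rfl (hT _ _ _ _ t')

theorem sec {T : α' → Tn 4 k} (hT : A'.Sec T) : A.Sec fun a => pullT (u a) (T (j a)) :=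
  ⟨fun a => AI.smT_pullT (h.isOpen a) (m.sm a) (m.maps a) (hT.sm _), m.compat h h' hT.compat⟩

theorem isMet {G : α → MetricField 4} {G' : α' → MetricField 4} (hG' : A'.IsMet G')
    (e : PM A j u G G') : A.IsMet G :=
  ⟨fun a => (m.pull h hG' e a).riem', (m.compat h h' hG'.compat).congr e⟩

omit h h' in
theorem compF {Y : Type*} {f : α' → E4 → Y} (hf : A'.CompF f) :
    A.CompF fun a x => f (j a) (u a x) := fun a b x hx y hy e =>
  hf _ _ _ (m.maps a x hx) _ (m.maps b y hy) (m.cmp a b x hx y hy e)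

end Mor

/-- the union of the transported atlas `A` and of `A'` -/
def uni (A : Atl X α) (A' : Atl X' α') (j : α → α') (u : α → E4 → E4) : Atl X' (α ⊕ α') where
  c s x := A'.c (Sum.elim j id s) (Sum.elim u (fun _ z => z) s x)
  U := Sum.elim A.U A'.U
  Γ := Sum.elim A.Γ A'.Γ

theorem Mor.uni (m : Mor A A' j u) :
    Mor (uni A A' j u) A' (Sum.elim j id) (Sum.elim u fun _ z => z) := by
  refine ⟨?_, ?_, ?_, fun _ _ _ _ _ _ e => e⟩
  · rintro (a | a) x hx
    exacts [m.maps a x hx, hx]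
  · rintro (a | a)
    exacts [m.sm a, contDiffOn_id]
  · rintro (a | a) x hx
    · exact m.imm a x hx
    · show Function.Injective (fderiv ℝ (fun z : E4 => z) x)
      rw [fderiv_fun_id]; exact fun _ _ e => e

theorem Mor.uni_ok (m : Mor A A' j u) (h : A.Ok) (h' : A'.Ok) (hi : MInj A A' j u) :
    (Atl.uni A A' j u).Ok := by
  have n := m.uni
  have ho : ∀ s, IsOpen ((Atl.uni A A' j u).U s) := by
    rintro (a | a)
    exacts [h.isOpen a, h'.isOpen a]
  have hc : ∀ s, ∀ x ∈ (Atl.uni A A' j u).U s,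
      ContDiffAt ℝ ∞ (Sum.elim u (fun _ z => z) s) x := fun s x hx =>
    (n.sm s).contDiffAt ((ho s).mem_nhds hx)
  refine ⟨ho, ?_, ?_, ?_, ?_, fun s t x hx y hy e => ?_, fun s t x hx y hy e => ?_⟩
  · rintro (a | a)
    exacts [h.fin a, h'.fin a]
  · rintro (a | a)
    exacts [h.inv a, h'.inv a]
  · rintro (a | a)
    exacts [h.free a, h'.free a]
  · rintro (a | a) x hx y hy
    · exact Iff.trans ⟨hi a a x hx y hy, m.cmp a a x hx y hy⟩ (h.fib a x hx y hy)
    · exact h'.fib a x hx y hy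
  · obtain ⟨F', t', e'⟩ := h'.loc _ _ _ (n.maps s x hx) _ (n.maps t y hy) e
    obtain ⟨v, v1, v2, v3⟩ := exists_linv (ho t) (n.sm t) (n.imm t) hy
    have c1 := (hc s x hx).continuousAt
    have c2 : Tendsto (fun z => F' (Sum.elim u (fun _ z => z) s z)) (𝓝 x)
        (𝓝 (Sum.elim u (fun _ z => z) t y)) := e' ▸ t'.cont.tendsto.comp c1
    have e2 : v (F' (Sum.elim u (fun _ z => z) s x)) = y := by rw [e', v1]
    refine ⟨fun z => v (F' (Sum.elim u (fun _ z => z) s z)), ⟨hx, e2 ▸ hy, ?_, ?_⟩, e2⟩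
    · filter_upwards [c2 v2, c1 t'.sm, (ho s).mem_nhds hx] with z h1 h2 h3
      exact ContDiffAt.comp z h1 (ContDiffAt.comp z h2 (hc s z h3))
    · filter_upwards [c2 v3, c1 t'.eq] with z h1 h2
      exact (congrArg (A'.c _) h1).trans h2
  · have c1 : Tendsto (fun p : E4 × E4 => (Sum.elim u (fun _ z => z) s p.1,
        Sum.elim u (fun _ z => z) t p.2)) (𝓝 (x, y)) (𝓝 (_, _)) :=
      ((hc s x hx).continuousAt.tendsto.comp (continuous_fst.tendsto (x, y))).prodMk_nhds
        ((hc t y hy).continuousAt.tendsto.comp (continuous_snd.tendsto (x, y)))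
    exact c1 (h'.t2 _ _ _ (n.maps s x hx) _ (n.maps t y hy) e)

open Classical in
/-- transport of a function to the target, zero off the image -/
def psh (A : Atl X α) (A' : Atl X' α') (j : α → α') (u : α → E4 → E4) (f : X → ℝ) (p : X') : ℝ :=
  if h : ∃ q : α × E4, q.2 ∈ A.U q.1 ∧ A'.c (j q.1) (u q.1 q.2) = p then
    f (A.c h.choose.1 h.choose.2) else 0

theorem psh_apply (hi : MInj A A' j u) (f : X → ℝ) (hx : x ∈ A.U a) :
    psh A A' j u f (A'.c (j a) (u a x)) = f (A.c a x) := by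
  have h1 : ∃ q : α × E4, q.2 ∈ A.U q.1 ∧ A'.c (j q.1) (u q.1 q.2) = A'.c (j a) (u a x) :=
    ⟨(a, x), hx, rfl⟩
  rw [psh, dif_pos h1, hi _ _ _ h1.choose_spec.1 _ hx h1.choose_spec.2]

theorem psh_of_not (f : X → ℝ) {p : X'} (hp : p ∉ img A A' j u) : psh A A' j u f p = 0 :=
  dif_neg fun ⟨q, h1, h2⟩ => hp ⟨q.1, q.2, h1, h2⟩

theorem Mor.isOpen_img (m : Mor A A' j u) (h : A.Ok) (h' : A'.Ok) (hi : MInj A A' j u) (b : α') :
    IsOpen {y ∈ A'.U b | A'.c b y ∈ img A A' j u} := by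
  refine isOpen_iff_mem_nhds.2 fun y hy => ?_
  obtain ⟨a, x, hx, e⟩ := hy.2
  filter_upwards [(isOpen_ov (m.uni_ok h h' hi) (.inr b) (.inl a)).mem_nhds ⟨hy.1, x, hx, e⟩]
    with z hz
  obtain ⟨x', hx', e'⟩ := hz.2
  exact ⟨hz.1, a, x', hx', e'⟩

theorem Mor.ms_psh (m : Mor A A' j u) (h : A.Ok) (h' : A'.Ok) (hi : MInj A A' j u) {f : X → ℝ}
    (hf : A.SmF f) (b : α') :
    AEMeasurable (fun y => psh A A' j u f (A'.c b y)) (volume.restrict (A'.U b)) := by
  have hB := m.uni_ok h h' hi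
  have hW := m.isOpen_img h h' hi b
  have h1 : ContinuousOn (fun y => psh A A' j u f (A'.c b y))
      {y ∈ A'.U b | A'.c b y ∈ img A A' j u} := fun y hy => by
    obtain ⟨a, x, hx, e⟩ := hy.2
    obtain ⟨F, t, rfl⟩ := hB.loc (.inr b) (.inl a) y hy.1 x hx e.symm
    refine ContinuousAt.continuousWithinAt (ContinuousAt.congr
      (((hf a).continuousOn.continuousAt ((h.isOpen a).mem_nhds hx)).comp t.cont) ?_)
    filter_upwards [t.ev hB] with z hz
    exact (psh_apply hi f hz.mem').symm.trans (congrArg _ hz.eq0)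
  refine (((aemeasurable_indicator_iff hW.measurableSet).2
    (h1.aemeasurable hW.measurableSet)).restrict).congr ?_
  filter_upwards [ae_restrict_mem (h'.isOpen b).measurableSet] with y hy
  by_cases e : A'.c b y ∈ img A A' j u
  · exact indicator_of_mem (show y ∈ {y ∈ A'.U b | A'.c b y ∈ img A A' j u} from ⟨hy, e⟩) _
  · rw [indicator_of_notMem fun k => e k.2, psh_of_not f e]

variable [Fintype α] [Fintype α'] {χ : α → X → ℝ} {K : α → Set E4} {χ' : α' → X' → ℝ}
  {K' : α' → Set E4} {G : α → MetricField 4} {G' : α' → MetricField 4}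

theorem Mor.uni_pou (m : Mor A A' j u) (hB : (Atl.uni A A' j u).Ok) (hχ' : A'.PoU χ' K') :
    (Atl.uni A A' j u).PoU (Sum.elim (fun _ _ => 0) χ') (Sum.elim (fun _ => ∅) K') := by
  have n := m.uni
  refine ⟨?_, ?_, fun s y hy => ?_, ?_, ?_, ?_⟩
  · rintro (a | a) s
    · exact contDiffOn_const
    · exact (hχ'.sm a _).comp (n.sm s) (n.maps s)
  · rintro (a | a) p
    exacts [le_rfl, hχ'.nonneg a p]
  · simpa [Atl.uni] using hχ'.sum _ _ (n.maps s y hy)
  · rintro (a | a)
    exacts [empty_subset _, hχ'.sub a]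
  · rintro (a | a) s y hy e
    exacts [absurd rfl e, hχ'.supp a _ _ (n.maps s y hy) e]
  · rintro (a | a) s y hy e
    · exact Eventually.of_forall fun _ k => by simp at k
    · exact (n.cda hB hy).continuousAt (hχ'.cl a _ _ (n.maps s y hy) e)

open Classical in
/-- **change of variables** for an injective map between two atlases -/
theorem Mor.lint_eq_ind (m : Mor A A' j u) (h : A.Ok) (h' : A'.Ok) (hi : MInj A A' j u)
    (hG' : A'.IsMet G') (e : PM A j u G G') (hχ : A.PoU χ K) (hχ' : A'.PoU χ' K')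
    {φ : α' → E4 → ℝ≥0∞} (hφ : A'.CompF φ)
    (hm : ∀ a, AEMeasurable (fun x => φ (j a) (u a x)) (volume.restrict (A.U a)))
    (hm' : ∀ b, AEMeasurable (φ b) (volume.restrict (A'.U b))) :
    A.lint χ G (fun a x => φ (j a) (u a x)) =
      A'.lint χ' G' fun b y => if A'.c b y ∈ img A A' j u then φ b y else 0 := by
  have hB := m.uni_ok h h' hi
  have n := m.uni
  have hG : (Atl.uni A A' j u).IsMet (Sum.elim G G') := n.isMet hB h' hG' (by
    rintro (a | a) x hx
    exacts [e a x hx, (congrFun (AI.pullT_id _) x).symm])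
  have e1 : ∀ a, ∫⁻ x in A.U a, ENNReal.ofReal (A.den χ G a x) * φ (j a) (u a x) =
      ∑ b, ∫⁻ y in A'.U b, ENNReal.ofReal (A'.den χ' G' b y) *
        (ENNReal.ofReal (psh A A' j u (χ a) (A'.c b y)) * φ b y) := by
    intro a
    have e2 := lint_chart hB hG (m.uni_pou hB hχ')
      ((compF_comp (psh A A' j u (χ a))).map₂ (n.compF hφ) fun s t => ENNReal.ofReal s * t)
      (.inl a) (((((hχ.sm a a).continuousOn.aemeasurable
        (h.isOpen a).measurableSet).ennreal_ofReal).mul (hm a)).congr ?_) fun s y hy k => ?_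
    · simp only [lint, Fintype.sum_sum_type] at e2
      rw [Finset.sum_eq_zero fun _ _ => by simp [den], zero_add] at e2
      refine Eq.trans ?_ e2.symm
      simp only [ofReal_den h hχ.nonneg, mul_assoc]
      rw [lintegral_const_mul' _ _ (ENNReal.inv_ne_top.2 (card_ne h a))]
      congr 1
      exact setLIntegral_congr_fun (h.isOpen a).measurableSet fun x hx =>
        congrArg (fun t => rho G a x * (ENNReal.ofReal t * φ (j a) (u a x)))
          (psh_apply hi (χ a) hx).symm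
    · filter_upwards [ae_restrict_mem (h.isOpen a).measurableSet] with x hx
      exact congrArg (fun t => ENNReal.ofReal t * φ (j a) (u a x)) (psh_apply hi (χ a) hx).symm
    · have k1 : psh A A' j u (χ a) ((Atl.uni A A' j u).c s y) ≠ 0 := fun k' => k (by simp [k'])
      obtain ⟨a', x', hx', e'⟩ : (Atl.uni A A' j u).c s y ∈ img A A' j u := by
        by_contra k'
        exact k1 (psh_of_not _ k')
      rw [← e', psh_apply hi _ hx'] at k1
      obtain ⟨x, hx, e3⟩ := hχ.supp a a' x' hx' k1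
      exact ⟨x, hχ.sub a hx, (m.cmp a a' x (hχ.sub a hx) x' hx' e3).trans e'⟩
  simp only [lint, e1]
  rw [Finset.sum_comm]
  refine Finset.sum_congr rfl fun b _ => ?_
  have hU := (h'.isOpen b).measurableSet
  rw [← lintegral_finsetSum' _ (f := fun a y => ENNReal.ofReal (A'.den χ' G' b y) *
      (ENNReal.ofReal (psh A A' j u (χ a) (A'.c b y)) * φ b y)) fun a _ =>
    ((sm_den hG' hχ' b).continuousOn.aemeasurable hU).ennreal_ofReal.mul
      ((m.ms_psh h h' hi (hχ.sm a) b).ennreal_ofReal.mul (hm' b))]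
  refine lintegral_congr fun y => ?_
  rw [← Finset.mul_sum, ← Finset.sum_mul]
  split_ifs with k
  · obtain ⟨a, x, hx, k⟩ := k
    simp only [← k, psh_apply hi _ hx]
    rw [← ENNReal.ofReal_sum_of_nonneg fun d _ => hχ.nonneg d _, hχ.sum a x hx]
    simp
  · simp [psh_of_not _ k]

theorem Mor.lint_le (m : Mor A A' j u) (h : A.Ok) (h' : A'.Ok) (hi : MInj A A' j u)
    (hG' : A'.IsMet G') (e : PM A j u G G') (hχ : A.PoU χ K) (hχ' : A'.PoU χ' K')
    {φ : α' → E4 → ℝ≥0∞} (hφ : A'.CompF φ)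
    (hm : ∀ a, AEMeasurable (fun x => φ (j a) (u a x)) (volume.restrict (A.U a)))
    (hm' : ∀ b, AEMeasurable (φ b) (volume.restrict (A'.U b))) :
    A.lint χ G (fun a x => φ (j a) (u a x)) ≤ A'.lint χ' G' φ := by
  rw [m.lint_eq_ind h h' hi hG' e hχ hχ' hφ hm hm']
  exact lint_mono h' fun b y _ => by split_ifs <;> simp

theorem Mor.lint_eq (m : Mor A A' j u) (h : A.Ok) (h' : A'.Ok) (hi : MInj A A' j u)
    (hG' : A'.IsMet G') (e : PM A j u G G') (hχ : A.PoU χ K) (hχ' : A'.PoU χ' K')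
    {φ : α' → E4 → ℝ≥0∞} (hφ : A'.CompF φ)
    (hm : ∀ a, AEMeasurable (fun x => φ (j a) (u a x)) (volume.restrict (A.U a)))
    (hm' : ∀ b, AEMeasurable (φ b) (volume.restrict (A'.U b))) (hv : A'.Van φ (img A A' j u)) :
    A.lint χ G (fun a x => φ (j a) (u a x)) = A'.lint χ' G' φ := by
  classical
  rw [m.lint_eq_ind h h' hi hG' e hχ hχ' hφ hm hm']
  have : ∀ b, ∀ y ∈ A'.U b, (if A'.c b y ∈ img A A' j u then φ b y else 0) = φ b y :=
    fun b y hy => by
      split_ifs with k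
      · rfl
      · by_contra k'
        exact k (hv b y hy fun k2 => k' k2.symm)
  exact le_antisymm (lint_mono h' fun b y hy => (this b y hy).le)
    (lint_mono h' fun b y hy => (this b y hy).ge)

/-- **change of variables**, real version -/
theorem Mor.int_eq (m : Mor A A' j u) (h : A.Ok) (h' : A'.Ok) (hi : MInj A A' j u)
    (hG' : A'.IsMet G') (e : PM A j u G G') (hχ : A.PoU χ K) (hχ' : A'.PoU χ' K')
    {f : α' → E4 → ℝ} (hf : A'.CompF f) (hm : A.Ms fun a x => f (j a) (u a x)) (hm' : A'.Ms f)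
    (hv : A'.Van f (img A A' j u)) :
    (A.Intg χ G (fun a x => f (j a) (u a x)) ↔ A'.Intg χ' G' f) ∧
      (A'.Intg χ' G' f → A.int χ G (fun a x => f (j a) (u a x)) = A'.int χ' G' f) := by
  have key : ∀ φ : ℝ → ℝ≥0∞, Measurable φ → φ 0 = 0 →
      A.lint χ G (fun a x => φ (f (j a) (u a x))) = A'.lint χ' G' fun b y => φ (f b y) :=
    fun φ hφ h0 => m.lint_eq h h' hi hG' e hχ hχ' (hf.map φ)
      (fun a => hφ.comp_aemeasurable (hm a).aemeasurable)
      (fun b => hφ.comp_aemeasurable (hm' b).aemeasurable) (hv.of_imp fun b y _ k => by rw [k, h0])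
  have h1 : A.Intg χ G (fun a x => f (j a) (u a x)) ↔ A'.Intg χ' G' f := by
    rw [intg_iff h (m.isMet h h' hG' e) hχ hm, intg_iff h' hG' hχ' hm',
      key (fun t => ENNReal.ofReal |t|) (by fun_prop) (by simp)]
  refine ⟨h1, fun k => ?_⟩
  rw [int_eq_lint hχ (h1.2 k), int_eq_lint hχ' k, key ENNReal.ofReal (by fun_prop) (by simp),
    key (fun t => ENNReal.ofReal (-t)) (by fun_prop) (by simp)]

end Crest.Agent.N207.I.Atl

end
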