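import Crest.Agent.N207.I.Jet
import Crest.Agent.N250.Gr.AA

/-!
# Row 207, block I (helper24): uniform jet bounds on sets, moving base points, ultralimits,
inverses and the bootstrap for implicit functions
-/

set_option autoImplicit false
open Set Filter Topology Function Metric Asymptotics
open scoped ContDiff

noncomputable section

namespace Crest.Agent.N207.Jt

variable {ι κ X Y Z : Type} [NormedAddCommGroup X] [NormedSpace ℝ X] [NormedAddCommGroup Y]
  [NormedSpace ℝ Y] [NormedAddCommGroup Z] [NormedSpace ℝ Z]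

/-- the filter of pairs `(j, z)`, `j` along `l`, `z ∈ S j` arbitrary -/
def un {α : Type} (l : Filter ι) (S : ι → Set α) : Filter (ι × α) :=
  l.comap Prod.fst ⊓ 𝓟 {p | p.2 ∈ S p.1}

theorem ev_un {α : Type} {l : Filter ι} {S : ι → Set α} {P : ι × α → Prop} :
    (∀ᶠ p in un l S, P p) ↔ ∀ᶠ j in l, ∀ z ∈ S j, P (j, z) := by
  rw [un, eventually_inf_principal, eventually_comap]
  refine ⟨fun h => h.mono fun j hj z hz => hj (j, z) rfl hz, fun h => h.mono fun j hj p hp hz => ?_⟩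
  subst hp; exact hj p.2 hz

theorem un_fst {α : Type} (l : Filter ι) (S : ι → Set α) : Tendsto Prod.fst (un l S) l :=
  tendsto_comap.mono_left inf_le_left

theorem un_mem {α : Type} (l : Filter ι) (S : ι → Set α) : ∀ᶠ p in un l S, p.2 ∈ S p.1 :=
  ev_un.2 (Eventually.of_forall fun _ _ h => h)

theorem tendsto_un {α : Type} {l : Filter ι} {S : ι → Set α} {m : Filter κ} {e : κ → ι}
    {y : κ → α} (he : Tendsto e m l) (hy : ∀ᶠ j in m, y j ∈ S (e j)) :
    Tendsto (fun j => (e j, y j)) m (un l S) :=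
  tendsto_inf.2 ⟨tendsto_comap_iff.2 he, tendsto_principal.2 hy⟩

/-- jets bounded uniformly on the sets `S j` -/
def UB (l : Filter ι) (u : ι → X → Y) (S : ι → Set X) : Prop :=
  GB (un l S) (fun p => u p.1) Prod.snd

/-- jets of `u j` and `v j` uniformly close on the sets `S j` -/
def UE (l : Filter ι) (u v : ι → X → Y) (S : ι → Set X) : Prop :=
  GE (un l S) (fun p => u p.1) Prod.snd (fun p => v p.1) Prod.snd

variable {l : Filter ι} {u v : ι → X → Y} {S : ι → Set X}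

theorem ub_iff : UB l u S ↔ (∀ᶠ j in l, ∀ z ∈ S j, ContDiffAt ℝ ∞ (u j) z) ∧
    ∀ k : ℕ, ∃ C : ℝ, ∀ᶠ j in l, ∀ z ∈ S j, ‖iteratedFDeriv ℝ k (u j) z‖ ≤ C :=
  ⟨fun h => ⟨ev_un.1 h.sm, fun k => (h.bd k).imp fun _ hC => ev_un.1 hC⟩,
    fun h => ⟨ev_un.2 h.1, fun k => (h.2 k).imp fun _ hC => ev_un.2 hC⟩⟩

theorem UE.ev (h : UE l u v S) (k : ℕ) {ε : ℝ} (hε : 0 < ε) : ∀ᶠ j in l, ∀ z ∈ S j,
    ‖iteratedFDeriv ℝ k (u j) z - iteratedFDeriv ℝ k (v j) z‖ < ε := by
  have := Metric.tendsto_nhds.1 (GE.lim h k) ε hε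
  simpa only [dist_zero_right] using ev_un.1 this

theorem UE.of_ev (hu : UB l u S) (hv : UB l v S) (h : ∀ (k : ℕ) (ε : ℝ), 0 < ε → ∀ᶠ j in l,
    ∀ z ∈ S j, ‖iteratedFDeriv ℝ k (u j) z - iteratedFDeriv ℝ k (v j) z‖ < ε) : UE l u v S :=
  ⟨hu, hv, fun k => Metric.tendsto_nhds.2 fun ε hε => ev_un.2 (by
    simpa only [dist_zero_right] using h k ε hε)⟩

theorem UB.at (h : UB l u S) {m : Filter κ} {e : κ → ι} {y : κ → X} (he : Tendsto e m l)
    (hy : ∀ᶠ j in m, y j ∈ S (e j)) : GB m (fun j => u (e j)) y :=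
  GB.comap h (tendsto_un he hy)

theorem UE.at (h : UE l u v S) {m : Filter κ} {e : κ → ι} {y : κ → X} (he : Tendsto e m l)
    (hy : ∀ᶠ j in m, y j ∈ S (e j)) : GE m (fun j => u (e j)) y (fun j => v (e j)) y :=
  GE.comap h (tendsto_un he hy)

theorem UB.comap (h : UB l u S) {m : Filter κ} {e : κ → ι} {S' : κ → Set X} (he : Tendsto e m l)
    (hS : ∀ᶠ j in m, S' j ⊆ S (e j)) : UB m (fun j => u (e j)) S' :=
  h.at (he.comp (un_fst _ _)) (ev_un.2 (hS.mono fun _ hj _ hz => hj hz))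

theorem UE.comap (h : UE l u v S) {m : Filter κ} {e : κ → ι} {S' : κ → Set X}
    (he : Tendsto e m l) (hS : ∀ᶠ j in m, S' j ⊆ S (e j)) :
    UE m (fun j => u (e j)) (fun j => v (e j)) S' :=
  h.at (he.comp (un_fst _ _)) (ev_un.2 (hS.mono fun _ hj _ hz => hj hz))

theorem UB.mono (h : UB l u S) {S' : ι → Set X} (hS : ∀ᶠ j in l, S' j ⊆ S j) : UB l u S' :=
  h.comap (e := id) tendsto_id hS

theorem UE.mono (h : UE l u v S) {S' : ι → Set X} (hS : ∀ᶠ j in l, S' j ⊆ S j) : UE l u v S' :=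
  h.comap (e := id) tendsto_id hS

/-- moving the base point inside a region of uniform bounds -/
theorem UB.move (h : UB l u S) {x y : ι → X} (hs : ∀ᶠ j in l, segment ℝ (x j) (y j) ⊆ S j)
    (hxy : Tendsto (fun j => x j - y j) l (𝓝 0)) : GE l u x u y := by
  refine ⟨h.at tendsto_id (hs.mono fun j hj => hj (left_mem_segment _ _ _)),
    h.at tendsto_id (hs.mono fun j hj => hj (right_mem_segment _ _ _)), fun k => ?_⟩
  obtain ⟨C, hC⟩ := (ub_iff.1 h).2 (k + 1)
  have h0 : Tendsto (fun j => C * ‖x j - y j‖) l (𝓝 0) := by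
    simpa using hxy.norm.const_mul C
  refine squeeze_zero_norm' ?_ h0
  filter_upwards [hs, hC, (ub_iff.1 h).1] with j h1 h2 h3
  refine (convex_segment (x j) (y j)).norm_image_sub_le_of_norm_fderiv_le
    (fun z hz => ((h3 z (h1 hz)).iteratedFDeriv_right (m := 1) (by exact_mod_cast le_top)
      ).differentiableAt one_ne_zero) (fun z hz => ?_) (right_mem_segment _ _ _)
    (left_mem_segment _ _ _)
  rw [norm_fderiv_iteratedFDeriv]; exact h2 z (h1 hz)

/-- pointwise ultralimit -/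
def ul (𝒰 : Ultrafilter ι) (u : ι → X → Y) (z : X) : Y := limUnder (𝒰 : Filter ι) fun j => u j z

/-- `C^∞` Arzelà-Ascoli along an ultrafilter, on an arbitrary open set -/
theorem UB.lim [FiniteDimensional ℝ X] [FiniteDimensional ℝ Y] {𝒰 : Ultrafilter ι} {O : Set X}
    (h : UB (𝒰 : Filter ι) u fun _ => O) (hO : IsOpen O) :
    (∀ z ∈ O, ContDiffAt ℝ ∞ (ul 𝒰 u) z) ∧ ∀ K, IsCompact K → K ⊆ O →
      UE (𝒰 : Filter ι) u (fun _ => ul 𝒰 u) fun _ => K := by
  obtain ⟨h1, h2⟩ := ub_iff.1 h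
  have key : ∀ z ∈ O, ∃ r > 0, ball z r ⊆ O ∧ ContDiffOn ℝ ∞ (ul 𝒰 u) (ball z r) ∧
      N250.Gr.JLim (𝒰 : Filter ι) u (ul 𝒰 u) (ball z r) := fun z hz => by
    obtain ⟨r, hr, hb⟩ := Metric.isOpen_iff.1 hO z hz
    obtain ⟨w, hw, hJ⟩ := N250.Gr.sm_lim 𝒰 u isOpen_ball (convex_ball z r) isBounded_ball
      (h1.mono fun j hj y hy => (hj y (hb hy)).contDiffWithinAt)
      (fun k => (h2 k).imp fun C hC => hC.mono fun j hj y hy => hj y (hb hy))
    have e : EqOn (ul 𝒰 u) w (ball z r) := fun y hy => (hJ.val.tendsto_at hy).limUnder_eq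
    refine ⟨r, hr, hb, hw.congr e, fun k => (hJ k).congr_right fun y hy => ?_⟩
    exact ((e.eventuallyEq_of_mem (isOpen_ball.mem_nhds hy)).iteratedFDeriv ℝ k).eq_of_nhds.symm
  have hs : ∀ z ∈ O, ContDiffAt ℝ ∞ (ul 𝒰 u) z := fun z hz => by
    obtain ⟨r, hr, -, hw, -⟩ := key z hz
    exact hw.contDiffAt (ball_mem_nhds z hr)
  refine ⟨hs, fun K hK hKO => UE.of_ev (h.mono (Eventually.of_forall fun _ => hKO)) ?_
    fun k ε hε => ?_⟩
  · refine ub_iff.2 ⟨Eventually.of_forall fun _ z hz => hs z (hKO hz), fun k => ?_⟩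
    obtain ⟨C, hC⟩ := hK.exists_bound_of_continuousOn (f := iteratedFDeriv ℝ k (ul 𝒰 u))
      fun z hz => ((hs z (hKO hz)).continuousAt_iteratedFDeriv (kle k)).continuousWithinAt
    exact ⟨C, Eventually.of_forall fun _ => hC⟩
  · choose! r hr hb hw hJ using key
    obtain ⟨t, htK, hcov⟩ := hK.elim_nhds_subcover (fun z => ball z (r z))
      fun z hz => ball_mem_nhds z (hr z (hKO hz))
    have : ∀ᶠ j in (𝒰 : Filter ι), ∀ z ∈ t, ∀ y ∈ ball z (r z),
        dist (iteratedFDeriv ℝ k (ul 𝒰 u) y) (iteratedFDeriv ℝ k (u j) y) < ε :=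
      (Finset.eventually_all t).2 fun z hz =>
        Metric.tendstoUniformlyOn_iff.1 (hJ z (hKO (htK z hz)) k) ε hε
    filter_upwards [this] with j hj y hy
    obtain ⟨z, hz, hyz⟩ := mem_iUnion₂.1 (hcov hy)
    rw [← dist_eq_norm, dist_comm]; exact hj z hz y hyz

/-- Cauchy form along `𝒰 × 𝒰` -/
theorem UB.cauchy [FiniteDimensional ℝ X] [FiniteDimensional ℝ Y] {𝒰 : Ultrafilter ι} {O K : Set X}
    (h : UB (𝒰 : Filter ι) u fun _ => O) (hO : IsOpen O) (hK : IsCompact K) (hKO : K ⊆ O) :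
    UE ((𝒰 : Filter ι) ×ˢ (𝒰 : Filter ι)) (fun p => u p.1) (fun p => u p.2) fun _ => K := by
  have h1 := (h.lim hO).2 K hK hKO
  exact GE.trans (h1.comap (m := (𝒰 : Filter ι) ×ˢ (𝒰 : Filter ι)) (e := Prod.fst) tendsto_fst
      (Eventually.of_forall fun _ => subset_rfl))
    (GE.symm (h1.comap (m := (𝒰 : Filter ι) ×ˢ (𝒰 : Filter ι)) (e := Prod.snd) tendsto_snd
      (Eventually.of_forall fun _ => subset_rfl)))

/-- case distinction on the index -/
theorem GB.cases {f : ι → X → Y} {x : ι → X} (P : ι → Prop) (h1 : GB (l ⊓ 𝓟 {j | P j}) f x)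
    (h2 : GB (l ⊓ 𝓟 {j | ¬ P j}) f x) : GB l f x := by
  have key : ∀ Q : ι → Prop, (∀ᶠ j in l ⊓ 𝓟 {j | P j}, Q j) → (∀ᶠ j in l ⊓ 𝓟 {j | ¬ P j}, Q j) →
      ∀ᶠ j in l, Q j := fun Q a b => by
    rw [eventually_inf_principal] at a b
    filter_upwards [a, b] with j a b
    by_cases h : P j
    exacts [a h, b h]
  refine ⟨key _ h1.sm h2.sm, fun k => ?_⟩
  obtain ⟨C, hC⟩ := h1.bd k
  obtain ⟨D, hD⟩ := h2.bd k
  exact ⟨max C D, key _ (hC.mono fun _ h => h.trans (le_max_left _ _))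
    (hD.mono fun _ h => h.trans (le_max_right _ _))⟩

theorem GE.cases {f g : ι → X → Y} {x y : ι → X} (P : ι → Prop)
    (h1 : GE (l ⊓ 𝓟 {j | P j}) f x g y) (h2 : GE (l ⊓ 𝓟 {j | ¬ P j}) f x g y) : GE l f x g y := by
  refine ⟨GB.cases P h1.left h2.left, GB.cases P h1.right h2.right, fun k => ?_⟩
  have e : l = l ⊓ 𝓟 {j | P j} ⊔ l ⊓ 𝓟 {j | ¬ P j} := by
    rw [← inf_sup_left, sup_principal, show {j | P j} ∪ {j | ¬ P j} = univ from
      union_compl_self _, principal_univ, inf_top_eq]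
  rw [e]
  exact tendsto_sup.2 ⟨h1.lim k, h2.lim k⟩

/-- finitely many cases -/
theorem GE.fin_cases {α : Type} [Finite α] {f g : ι → X → Y} {x y : ι → X} (c : ι → α)
    (h : ∀ a, GE (l ⊓ 𝓟 {j | c j = a}) f x g y) : GE l f x g y := by
  have key : ∀ Q : ι → Prop, (∀ a, ∀ᶠ j in l ⊓ 𝓟 {j | c j = a}, Q j) → ∀ᶠ j in l, Q j :=
    fun Q hQ => by
      have := eventually_all.2 fun a => eventually_inf_principal.1 (hQ a)
      exact this.mono fun j hj => hj (c j) rfl
  have hb : ∀ {f : ι → X → Y} {x : ι → X}, (∀ a, GB (l ⊓ 𝓟 {j | c j = a}) f x) → GB l f x :=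
    fun {f x} hf => by
      refine ⟨key _ fun a => (hf a).sm, fun k => ?_⟩
      choose C hC using fun a => (hf a).bd k
      obtain ⟨D, hD⟩ := (finite_range C).bddAbove
      exact ⟨D, key _ fun a => (hC a).mono fun j hj => hj.trans (hD (mem_range_self a))⟩
  refine ⟨hb fun a => (h a).left, hb fun a => (h a).right, fun k => ?_⟩
  exact Metric.tendsto_nhds.2 fun ε hε => key _ fun a => Metric.tendsto_nhds.1 ((h a).lim k) ε hε

/-- bootstrap: a family whose derivative is a `GB` function of `(z, f z)` is `GB` -/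
theorem GB.boot [FiniteDimensional ℝ X] {f : ι → X → Y} {x : ι → X} {Ψ : ι → X × Y → X →L[ℝ] Y}
    (hx : ∃ C : ℝ, ∀ᶠ j in l, ‖x j‖ ≤ C) (h0 : ∃ C : ℝ, ∀ᶠ j in l, ‖f j (x j)‖ ≤ C)
    (hs : ∀ᶠ j in l, ContDiffAt ℝ ∞ (f j) (x j)) (hΨ : GB l Ψ fun j => (x j, f j (x j)))
    (hd : ∀ᶠ j in l, _root_.fderiv ℝ (f j) =ᶠ[𝓝 (x j)] fun z => Ψ j (z, f j z)) : GB l f x := by
  refine ⟨hs, fun k => ?_⟩
  induction k using Nat.strong_induction_on with
  | _ k ih =>
    rcases k with _ | k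
    · simpa [norm_iteratedFDeriv_zero] using h0
    · have hid := GB.id (l := l) hx
      have hq : ∀ i ≤ k, l.IsBoundedUnder (· ≤ ·)
          fun j => ‖ftaylorSeries ℝ (fun z => (z, f j z)) (x j) i‖ := fun i hi => by
        obtain ⟨C, hC⟩ := ih i (by omega)
        obtain ⟨D, hD⟩ := hid.bd i
        refine ⟨max D C, ?_⟩
        change ∀ᶠ j in l, ‖iteratedFDeriv ℝ i (fun z => (z, f j z)) (x j)‖ ≤ max D C
        filter_upwards [hC, hD, hs] with j h1 h2 h3
        rw [iteratedFDeriv_prodMk (f := fun z => z) contDiffAt_id h3 (kle i), ContinuousMultilinearMap.opNorm_prod]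
        exact max_le_max h2 h1
      have := FormalMultilinearSeries.taylorComp_sub_taylorComp_isBigO (l := l)
        (p₁ := fun j => ftaylorSeries ℝ (Ψ j) (x j, f j (x j))) (p₂ := fun _ => 0)
        (q₁ := fun j => ftaylorSeries ℝ (fun z => (z, f j z)) (x j))
        (q₂ := fun j => ftaylorSeries ℝ (fun z => (z, f j z)) (x j))
        (f := fun _ => (1 : ℝ)) (n := k) (fun i _ => hΨ.bu i)
        (fun i _ => by simpa using (hΨ.bu i).isBigO_one ℝ) hq hq
        (fun i _ => by simp only [sub_self]; exact isBigO_zero _ _)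
      obtain ⟨C, hC⟩ := this.bound
      refine ⟨C, ?_⟩
      filter_upwards [hC, hΨ.sm, hs, hd] with j h0 h1 h2 h3
      have e := iteratedFDeriv_comp (f := fun z => (z, f j z)) h1 (contDiffAt_id.prodMk h2) (kle k)
      have z : (0 : FormalMultilinearSeries ℝ (X × Y) (X →L[ℝ] Y)).taylorComp
          (ftaylorSeries ℝ (fun z => (z, f j z)) (x j)) k = 0 := by
        simp only [FormalMultilinearSeries.taylorComp]
        refine Finset.sum_eq_zero fun c _ => ?_
        ext v; simp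
      rw [z, sub_zero, ← e] at h0
      rw [← norm_iteratedFDeriv_fderiv, (h3.iteratedFDeriv ℝ k).eq_of_nhds]
      simpa [Function.comp_def] using h0

/-- inverses of uniformly invertible operators -/
theorem GE.inverse [FiniteDimensional ℝ Y] {A A' : ι → X → Y →L[ℝ] Y} {x x' : ι → X} {c : ℝ}
    (hc : 0 < c) (h : GE l A x A' x') (h1 : ∀ᶠ j in l, ∀ y, c * ‖y‖ ≤ ‖A j (x j) y‖)
    (h2 : ∀ᶠ j in l, ∀ y, c * ‖y‖ ≤ ‖A' j (x' j) y‖) :
    GE l (fun j z => ContinuousLinearMap.inverse (A j z)) x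
      (fun j z => ContinuousLinearMap.inverse (A' j z)) x' := by
  have : ProperSpace (Y →L[ℝ] Y) := FiniteDimensional.proper_real _
  have : CompleteSpace Y := FiniteDimensional.complete ℝ Y
  obtain ⟨C, hC⟩ := h.left.val
  obtain ⟨D, hD⟩ := h.right.val
  have hcl : IsClosed {B : Y →L[ℝ] Y | ∀ y, c * ‖y‖ ≤ ‖B y‖} := by
    simp only [Set.ofPred_forall]
    exact isClosed_iInter fun y => isClosed_le continuous_const (by fun_prop)
  refine h.smoothOn ((isCompact_closedBall 0 (max C D)).inter_right hcl) (fun B hB => ?_) ?_ ?_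
  · have hinj : Function.Injective B := by
      refine (injective_iff_map_eq_zero B).2 fun y hy => ?_
      have := hB.2 y
      rw [hy, norm_zero] at this
      exact norm_le_zero_iff.1 (nonpos_of_mul_nonpos_right this hc |>.trans' le_rfl)
    let e : Y ≃L[ℝ] Y := (LinearEquiv.ofInjectiveEndo (B : Y →ₗ[ℝ] Y) hinj).toContinuousLinearEquiv
    have he : (e : Y →L[ℝ] Y) = B := by ext; rfl
    rw [← he]
    exact contDiffAt_map_inverse e
  · filter_upwards [hC, h1] with j a b using ⟨by simpa using Or.inl a, b⟩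
  · filter_upwards [hD, h2] with j a b using ⟨by simpa using Or.inr a, b⟩

theorem GB.inverse [FiniteDimensional ℝ Y] {A : ι → X → Y →L[ℝ] Y} {x : ι → X} {c : ℝ}
    (hc : 0 < c) (h : GB l A x) (h1 : ∀ᶠ j in l, ∀ y, c * ‖y‖ ≤ ‖A j (x j) y‖) :
    GB l (fun j z => ContinuousLinearMap.inverse (A j z)) x := (h.ge.inverse hc h1 h1).left

end Crest.Agent.N207.Jt

end
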