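import Crest.Agent.N207.Tens
import Crest.Agent.N207.I.Jet2

/-!
# Row 207, block I (helper98): FROZEN definitions

* `Atl X α`: a finite atlas on a bare carrier (no topology), deck groups `Γ`.
* `TD M`: tree data; `T.base v` (finite collars, carrier `M`), `T.core v` (infinite ends),
  `T.glob L` (necks of length `L w`), one partition of unity `T.χ` for all of them.
* `T.Lim g γ`: the Ricci flat limits; `T.Seq g γ l L G`: the approximating metrics.
-/

set_option autoImplicit false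

open scoped ContDiff Topology ENNReal
open Set Filter Metric MeasureTheory
open Crest.GeometryTopology.CoordMetric

noncomputable section

namespace Crest.Agent.N207.I

/-- linear isometries of `ℝ⁴` -/
abbrev Iso4 : Type := E4 ≃ₗᵢ[ℝ] E4

/-- charts `c a` on `U a` with deck group `Γ a` -/
structure Atl (X : Type*) (α : Type) where
  c : α → E4 → X
  U : α → Set E4
  Γ : α → Subgroup Iso4

namespace Atl

variable {X : Type*} {α : Type} (A : Atl X α) {k : ℕ}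

/-- `F` is a local change of charts at `x`, from the chart `a` to the chart `b` -/
structure Tr (a b : α) (x : E4) (F : E4 → E4) : Prop where
  mem : x ∈ A.U a
  mem' : F x ∈ A.U b
  sm : ∀ᶠ z in 𝓝 x, ContDiffAt ℝ ∞ F z
  eq : ∀ᶠ z in 𝓝 x, A.c b (F z) = A.c a z

structure Ok : Prop where
  isOpen : ∀ a, IsOpen (A.U a)
  fin : ∀ a, Finite (A.Γ a)
  inv : ∀ a, ∀ γ ∈ A.Γ a, ∀ x ∈ A.U a, γ x ∈ A.U a
  free : ∀ a, ∀ γ ∈ A.Γ a, ∀ x ∈ A.U a, γ x = x → γ = 1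
  fib : ∀ a, ∀ x ∈ A.U a, ∀ y ∈ A.U a, A.c a x = A.c a y ↔ ∃ γ ∈ A.Γ a, γ x = y
  loc : ∀ a b, ∀ x ∈ A.U a, ∀ y ∈ A.U b, A.c a x = A.c b y → ∃ F, A.Tr a b x F ∧ F x = y
  t2 : ∀ a b, ∀ x ∈ A.U a, ∀ y ∈ A.U b, A.c a x ≠ A.c b y →
    ∀ᶠ p in 𝓝 (x, y), A.c a p.1 ≠ A.c b p.2

/-- `S` is closed in the part of the carrier covered by the charts -/
def Cl (S : Set X) : Prop := ∀ b, ∀ y ∈ A.U b, A.c b y ∉ S → ∀ᶠ z in 𝓝 y, A.c b z ∉ S

/-- smooth functions on the carrier -/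
def SmF (f : X → ℝ) : Prop := ∀ a, ContDiffOn ℝ ∞ (fun x => f (A.c a x)) (A.U a)

/-- compatible families of scalars -/
def CompF {Y : Type*} (f : α → E4 → Y) : Prop :=
  ∀ a b, ∀ x ∈ A.U a, ∀ y ∈ A.U b, A.c a x = A.c b y → f a x = f b y

/-- compatible families of covariant tensors -/
def Compat (T : α → Tn 4 k) : Prop := ∀ a b x F, A.Tr a b x F → T a x = pullT F (T b) x

/-- smooth tensor fields -/
structure Sec (T : α → Tn 4 k) : Prop where
  sm : ∀ a, SmT (T a) (A.U a)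
  compat : A.Compat T

/-- smooth Riemannian metrics -/
structure IsMet (G : α → MetricField 4) : Prop where
  riem : ∀ a, IsRiemannianOn (G a) (A.U a)
  compat : A.Compat fun a => matT (G a)

open Classical in
/-- extension by zero of a (`Γ a`-invariant) function given in the chart `a` -/
def ext (a : α) (f : E4 → ℝ) (p : X) : ℝ :=
  if h : ∃ x ∈ A.U a, A.c a x = p then f h.choose else 0

/-- a partition of unity, `χ a` supported in the image of `K a` -/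
structure PoU [Fintype α] (χ : α → X → ℝ) (K : α → Set E4) : Prop where
  sm : ∀ a, A.SmF (χ a)
  nonneg : ∀ a p, 0 ≤ χ a p
  sum : ∀ b, ∀ y ∈ A.U b, ∑ a, χ a (A.c b y) = 1
  sub : ∀ a, K a ⊆ A.U a
  supp : ∀ a b, ∀ y ∈ A.U b, χ a (A.c b y) ≠ 0 → A.c b y ∈ A.c a '' K a
  cl : ∀ a, A.Cl (A.c a '' K a)

/-- the density of the volume of `G` in the chart `a`, cut by the partition of unity -/
def den (χ : α → X → ℝ) (G : α → MetricField 4) (a : α) (x : E4) : ℝ :=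
  (Nat.card (A.Γ a) : ℝ)⁻¹ * (χ a (A.c a x) * Real.sqrt (G a x).det)

/-- integral of a compatible family -/
def int [Fintype α] (χ : α → X → ℝ) (G : α → MetricField 4) (f : α → E4 → ℝ) : ℝ :=
  ∑ a, ∫ x in A.U a, A.den χ G a x * f a x

/-- lower integral of a compatible family -/
def lint [Fintype α] (χ : α → X → ℝ) (G : α → MetricField 4) (f : α → E4 → ℝ≥0∞) : ℝ≥0∞ :=
  ∑ a, ∫⁻ x in A.U a, ENNReal.ofReal (A.den χ G a x) * f a x

/-- integrability of a compatible family -/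
def Intg (χ : α → X → ℝ) (G : α → MetricField 4) (f : α → E4 → ℝ) : Prop :=
  ∀ a, IntegrableOn (fun x => A.den χ G a x * f a x) (A.U a)

end Atl

/-- tree data: vertices (= cores; `w` also names the OUTER neck of `w`), ball charts `φ`, outer
collar `co v` (units of `v`, `1 < |x| < 4`), inner collar `ci w` (units of `par w`,
`r/4 < |x| < r`) -/
structure TD (M : Type*) where
  V : Type
  [fV : Fintype V]
  [dV : DecidableEq V]
  root : V
  par : V → V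
  dep : V → ℕ
  B : Type
  [fB : Fintype B]
  [dB : DecidableEq B]
  vx : B → V
  Γ : V → Subgroup Iso4
  r : ℝ
  φ : B → E4 → M
  co : V → E4 → M
  ci : V → E4 → M

attribute [instance] TD.fV TD.dV TD.fB TD.dB

/-- `1` on `|x| ≤ 1`, `0` on `3/2 ≤ |x|` -/
def bmp (x : E4) : ℝ := Real.smoothTransition ((9 / 4 - ‖x‖ ^ 2) / (5 / 4))

/-- `0` on `|x| ≤ 3/2`, `1` on `2 ≤ |x|` -/
def zet (x : E4) : ℝ := Real.smoothTransition ((‖x‖ ^ 2 - 9 / 4) / (7 / 4))

namespace TD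

variable {M : Type*} (T : TD M)

/-- chart indices -/
abbrev S : Type := T.B ⊕ T.V

/-- `w` is a child of `v` -/
def kid (v w : T.V) : Prop := w ≠ T.root ∧ T.par w = v

instance (v w : T.V) : Decidable (T.kid v w) := inferInstanceAs (Decidable (_ ∧ _))

/-- deck groups -/
def grp : T.S → Subgroup Iso4 := Sum.elim (fun _ => ⊥) T.Γ

/-- domains of the ball charts of `v` -/
def bU (v : T.V) (a : T.B) : Set E4 := if T.vx a = v then ball 0 2 else ∅

/-- the core with finite collars, carrier `M` -/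
def base (v : T.V) : Atl M T.S where
  c := Sum.elim T.φ fun w => if w = v then T.co v else T.ci w
  U := Sum.elim (T.bU v) fun w =>
    if w = v then {x | 1 < ‖x‖ ∧ ‖x‖ < 4}
    else if T.kid v w then {x | T.r / 4 < ‖x‖ ∧ ‖x‖ < T.r} else ∅
  Γ := T.grp

/-- the carrier of the cores and of the glued spaces -/
abbrev Car : Type _ := (T.V × M) ⊕ (T.V × Set E4)

/-- orbits -/
def orb (w : T.V) (x : E4) : Set E4 := {y | ∃ γ ∈ T.Γ w, γ x = y}

/-- the core with infinite ends: `inr v` is the outer end `1 < |x|`, `inr w` (`w` a child) the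
puncture `0 < |x| < r` -/
def core (v : T.V) : Atl T.Car T.S where
  c := Sum.elim (fun a x => Sum.inl (T.vx a, T.φ a x)) fun w x =>
    if w = v then (if ‖x‖ < 4 then Sum.inl (v, T.co v x) else Sum.inr (v, T.orb v x))
    else (if T.r / 4 < ‖x‖ then Sum.inl (v, T.ci w x) else Sum.inr (w, T.orb w x))
  U := Sum.elim (T.bU v) fun w =>
    if w = v then {x | 1 < ‖x‖} else if T.kid v w then {x | 0 < ‖x‖ ∧ ‖x‖ < T.r} else ∅
  Γ := T.grp

/-- the glued space: `inr w` is the neck `1 < |x| < r e^{L w}` in the units of `w`; the coordinate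
of the parent is `e^{-L w} x` -/
def glob (L : T.V → ℝ) : Atl T.Car T.S where
  c := Sum.elim (fun a x => Sum.inl (T.vx a, T.φ a x)) fun w x =>
    if ‖x‖ < 4 then Sum.inl (w, T.co w x)
    else if w ≠ T.root ∧ T.r / 4 < ‖Real.exp (-L w) • x‖ then
      Sum.inl (T.par w, T.ci w (Real.exp (-L w) • x))
    else Sum.inr (w, T.orb w x)
  U := Sum.elim (fun _ => ball 0 2) fun w =>
    {x | 1 < ‖x‖ ∧ (w ≠ T.root → ‖x‖ < T.r * Real.exp (L w))}
  Γ := T.grp

/-- admissible neck lengths -/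
def Long (L : T.V → ℝ) : Prop := ∀ w, w ≠ T.root → 16 ≤ T.r * Real.exp (L w)

/-- supports in `core v` -/
def cK (v : T.V) : T.S → Set E4 :=
  Sum.elim (fun a => if T.vx a = v then closedBall 0 (3 / 2) else ∅) fun w =>
    if w = v then {x | 3 / 2 ≤ ‖x‖}
    else if T.kid v w then {x | 0 < ‖x‖ ∧ ‖x‖ ≤ 3 / 4 * T.r} else ∅

/-- supports in `glob L` -/
def gK (L : T.V → ℝ) : T.S → Set E4 :=
  Sum.elim (fun _ => closedBall 0 (3 / 2)) fun w =>
    {x | 3 / 2 ≤ ‖x‖ ∧ (w ≠ T.root → ‖x‖ ≤ 3 / 4 * T.r * Real.exp (L w))}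

/-- the bumps in the charts of `base v` -/
def th0 (v : T.V) : T.S → E4 → ℝ :=
  Sum.elim (fun _ => bmp) fun w x => if w = v then zet x else bmp ((2 / T.r) • x)

/-- the bumps on `M` -/
def th (v : T.V) (s : T.S) : M → ℝ := (T.base v).ext s (T.th0 v s)

/-- the partition of unity (the same for all `core v` and all `glob L`) -/
def χ (s : T.S) : T.Car → ℝ :=
  Sum.elim (fun p => T.th p.1 s p.2 / ∑ s', T.th p.1 s' p.2) fun p =>
    if s = Sum.inr p.1 then 1 else 0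

/-- the scale of the vertex `v` in the units of the root -/
def eps (L : T.V → ℝ) (v : T.V) : ℝ :=
  Real.exp (-∑ j ∈ Finset.range (T.dep v), L (T.par^[j] v))

/-- the vertex whose units the chart `s` of `glob L` uses -/
def un : T.S → T.V := Sum.elim T.vx id

structure Ok : Prop where
  dep_root : T.dep T.root = 0
  dep_par : ∀ w, w ≠ T.root → T.dep w = T.dep (T.par w) + 1
  r_pos : 0 < T.r
  r_lt : T.r < 1
  fin : ∀ v, Finite (T.Γ v)
  ne_bot : ∀ v, T.Γ v ≠ ⊥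
  free : ∀ v, ∀ γ ∈ T.Γ v, ∀ x : E4, x ≠ 0 → γ x = x → γ = 1
  base : ∀ v, (T.base v).Ok
  sepo : ∀ a, ∀ x ∈ ball (0 : E4) 2, ∀ y : E4, 1 < ‖y‖ → ‖y‖ < 4 →
    T.φ a x = T.co (T.vx a) y → ‖y‖ < 3
  sepi : ∀ a w, T.kid (T.vx a) w → ∀ x ∈ ball (0 : E4) 2, ∀ y : E4, T.r / 4 < ‖y‖ → ‖y‖ < T.r →
    T.φ a x = T.ci w y → T.r / 3 < ‖y‖
  disj : ∀ v w w', w ≠ w' → ∀ x ∈ (T.base v).U (Sum.inr w), ∀ y ∈ (T.base v).U (Sum.inr w'),
    (T.base v).c (Sum.inr w) x ≠ (T.base v).c (Sum.inr w') y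
  cover : ∀ v s, ∀ x ∈ (T.base v).U s,
    (∃ b, T.vx b = v ∧ ∃ y ∈ ball (0 : E4) 1, T.φ b y = (T.base v).c s x) ∨
    (∃ y : E4, 2 ≤ ‖y‖ ∧ ‖y‖ < 4 ∧ T.co v y = (T.base v).c s x) ∨
    ∃ w, T.kid v w ∧ ∃ y : E4, T.r / 4 < ‖y‖ ∧ ‖y‖ ≤ T.r / 2 ∧ T.ci w y = (T.base v).c s x

/-- the entries of `G - δ` -/
def dv (G : MetricField 4) (i j : Fin 4) (y : E4) : ℝ := G y i j - (1 : Matrix (Fin 4) (Fin 4) ℝ) i j

/-- the limits: Ricci flat metrics on the cores, asymptotically flat at all ends -/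
structure Lim (g : T.V → T.S → MetricField 4) (γ : ℝ) : Prop where
  met : ∀ v, (T.core v).IsMet (g v)
  ric : ∀ v s, ∀ x ∈ (T.core v).U s, ∀ i j, ricci (g v s) x i j = 0
  out : ∀ v (k : ℕ), ∃ C : ℝ, ∀ i j, ∀ x : E4, 1 < ‖x‖ →
    ‖iteratedFDeriv ℝ k (dv (g v (Sum.inr v)) i j) x‖ ≤ C * ‖x‖ ^ (-γ - k)
  inn : ∀ w, w ≠ T.root → ∀ k : ℕ, ∃ C : ℝ, ∀ i j, ∀ x : E4, 0 < ‖x‖ → ‖x‖ < T.r →
    ‖iteratedFDeriv ℝ k (dv (g (T.par w) (Sum.inr w)) i j) x‖ ≤ C * ‖x‖ ^ (γ - k)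
  small_out : ∀ v i j, ∀ x : E4, 1 < ‖x‖ → |dv (g v (Sum.inr v)) i j x| ≤ 1 / 100
  small_inn : ∀ w, w ≠ T.root → ∀ i j, ∀ x : E4, 0 < ‖x‖ → ‖x‖ < T.r →
    |dv (g (T.par w) (Sum.inr w)) i j x| ≤ 1 / 100

/-- the chart `s` of a metric on `glob L`, in the units of its vertex -/
def nrm (L : T.V → ℝ) (G : T.S → MetricField 4) (s : T.S) : MetricField 4 :=
  fun y => ((T.eps L (T.un s)) ^ 2)⁻¹ • G s y

/-- the weight of the neck `w` -/
def wt (γ : ℝ) (L : T.V → ℝ) (w : T.V) (x : E4) : ℝ :=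
  ‖x‖ ^ (-γ) + if w = T.root then 0 else (Real.exp (-L w) * ‖x‖) ^ γ

/-- metrics `G i` on `glob (L i)` (units of the root) converging to the tree of limits `g` -/
structure Seq {ι : Type} (g : T.V → T.S → MetricField 4) (γ : ℝ) (l : Filter ι)
    (L : ι → T.V → ℝ) (G : ι → T.S → MetricField 4) : Prop where
  top : ∀ w, w ≠ T.root → Tendsto (fun i => L i w) l atTop
  met : ∀ᶠ i in l, T.Long (L i) ∧ (T.glob (L i)).IsMet (G i)
  ball : ∀ a p q, ∀ K : Set E4, IsCompact K → K ⊆ ball 0 2 →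
    Jt.UE l (fun i x => T.nrm (L i) (G i) (Sum.inl a) x p q)
      (fun _ x => g (T.vx a) (Sum.inl a) x p q) fun _ => K
  out : ∀ w p q, ∀ K : Set E4, IsCompact K → K ⊆ {x | 1 < ‖x‖} →
    Jt.UE l (fun i x => T.nrm (L i) (G i) (Sum.inr w) x p q)
      (fun _ x => g w (Sum.inr w) x p q) fun _ => K
  inn : ∀ w, w ≠ T.root → ∀ p q, ∀ K : Set E4, IsCompact K → K ⊆ {x | 0 < ‖x‖ ∧ ‖x‖ < T.r} →
    Jt.UE l (fun i x => T.nrm (L i) (G i) (Sum.inr w) (Real.exp (L i w) • x) p q)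
      (fun _ x => g (T.par w) (Sum.inr w) x p q) fun _ => K
  neck : ∀ w (k : ℕ), ∃ C : ℝ, ∀ᶠ i in l, ∀ p q, ∀ x ∈ (T.glob (L i)).U (Sum.inr w),
    ‖iteratedFDeriv ℝ k (dv (T.nrm (L i) (G i) (Sum.inr w)) p q) x‖ ≤
      C * (‖x‖ ^ k)⁻¹ * T.wt γ (L i) w x
  small : ∀ᶠ i in l, ∀ w p q, ∀ x ∈ (T.glob (L i)).U (Sum.inr w),
    |dv (T.nrm (L i) (G i) (Sum.inr w)) p q x| ≤ 1 / 100

end TD

end Crest.Agent.N207.I

end
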