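import Crest.Agent.N207.I.Defs

/-!
# Row 207, block I (helper98): general facts on atlases, stretched atlases are atlases
-/

set_option autoImplicit false
set_option linter.unusedSectionVars false

open scoped ContDiff Topology
open Set Filter Metric

noncomputable section

namespace Crest.Agent.N207.I

namespace Atl

variable {X : Type*} {α : Type} {A : Atl X α}

theorem Ok.c_inv (h : A.Ok) {a : α} {γ : Iso4} (hγ : γ ∈ A.Γ a) {x : E4} (hx : x ∈ A.U a) :
    A.c a (γ x) = A.c a x :=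
  ((h.fib a x hx _ (h.inv a γ hγ x hx)).2 ⟨γ, hγ, rfl⟩).symm

theorem Ok.tr_iso (h : A.Ok) {a : α} {γ : Iso4} (hγ : γ ∈ A.Γ a) {x : E4} (hx : x ∈ A.U a) :
    A.Tr a a x γ :=
  ⟨hx, h.inv a γ hγ x hx, Eventually.of_forall fun _ => γ.contDiff.contDiffAt,
    ((h.isOpen a).eventually_mem hx).mono fun _ hz => h.c_inv hγ hz⟩

/-- images of compact sets are closed -/
theorem Ok.cl_cpt (h : A.Ok) {a : α} {C : Set E4} (hC : IsCompact C) (hU : C ⊆ A.U a) :
    A.Cl (A.c a '' C) := by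
  intro b y hy hn
  have h1 : ∀ x ∈ C, ∀ᶠ p : E4 × E4 in 𝓝 (y, x), A.c a p.2 ≠ A.c b p.1 := fun x hx => by
    have := h.t2 a b x (hU hx) y hy fun e => hn ⟨x, hx, e⟩
    exact (continuous_swap.tendsto (y, x)).eventually this
  filter_upwards [hC.eventually_forall_of_forall_eventually
    (P := fun z x => A.c a x ≠ A.c b z) h1] with z hz
  rintro ⟨x, hx, e⟩
  exact hz x hx e

theorem Cl.empty : A.Cl ∅ := fun _ _ _ _ => Eventually.of_forall fun _ h => h

theorem ext_of_not {a : α} {f : E4 → ℝ} {p : X} (hp : ¬ ∃ x ∈ A.U a, A.c a x = p) :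
    A.ext a f p = 0 := dif_neg hp

theorem ext_spec {a : α} {f : E4 → ℝ} {p : X} (hp : A.ext a f p ≠ 0) :
    ∃ x ∈ A.U a, A.c a x = p ∧ A.ext a f p = f x := by
  by_cases h : ∃ x ∈ A.U a, A.c a x = p
  · exact ⟨h.choose, h.choose_spec.1, h.choose_spec.2, dif_pos h⟩
  · exact absurd (ext_of_not h) hp

theorem ext_nonneg {a : α} {f : E4 → ℝ} (hf : ∀ x, 0 ≤ f x) (p : X) : 0 ≤ A.ext a f p := by
  by_cases h : A.ext a f p = 0
  · exact h.ge
  · obtain ⟨x, -, -, e⟩ := ext_spec h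
    rw [e]; exact hf x

theorem Ok.ext_apply (h : A.Ok) {a : α} {f : E4 → ℝ}
    (hf : ∀ γ ∈ A.Γ a, ∀ x ∈ A.U a, f (γ x) = f x) {x : E4} (hx : x ∈ A.U a) :
    A.ext a f (A.c a x) = f x := by
  have h1 : ∃ y ∈ A.U a, A.c a y = A.c a x := ⟨x, hx, rfl⟩
  obtain ⟨γ, hγ, e⟩ := (h.fib a _ h1.choose_spec.1 x hx).1 h1.choose_spec.2
  rw [ext, dif_pos h1, ← hf γ hγ _ h1.choose_spec.1, e]

/-- extensions by zero are smooth -/
theorem Ok.ext_sm (h : A.Ok) {a : α} {f : E4 → ℝ} {K : Set E4}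
    (hf : ∀ γ ∈ A.Γ a, ∀ x ∈ A.U a, f (γ x) = f x) (hs : ContDiffOn ℝ ∞ f (A.U a))
    (hK : ∀ x ∈ A.U a, f x ≠ 0 → x ∈ K) (hKU : K ⊆ A.U a) (hc : A.Cl (A.c a '' K)) :
    A.SmF (A.ext a f) := by
  intro b y hy
  refine ContDiffAt.contDiffWithinAt ?_
  by_cases hn : A.c b y ∈ A.c a '' K
  · obtain ⟨x, hx, e⟩ := hn
    obtain ⟨F, hF, hFx⟩ := h.loc b a y hy x (hKU hx) e.symm
    have h1 : ContDiffAt ℝ ∞ (fun z => f (F z)) y :=
      (hs.contDiffAt ((h.isOpen a).mem_nhds hF.mem')).comp y hF.sm.self_of_nhds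
    refine h1.congr_of_eventuallyEq ?_
    filter_upwards [hF.eq, hF.sm.self_of_nhds.continuousAt.eventually
      ((h.isOpen a).mem_nhds hF.mem')] with z h2 h3
    rw [← h2, h.ext_apply hf h3]
  · refine (contDiffAt_const (c := (0 : ℝ))).congr_of_eventuallyEq ?_
    filter_upwards [hc b y hy hn] with z hz
    by_contra h0
    obtain ⟨x, hx, e, e'⟩ := ext_spec h0
    exact hz ⟨x, hK x hx (e' ▸ h0), e⟩

end Atl

theorem bmp_sm : ContDiff ℝ ∞ bmp :=
  Real.smoothTransition.contDiff.comp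
    ((contDiff_const.sub (contDiff_norm_sq ℝ)).div_const _)

theorem zet_sm : ContDiff ℝ ∞ zet :=
  Real.smoothTransition.contDiff.comp
    (((contDiff_norm_sq ℝ).sub contDiff_const).div_const _)

theorem bmp_nonneg (x : E4) : 0 ≤ bmp x := Real.smoothTransition.nonneg _

theorem zet_nonneg (x : E4) : 0 ≤ zet x := Real.smoothTransition.nonneg _

theorem bmp_one {x : E4} (h : ‖x‖ ≤ 1) : bmp x = 1 :=
  Real.smoothTransition.one_of_one_le ((one_le_div (by norm_num)).2 (by nlinarith [norm_nonneg x]))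

theorem zet_one {x : E4} (h : 2 ≤ ‖x‖) : zet x = 1 :=
  Real.smoothTransition.one_of_one_le ((one_le_div (by norm_num)).2 (by nlinarith))

theorem bmp_ne {x : E4} (h : bmp x ≠ 0) : ‖x‖ ≤ 3 / 2 := by
  by_contra h1
  push Not at h1
  exact h (Real.smoothTransition.zero_of_nonpos
    (div_nonpos_of_nonpos_of_nonneg (by nlinarith) (by norm_num)))

theorem zet_ne {x : E4} (h : zet x ≠ 0) : 3 / 2 ≤ ‖x‖ := by
  by_contra h1
  push Not at h1
  exact h (Real.smoothTransition.zero_of_nonpos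
    (div_nonpos_of_nonpos_of_nonneg (by nlinarith [norm_nonneg x]) (by norm_num)))

namespace TD

variable {M : Type*} {T : TD M}

theorem mem_bU {v : T.V} {a : T.B} {x : E4} : x ∈ T.bU v a ↔ T.vx a = v ∧ ‖x‖ < 2 := by
  unfold bU; split_ifs with h <;> simp [h]

theorem mem_base_inl {v : T.V} {a : T.B} {x : E4} :
    x ∈ (T.base v).U (Sum.inl a) ↔ T.vx a = v ∧ ‖x‖ < 2 := mem_bU

theorem base_c_inl (v : T.V) (a : T.B) : (T.base v).c (Sum.inl a) = T.φ a := rfl

theorem mem_base_out {v : T.V} {x : E4} :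
    x ∈ (T.base v).U (Sum.inr v) ↔ 1 < ‖x‖ ∧ ‖x‖ < 4 := by simp [base]

theorem base_c_out (v : T.V) : (T.base v).c (Sum.inr v) = T.co v := by simp [base]

theorem mem_base_inn {v w : T.V} (h : w ≠ v) {x : E4} :
    x ∈ (T.base v).U (Sum.inr w) ↔ T.kid v w ∧ T.r / 4 < ‖x‖ ∧ ‖x‖ < T.r := by
  by_cases hk : T.kid v w <;> simp [base, h, hk]

theorem base_c_inn {v w : T.V} (h : w ≠ v) : (T.base v).c (Sum.inr w) = T.ci w := by
  simp [base, h]

theorem Ok.par_ne (h : T.Ok) {w : T.V} (hw : w ≠ T.root) : w ≠ T.par w := fun e => by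
  have := h.dep_par w hw
  rw [← e] at this; omega

theorem Ok.kid_ne (h : T.Ok) {v w : T.V} (hk : T.kid v w) : w ≠ v := hk.2 ▸ h.par_ne hk.1

theorem mem_orb (w : T.V) (x : E4) : x ∈ T.orb w x := ⟨1, one_mem _, rfl⟩

theorem orb_inv {w : T.V} {γ : Iso4} (hγ : γ ∈ T.Γ w) (x : E4) : T.orb w (γ x) = T.orb w x := by
  ext y
  constructor
  · rintro ⟨δ, hδ, rfl⟩; exact ⟨δ * γ, mul_mem hδ hγ, rfl⟩
  · rintro ⟨δ, hδ, rfl⟩
    exact ⟨δ * γ⁻¹, mul_mem hδ (inv_mem hγ), by simp⟩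

/-- beyond the reach of the ball charts -/
def Far (T : TD M) (v w : T.V) (u : E4) : Prop := (w = v → 3 ≤ ‖u‖) ∧ (w ≠ v → ‖u‖ ≤ T.r / 3)

/-- in the support of the bump of an end -/
def Sup (T : TD M) (v w : T.V) (u : E4) : Prop :=
  (w = v → 3 / 2 ≤ ‖u‖) ∧ (w ≠ v → ‖u‖ ≤ 3 / 4 * T.r)

theorem Ok.not_far (h : T.Ok) {a : T.B} {w : T.V} {x u : E4} (hx : ‖x‖ < 2)
    (hu : u ∈ (T.base (T.vx a)).U (Sum.inr w))
    (e : T.φ a x = (T.base (T.vx a)).c (Sum.inr w) u) : ¬ T.Far (T.vx a) w u := by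
  intro hf
  by_cases hw : w = T.vx a
  · subst hw
    rw [mem_base_out] at hu
    rw [base_c_out] at e
    have := h.sepo a x (by simpa using hx) u hu.1 hu.2 e
    linarith [hf.1 rfl]
  · rw [mem_base_inn hw] at hu
    rw [base_c_inn hw] at e
    have := h.sepi a w hu.1 x (by simpa using hx) u hu.2.1 hu.2.2 e
    linarith [hf.2 hw]

/-- an atlas obtained from the `base v` (`act v`) by stretching the collars -/
structure Str (T : TD M) (A : Atl T.Car T.S) (act : T.V → Prop) (lam : T.V → T.V → ℝ) : Prop where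
  grp : A.Γ = T.grp
  isOpen : ∀ w, IsOpen (A.U (Sum.inr w))
  Ub : ∀ a x, x ∈ A.U (Sum.inl a) ↔ act (T.vx a) ∧ ‖x‖ < 2
  cb : ∀ a x, A.c (Sum.inl a) x = Sum.inl (T.vx a, T.φ a x)
  ne : ∀ w, ∀ x ∈ A.U (Sum.inr w), x ≠ 0
  inv : ∀ w, ∀ γ ∈ T.Γ w, ∀ x ∈ A.U (Sum.inr w),
    γ x ∈ A.U (Sum.inr w) ∧ A.c (Sum.inr w) (γ x) = A.c (Sum.inr w) x
  pos : ∀ w v, 0 < lam w v
  conv : ∀ w v x, act v → lam w v • x ∈ (T.base v).U (Sum.inr w) → x ∈ A.U (Sum.inr w) ∧
    A.c (Sum.inr w) x = Sum.inl (v, (T.base v).c (Sum.inr w) (lam w v • x))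
  cases : ∀ w, ∀ x ∈ A.U (Sum.inr w), (∃ v, act v ∧ lam w v • x ∈ (T.base v).U (Sum.inr w)) ∨
    (A.c (Sum.inr w) x = Sum.inr (w, T.orb w x) ∧ ∀ᶠ z in 𝓝 x, ∀ v, act v →
      lam w v • z ∈ (T.base v).U (Sum.inr w) → T.Far v w (lam w v • z))

/-- the scaling of the chart `s` -/
def sc (lam : T.V → T.V → ℝ) (s : T.S) (v : T.V) : ℝ := Sum.elim (fun _ => 1) (fun w => lam w v) s

variable {A : Atl T.Car T.S} {act : T.V → Prop} {lam : T.V → T.V → ℝ}

theorem Str.sc_pos (hA : T.Str A act lam) (s : T.S) (v : T.V) : 0 < sc lam s v := by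
  cases s with
  | inl a => exact one_pos
  | inr w => exact hA.pos w v

theorem Str.op (hA : T.Str A act lam) (s : T.S) : IsOpen (A.U s) := by
  cases s with
  | inl a =>
    have : A.U (Sum.inl a) = {x | act (T.vx a)} ∩ ball 0 2 := by
      ext x; simp [hA.Ub]
    rw [this]; exact isOpen_const.inter isOpen_ball
  | inr w => exact hA.isOpen w

theorem Str.conv' (hA : T.Str A act lam) {s : T.S} {v : T.V} {x : E4} (hv : act v)
    (hx : sc lam s v • x ∈ (T.base v).U s) :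
    x ∈ A.U s ∧ A.c s x = Sum.inl (v, (T.base v).c s (sc lam s v • x)) := by
  cases s with
  | inl a =>
    simp only [sc, Sum.elim_inl, one_smul, mem_base_inl] at hx ⊢
    obtain ⟨rfl, h2⟩ := hx
    exact ⟨(hA.Ub a x).2 ⟨hv, h2⟩, hA.cb a x⟩
  | inr w => exact hA.conv w v x hv hx

theorem Str.conv_ev (hA : T.Str A act lam) (h : T.Ok) {s : T.S} {v : T.V} {x : E4} (hv : act v)
    (hx : sc lam s v • x ∈ (T.base v).U s) :
    ∀ᶠ z in 𝓝 x, sc lam s v • z ∈ (T.base v).U s ∧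
      A.c s z = Sum.inl (v, (T.base v).c s (sc lam s v • z)) := by
  have hc : Continuous fun z : E4 => sc lam s v • z := continuous_const_smul _
  filter_upwards [hc.continuousAt.eventually (((h.base v).isOpen s).mem_nhds hx)] with z hz
  exact ⟨hz, (hA.conv' hv hz).2⟩

theorem Str.cases' (hA : T.Str A act lam) {s : T.S} {x : E4} (hx : x ∈ A.U s) :
    (∃ v, act v ∧ sc lam s v • x ∈ (T.base v).U s) ∨
      ∃ w, s = Sum.inr w ∧ A.c s x = Sum.inr (w, T.orb w x) ∧ ∀ᶠ z in 𝓝 x, ∀ v, act v →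
        lam w v • z ∈ (T.base v).U (Sum.inr w) → T.Far v w (lam w v • z) := by
  cases s with
  | inl a =>
    obtain ⟨h1, h2⟩ := (hA.Ub a x).1 hx
    exact Or.inl ⟨T.vx a, h1, by simpa [sc, mem_base_inl] using h2⟩
  | inr w => exact (hA.cases w x hx).imp id fun h => ⟨w, rfl, h⟩

theorem Str.inv' (hA : T.Str A act lam) {s : T.S} {γ : Iso4} (hγ : γ ∈ A.Γ s) {x : E4}
    (hx : x ∈ A.U s) : γ x ∈ A.U s ∧ A.c s (γ x) = A.c s x := by
  rw [hA.grp] at hγ
  cases s with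
  | inl a =>
    have : γ = 1 := Subgroup.mem_bot.1 hγ
    subst this; exact ⟨hx, rfl⟩
  | inr w => exact hA.inv w γ hγ x hx

/-- related points: both come from the same `base v`, or both are in the far part of an end -/
theorem Str.rel (hA : T.Str A act lam) {a b : T.S} {x y : E4} (hx : x ∈ A.U a) (hy : y ∈ A.U b)
    (e : A.c a x = A.c b y) :
    (∃ v, act v ∧ sc lam a v • x ∈ (T.base v).U a ∧ sc lam b v • y ∈ (T.base v).U b ∧
      (T.base v).c a (sc lam a v • x) = (T.base v).c b (sc lam b v • y)) ∨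
    (a = b ∧ ∃ γ ∈ A.Γ a, γ x = y) := by
  rcases hA.cases' hx with ⟨v, hv, h1⟩ | ⟨w, rfl, h1, -⟩ <;>
    rcases hA.cases' hy with ⟨v', hv', h2⟩ | ⟨w', rfl, h2, -⟩
  · rw [(hA.conv' hv h1).2, (hA.conv' hv' h2).2] at e
    obtain ⟨rfl, e'⟩ := Prod.mk.inj (Sum.inl.inj e)
    exact Or.inl ⟨v, hv, h1, h2, e'⟩
  · rw [(hA.conv' hv h1).2, h2] at e; cases e
  · rw [h1, (hA.conv' hv' h2).2] at e; cases e
  · rw [h1, h2] at e
    obtain ⟨rfl, e'⟩ := Prod.mk.inj (Sum.inr.inj e)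
    have : y ∈ T.orb w x := e' ▸ mem_orb w y
    exact Or.inr ⟨rfl, by rw [hA.grp]; exact this⟩

theorem Str.fib (hA : T.Str A act lam) (h : T.Ok) {a : T.S} {x y : E4} (hx : x ∈ A.U a)
    (hy : y ∈ A.U a) : A.c a x = A.c a y ↔ ∃ γ ∈ A.Γ a, γ x = y := by
  refine ⟨fun e => ?_, ?_⟩
  · rcases hA.rel hx hy e with ⟨v, -, h1, h2, e'⟩ | h1
    · obtain ⟨γ, hγ, e2⟩ := ((h.base v).fib a _ h1 _ h2).1 e'
      refine ⟨γ, by rw [hA.grp]; exact hγ, ?_⟩
      rw [map_smul] at e2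
      exact smul_right_injective _ (hA.sc_pos a v).ne' e2
    · exact h1.2
  · rintro ⟨γ, hγ, rfl⟩
    exact (hA.inv' hγ hx).2.symm

/-- different ends never meet -/
theorem Str.disj (hA : T.Str A act lam) (h : T.Ok) {w w' : T.V} (hw : w ≠ w') {x y : E4}
    (hx : x ∈ A.U (Sum.inr w)) (hy : y ∈ A.U (Sum.inr w')) :
    A.c (Sum.inr w) x ≠ A.c (Sum.inr w') y := fun e => by
  rcases hA.rel hx hy e with ⟨v, -, h1, h2, e'⟩ | h1
  · exact h.disj v w w' hw _ h1 _ h2 e'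
  · exact hw (Sum.inr.inj h1.1)

theorem Str.fin (hA : T.Str A act lam) (h : T.Ok) (s : T.S) : Finite (A.Γ s) := by
  rw [hA.grp]
  cases s with
  | inl a => exact inferInstanceAs (Finite (⊥ : Subgroup Iso4))
  | inr w => exact h.fin w

/-- near a far point of an end there are no ball charts -/
theorem Str.far_ball (hA : T.Str A act lam) (h : T.Ok) {w : T.V} {y : E4} (hy : y ∈ A.U (Sum.inr w))
    (hf : ∀ᶠ z in 𝓝 y, ∀ v, act v → lam w v • z ∈ (T.base v).U (Sum.inr w) →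
      T.Far v w (lam w v • z)) :
    ∀ᶠ z in 𝓝 y, ∀ a, ∀ x ∈ A.U (Sum.inl a), A.c (Sum.inl a) x ≠ A.c (Sum.inr w) z := by
  filter_upwards [hf, (hA.isOpen w).mem_nhds hy] with z h1 h2 a x hx e
  rcases hA.rel hx h2 e with ⟨v, hv, h3, h4, e'⟩ | h3
  · simp only [sc, Sum.elim_inl, one_smul, Sum.elim_inr, mem_base_inl] at h3 h4 e'
    obtain ⟨rfl, h3⟩ := h3
    exact h.not_far h3 h4 e' (h1 _ hv h4)
  · cases h3.1

theorem Str.ok (hA : T.Str A act lam) (h : T.Ok) : A.Ok := by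
  refine ⟨hA.op, hA.fin h, fun a γ hγ x hx => (hA.inv' hγ hx).1, fun a γ hγ x hx e => ?_,
    fun a x hx y hy => hA.fib h hx hy, fun a b x hx y hy e => ?_, fun a b x hx y hy hne => ?_⟩
  · rw [hA.grp] at hγ
    cases a with
    | inl a => exact Subgroup.mem_bot.1 hγ
    | inr w => exact h.free w γ hγ x (hA.ne w x hx) e
  · rcases hA.rel hx hy e with ⟨v, hv, h1, h2, e'⟩ | ⟨rfl, γ, hγ, rfl⟩
    · obtain ⟨F, hF, hFx⟩ := (h.base v).loc a b _ h1 _ h2 e'
      have hb := (hA.sc_pos b v).ne'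
      have hc : Continuous fun z : E4 => sc lam a v • z := continuous_const_smul _
      have e1 : (sc lam b v)⁻¹ • F (sc lam a v • x) = y := by rw [hFx, inv_smul_smul₀ hb]
      refine ⟨fun z => (sc lam b v)⁻¹ • F (sc lam a v • z), ⟨hx, e1 ▸ hy, ?_, ?_⟩, e1⟩
      · filter_upwards [hc.continuousAt.eventually hF.sm] with z hz
        exact (hz.comp z (contDiff_const_smul _).contDiffAt).const_smul _
      · have h3 := (hF.sm.self_of_nhds.continuousAt.comp (f := fun z : E4 => sc lam a v • z)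
          hc.continuousAt).eventually (((h.base v).isOpen b).mem_nhds hF.mem')
        filter_upwards [hc.continuousAt.eventually hF.eq, h3, hA.conv_ev h hv h1] with z h4 h5 h6
        have h7 : sc lam b v • (sc lam b v)⁻¹ • F (sc lam a v • z) ∈ (T.base v).U b := by
          rw [smul_inv_smul₀ hb]; exact h5
        rw [(hA.conv' hv h7).2, smul_inv_smul₀ hb, h4, h6.2]
    · exact ⟨γ, ⟨hx, hy, Eventually.of_forall fun _ => γ.contDiff.contDiffAt,
        ((hA.op a).eventually_mem hx).mono fun _ hz => (hA.inv' hγ hz).2⟩, rfl⟩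
  · have hU : ∀ᶠ p : E4 × E4 in 𝓝 (x, y), p.1 ∈ A.U a ∧ p.2 ∈ A.U b :=
      (continuous_fst.continuousAt.eventually ((hA.op a).mem_nhds hx)).and
        (continuous_snd.continuousAt.eventually ((hA.op b).mem_nhds hy))
    by_cases hab : a = b
    · subst hab
      have := hA.fin h a
      have h1 : ∀ γ : A.Γ a, ∀ᶠ p : E4 × E4 in 𝓝 (x, y), (γ : Iso4) p.1 ≠ p.2 := fun γ => by
        have hc : Continuous fun p : E4 × E4 => (γ : Iso4) p.1 := by fun_prop
        exact (isOpen_ne_fun hc continuous_snd).mem_nhds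
          fun e => hne ((hA.fib h hx hy).2 ⟨γ, γ.2, e⟩)
      filter_upwards [hU, eventually_all.2 h1] with p h2 h3 e
      obtain ⟨γ, hγ, e'⟩ := (hA.fib h h2.1 h2.2).1 e
      exact h3 ⟨γ, hγ⟩ e'
    rcases hA.cases' hx with ⟨v, hv, h1⟩ | ⟨w, rfl, -, h1⟩
    · rcases hA.cases' hy with ⟨v', hv', h2⟩ | ⟨w', rfl, -, h2⟩
      · have e1 := continuous_fst.continuousAt (x := (x, y)).eventually (hA.conv_ev h hv h1)
        have e2 := continuous_snd.continuousAt (x := (x, y)).eventually (hA.conv_ev h hv' h2)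
        by_cases hvv : v = v'
        · subst hvv
          have h3 := (h.base v).t2 a b _ h1 _ h2 fun e => hne (by
            rw [(hA.conv' hv h1).2, (hA.conv' hv h2).2, e])
          have hc : Continuous fun p : E4 × E4 => (sc lam a v • p.1, sc lam b v • p.2) := by fun_prop
          filter_upwards [hc.continuousAt.eventually h3, e1, e2] with p h4 h5 h6 e
          rw [h5.2, h6.2] at e
          exact h4 (Prod.mk.inj (Sum.inl.inj e)).2
        · filter_upwards [e1, e2] with p h5 h6 e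
          rw [h5.2, h6.2] at e
          exact hvv (Prod.mk.inj (Sum.inl.inj e)).1
      · cases a with
        | inl a =>
          filter_upwards [hU, continuous_snd.continuousAt (x := (x, y)).eventually
            (hA.far_ball h hy h2)] with p h3 h4 using h4 a _ h3.1
        | inr w =>
          exact hU.mono fun p h3 => hA.disj h (fun e => hab (by rw [e])) h3.1 h3.2
    · cases b with
      | inl b =>
        filter_upwards [hU, continuous_fst.continuousAt (x := (x, y)).eventually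
          (hA.far_ball h hx h1)] with p h3 h4 using (h4 b _ h3.2).symm
      | inr w' => exact hU.mono fun p h3 => hA.disj h (fun e => hab (by rw [e])) h3.1 h3.2

end TD

end Crest.Agent.N207.I

end
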