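import Crest.Agent.N207.I.Cal2
import Crest.Agent.N207.I.Car1

/-!
# Row 207, block I (helper67): calculus on an atlas, part 3: the real integral
-/

set_option autoImplicit false

open scoped ContDiff Topology ENNReal
open Set Filter MeasureTheory
open Crest.GeometryTopology.CoordMetric

noncomputable section

namespace Crest.Agent.N207.I.Atl

variable {X : Type*} {α : Type} {A : Atl X α} {a b : α} {G : α → MetricField 4}
  {χ : α → X → ℝ} {K : α → Set E4} {f g : α → E4 → ℝ} {S S' : Set X}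

/-- measurable families -/
def Ms (A : Atl X α) (f : α → E4 → ℝ) : Prop :=
  ∀ a, AEStronglyMeasurable (f a) (volume.restrict (A.U a))

/-- continuous families -/
def Ct (A : Atl X α) (f : α → E4 → ℝ) : Prop := ∀ a, ContinuousOn (f a) (A.U a)

/-- relatively compact subsets of the carrier -/
def CS (A : Atl X α) (S : Set X) : Prop :=
  ∃ C : α → Set E4, (∀ a, IsCompact (C a) ∧ C a ⊆ A.U a) ∧ S ⊆ ⋃ a, A.c a '' C a

/-- `f` vanishes off `S` -/
def Van (A : Atl X α) {Y : Type*} [Zero Y] (f : α → E4 → Y) (S : Set X) : Prop :=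
  ∀ b, ∀ y ∈ A.U b, f b y ≠ 0 → A.c b y ∈ S

theorem Ct.ms (h : A.Ok) (hf : A.Ct f) : A.Ms f := fun a =>
  (hf a).aestronglyMeasurable (h.isOpen a).measurableSet

theorem CS.mono (hS : A.CS S) (e : S' ⊆ S) : A.CS S' :=
  let ⟨C, h1, h2⟩ := hS; ⟨C, h1, e.trans h2⟩

theorem CS.union (hS : A.CS S) (hS' : A.CS S') : A.CS (S ∪ S') := by
  obtain ⟨C, h1, h2⟩ := hS
  obtain ⟨C', h1', h2'⟩ := hS'
  refine ⟨fun a => C a ∪ C' a, fun a => ⟨(h1 a).1.union (h1' a).1,
    union_subset (h1 a).2 (h1' a).2⟩, union_subset ?_ ?_⟩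
  · exact h2.trans (iUnion_mono fun a => image_mono subset_union_left)
  · exact h2'.trans (iUnion_mono fun a => image_mono subset_union_right)

theorem cs_image {C : Set E4} (hC : IsCompact C) (hU : C ⊆ A.U a) : A.CS (A.c a '' C) := by
  classical
  refine ⟨fun b => if b = a then C else ∅, fun b => ?_, subset_iUnion_of_subset a (by simp)⟩
  dsimp only
  split_ifs with e
  · exact ⟨hC, e ▸ hU⟩
  · simp

/-- a relatively compact set lies in a closed one -/
theorem CS.exists_cl [Finite α] (h : A.Ok) (hS : A.CS S) : ∃ S', S ⊆ S' ∧ A.CS S' ∧ A.Cl S' := by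
  obtain ⟨C, h1, h2⟩ := hS
  refine ⟨_, h2, ⟨C, h1, Subset.rfl⟩, fun b y hy hn => ?_⟩
  simp only [mem_iUnion, not_exists] at hn ⊢
  exact eventually_all.2 fun a => h.cl_cpt (h1 a).1 (h1 a).2 b y hy (hn a)

theorem Van.mono {Y : Type*} [Zero Y] {f : α → E4 → Y} (hf : A.Van f S) (e : S ⊆ S') :
    A.Van f S' := fun b y hy k => e (hf b y hy k)

theorem Van.of_imp {Y Z : Type*} [Zero Y] [Zero Z] {f : α → E4 → Y} {g : α → E4 → Z}
    (hf : A.Van f S) (e : ∀ b, ∀ y ∈ A.U b, f b y = 0 → g b y = 0) : A.Van g S :=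
  fun b y hy k => hf b y hy fun k' => k (e b y hy k')

/-- off a closed support the family vanishes near the point -/
theorem Van.ev {Y : Type*} [Zero Y] {f : α → E4 → Y} (h : A.Ok) (hf : A.Van f S) (hc : A.Cl S)
    {y : E4} (hy : y ∈ A.U b) (hn : A.c b y ∉ S) : f b =ᶠ[𝓝 y] 0 := by
  filter_upwards [hc b y hy hn, (h.isOpen b).mem_nhds hy] with z h1 h2
  by_contra k
  exact h1 (hf b z h2 k)

/-- local operators preserve closed supports -/
theorem Van.op {Y Z : Type*} [Zero Y] [Zero Z] {f : α → E4 → Y} {g : α → E4 → Z} (h : A.Ok)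
    (hf : A.Van f S) (hc : A.Cl S) (e : ∀ b, ∀ y ∈ A.U b, f b =ᶠ[𝓝 y] 0 → g b y = 0) :
    A.Van g S := fun b y hy k => by
  by_contra hn
  exact k (e b y hy (hf.ev h hc hy hn))

/-- the trace of a compact set on a closed piece of the chart `a` is relatively compact -/
theorem exists_cpt₁ (h : A.Ok) {K C : Set E4} (hK : K ⊆ A.U a) (hc : A.Cl (A.c a '' K))
    (hC : IsCompact C) (hU : C ⊆ A.U b) : ∃ D, IsCompact D ∧ D ⊆ A.U a ∧
      ∀ x ∈ A.U a, A.c a x ∈ A.c a '' K → A.c a x ∈ A.c b '' C → x ∈ D := by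
  have := h.fin a
  refine hC.induction_on (p := fun C => ∃ D, IsCompact D ∧ D ⊆ A.U a ∧
      ∀ x ∈ A.U a, A.c a x ∈ A.c a '' K → A.c a x ∈ A.c b '' (C ∩ A.U b) → x ∈ D)
    ⟨∅, isCompact_empty, empty_subset _, by simp⟩ ?_ ?_ ?_ |>.imp fun D hD =>
      ⟨hD.1, hD.2.1, by simpa only [inter_eq_left.2 hU] using hD.2.2⟩
  · rintro s t hst ⟨D, h1, h2, h3⟩
    exact ⟨D, h1, h2, fun x hx k k' => h3 x hx k (image_mono (inter_subset_inter_left _ hst) k')⟩
  · rintro s t ⟨D, h1, h2, h3⟩ ⟨D', h1', h2', h3'⟩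
    refine ⟨D ∪ D', h1.union h1', union_subset h2 h2', fun x hx k k' => ?_⟩
    rw [union_inter_distrib_right, image_union] at k'
    exact k'.imp (h3 x hx k) (h3' x hx k)
  · intro y hy
    by_cases e : A.c b y ∈ A.c a '' K
    · obtain ⟨x, hx, e⟩ := e
      obtain ⟨F, t, -⟩ := h.loc b a y (hU hy) x (hK hx) e.symm
      obtain ⟨N, h1, h2, h3⟩ := local_compact_nhds (t.ev h)
      refine ⟨N, mem_nhdsWithin_of_mem_nhds h1, ⋃ γ : A.Γ a, (fun z => (γ : Iso4) (F z)) '' N,
        isCompact_iUnion fun γ => h3.image_of_continuousOn fun z hz =>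
          (γ.1.continuous.continuousAt.comp (h2 hz).cont).continuousWithinAt, ?_, ?_⟩
      · refine iUnion_subset fun γ => ?_
        rintro _ ⟨z, hz, rfl⟩
        exact h.inv a γ γ.2 _ (h2 hz).mem'
      · rintro x' hx' - ⟨z, hz, e'⟩
        obtain ⟨γ, hγ, e2⟩ := (h.fib a _ (h2 hz.1).mem' x' hx').1 ((h2 hz.1).eq0.trans e')
        exact mem_iUnion.2 ⟨⟨γ, hγ⟩, z, hz.1, e2⟩
    · refine ⟨_, mem_nhdsWithin_of_mem_nhds (hc b y (hU hy) e), ∅, isCompact_empty,
        empty_subset _, ?_⟩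
      rintro x' - k ⟨z, hz, e'⟩
      exact hz.1 (e' ▸ k)

theorem CS.exists_cpt [Finite α] (h : A.Ok) (hS : A.CS S) {K : Set E4} (hK : K ⊆ A.U a)
    (hc : A.Cl (A.c a '' K)) : ∃ D, IsCompact D ∧ D ⊆ A.U a ∧
      ∀ x ∈ A.U a, A.c a x ∈ A.c a '' K → A.c a x ∈ S → x ∈ D := by
  obtain ⟨C, h1, h2⟩ := hS
  choose D d1 d2 d3 using fun b => exists_cpt₁ h hK hc (h1 b).1 (h1 b).2
  refine ⟨⋃ b, D b, isCompact_iUnion d1, iUnion_subset d2, fun x hx k k' => ?_⟩
  obtain ⟨b, hb⟩ := mem_iUnion.1 (h2 k')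
  exact mem_iUnion.2 ⟨b, d3 b x hx k hb⟩

theorem integrableOn_of_cpt {U D : Set E4} {u : E4 → ℝ} (hU : IsOpen U) (hD : IsCompact D)
    (hDU : D ⊆ U) (hu : ContinuousOn u U) (h0 : ∀ x ∈ U, x ∉ D → u x = 0) : IntegrableOn u U :=
  ((hu.mono hDU).integrableOn_compact hD).of_forall_sdiff_eq_zero hU.measurableSet
    fun x hx => h0 x hx.1 hx.2

theorem Intg.add (hf : A.Intg χ G f) (hg : A.Intg χ G g) :
    A.Intg χ G fun a x => f a x + g a x := fun a => by
  simp only [mul_add]; exact (hf a).add (hg a)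

theorem Intg.sub (hf : A.Intg χ G f) (hg : A.Intg χ G g) :
    A.Intg χ G fun a x => f a x - g a x := fun a => by
  simp only [mul_sub]; exact (hf a).sub (hg a)

theorem Intg.const_mul (hf : A.Intg χ G f) (c : ℝ) : A.Intg χ G fun a x => c * f a x := fun a => by
  simp only [mul_left_comm _ c]; exact Integrable.const_mul (hf a) c

theorem Intg.neg (hf : A.Intg χ G f) : A.Intg χ G fun a x => -f a x := fun a => by
  simp only [mul_neg]; exact (hf a).neg

theorem intg_zero : A.Intg χ G fun _ _ => 0 := fun a => by simp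

theorem Intg.sum {ι : Type*} (s : Finset ι) {F : ι → α → E4 → ℝ}
    (hF : ∀ i ∈ s, A.Intg χ G (F i)) : A.Intg χ G fun a x => ∑ i ∈ s, F i a x := fun a => by
  simp only [Finset.mul_sum]
  exact integrable_finsetSum s fun i hi => hF i hi a

theorem Intg.congr (h : A.Ok) (hf : A.Intg χ G f) (e : ∀ a, ∀ x ∈ A.U a, g a x = f a x) :
    A.Intg χ G g := fun a =>
  (hf a).congr_fun (fun x hx => by simp only [e a x hx]) (h.isOpen a).measurableSet

variable [Fintype α]

theorem den_nonneg (hχ : A.PoU χ K) (a : α) (x : E4) : 0 ≤ A.den χ G a x :=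
  mul_nonneg (by positivity) (mul_nonneg (hχ.nonneg _ _) (Real.sqrt_nonneg _))

theorem sm_den (hG : A.IsMet G) (hχ : A.PoU χ K) (a : α) :
    ContDiffOn ℝ ∞ (A.den χ G a) (A.U a) :=
  contDiffOn_const.mul ((hχ.sm a a).mul (sm_sqrt_det (hG.riem a)))

theorem Intg.mono (h : A.Ok) (hG : A.IsMet G) (hχ : A.PoU χ K) (hg : A.Intg χ G g)
    (hf : A.Ms f) (e : ∀ a, ∀ x ∈ A.U a, |f a x| ≤ g a x) : A.Intg χ G f := fun a => by
  refine Integrable.mono' (hg a) (((sm_den hG hχ a).continuousOn.aestronglyMeasurable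
    (h.isOpen a).measurableSet).mul (hf a)) ?_
  filter_upwards [ae_restrict_mem (h.isOpen a).measurableSet] with x hx
  rw [Real.norm_eq_abs, abs_mul, abs_of_nonneg (den_nonneg hχ a x)]
  exact mul_le_mul_of_nonneg_left (e a x hx) (den_nonneg hχ a x)

/-- continuous families with compact support are integrable -/
theorem intg_of_cs (h : A.Ok) (hG : A.IsMet G) (hχ : A.PoU χ K) (hS : A.CS S) (hf : A.Ct f)
    (hv : A.Van f S) : A.Intg χ G f := fun a => by
  obtain ⟨D, d1, d2, d3⟩ := hS.exists_cpt h (hχ.sub a) (hχ.cl a)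
  refine integrableOn_of_cpt (h.isOpen a) d1 d2 ((sm_den hG hχ a).continuousOn.mul (hf a))
    fun x hx hn => ?_
  by_contra k
  exact hn (d3 x hx (hχ.supp a a x hx fun e => k (by simp [den, e]))
    (hv a x hx fun e => k (by simp [e])))

theorem int_add (hf : A.Intg χ G f) (hg : A.Intg χ G g) :
    A.int χ G (fun a x => f a x + g a x) = A.int χ G f + A.int χ G g := by
  simp only [int, mul_add, fun a => integral_add (hf a) (hg a), Finset.sum_add_distrib]

theorem int_sub (hf : A.Intg χ G f) (hg : A.Intg χ G g) :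
    A.int χ G (fun a x => f a x - g a x) = A.int χ G f - A.int χ G g := by
  simp only [int, mul_sub, fun a => integral_sub (hf a) (hg a), Finset.sum_sub_distrib]

theorem int_const_mul (c : ℝ) (f : α → E4 → ℝ) :
    A.int χ G (fun a x => c * f a x) = c * A.int χ G f := by
  simp only [int, mul_left_comm _ c, integral_const_mul, Finset.mul_sum]

theorem int_neg (f : α → E4 → ℝ) : A.int χ G (fun a x => -f a x) = -A.int χ G f := by
  simp only [int, mul_neg, integral_neg, Finset.sum_neg_distrib]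

theorem int_zero : A.int χ G (fun _ _ => 0) = 0 := by simp [int]

theorem int_sum {ι : Type*} (s : Finset ι) {F : ι → α → E4 → ℝ}
    (hF : ∀ i ∈ s, A.Intg χ G (F i)) :
    A.int χ G (fun a x => ∑ i ∈ s, F i a x) = ∑ i ∈ s, A.int χ G (F i) := by
  simp only [int, Finset.mul_sum]
  rw [Finset.sum_comm]
  exact Finset.sum_congr rfl fun a _ => integral_finsetSum s fun i hi => hF i hi a

theorem int_congr (h : A.Ok) (e : ∀ a, ∀ x ∈ A.U a, f a x = g a x) :
    A.int χ G f = A.int χ G g := Finset.sum_congr rfl fun a _ =>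
  setIntegral_congr_fun (h.isOpen a).measurableSet fun x hx => by simp only [e a x hx]

theorem int_mono (h : A.Ok) (hχ : A.PoU χ K) (hf : A.Intg χ G f) (hg : A.Intg χ G g)
    (e : ∀ a, ∀ x ∈ A.U a, f a x ≤ g a x) : A.int χ G f ≤ A.int χ G g :=
  Finset.sum_le_sum fun a _ => setIntegral_mono_on (hf a) (hg a) (h.isOpen a).measurableSet
    fun x hx => mul_le_mul_of_nonneg_left (e a x hx) (den_nonneg hχ a x)

theorem int_nonneg (h : A.Ok) (hχ : A.PoU χ K) (e : ∀ a, ∀ x ∈ A.U a, 0 ≤ f a x) :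
    0 ≤ A.int χ G f := Finset.sum_nonneg fun a _ =>
  setIntegral_nonneg (h.isOpen a).measurableSet fun x hx =>
    mul_nonneg (den_nonneg hχ a x) (e a x hx)

theorem abs_int_le (hχ : A.PoU χ K) (f : α → E4 → ℝ) :
    |A.int χ G f| ≤ A.int χ G fun a x => |f a x| :=
  (Finset.abs_sum_le_sum_abs _ _).trans (Finset.sum_le_sum fun a _ => by
    simpa only [abs_mul, abs_of_nonneg (den_nonneg hχ a _)] using
      abs_integral_le_integral_abs (μ := volume.restrict (A.U a))
        (f := fun x => A.den χ G a x * f a x))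

theorem lint_mono (h : A.Ok) {φ ψ : α → E4 → ℝ≥0∞} (e : ∀ a, ∀ x ∈ A.U a, φ a x ≤ ψ a x) :
    A.lint χ G φ ≤ A.lint χ G ψ := Finset.sum_le_sum fun a _ =>
  setLIntegral_mono' (h.isOpen a).measurableSet fun x hx => mul_le_mul_right (e a x hx) _

theorem intg_iff (h : A.Ok) (hG : A.IsMet G) (hχ : A.PoU χ K) (hf : A.Ms f) :
    A.Intg χ G f ↔ A.lint χ G (fun a x => ENNReal.ofReal |f a x|) < ⊤ := by
  rw [lint, ENNReal.sum_lt_top]
  refine forall_congr' fun a => ?_
  have hm : AEStronglyMeasurable (fun x => A.den χ G a x * f a x) (volume.restrict (A.U a)) :=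
    ((sm_den hG hχ a).continuousOn.aestronglyMeasurable (h.isOpen a).measurableSet).mul (hf a)
  simp only [IntegrableOn, Integrable, hm, true_and, hasFiniteIntegral_iff_norm, Real.norm_eq_abs,
    abs_mul, abs_of_nonneg (den_nonneg hχ a _), ENNReal.ofReal_mul (den_nonneg hχ a _),
    Finset.mem_univ, forall_const]

theorem int_eq_lint (hχ : A.PoU χ K) (hf : A.Intg χ G f) : A.int χ G f =
    (A.lint χ G fun a x => ENNReal.ofReal (f a x)).toReal -
      (A.lint χ G fun a x => ENNReal.ofReal (-f a x)).toReal := by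
  simp only [lint, ← ENNReal.ofReal_mul (den_nonneg hχ _ _), mul_neg]
  rw [ENNReal.toReal_sum fun a _ => (hf a).lintegral_lt_top.ne,
    ENNReal.toReal_sum (f := fun a => ∫⁻ x in A.U a, ENNReal.ofReal (-(A.den χ G a x * f a x)))
      fun a _ => (hf a).neg.lintegral_lt_top.ne, ← Finset.sum_sub_distrib]
  exact Finset.sum_congr rfl fun a _ =>
    integral_eq_lintegral_pos_part_sub_lintegral_neg_part (hf a)

theorem ofReal_int (h : A.Ok) (hχ : A.PoU χ K) (hf : A.Intg χ G f)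
    (e : ∀ a, ∀ x ∈ A.U a, 0 ≤ f a x) :
    ENNReal.ofReal (A.int χ G f) = A.lint χ G fun a x => ENNReal.ofReal (f a x) := by
  have h0 : ∀ a, ∀ x ∈ A.U a, 0 ≤ A.den χ G a x * f a x := fun a x hx =>
    mul_nonneg (den_nonneg hχ a x) (e a x hx)
  simp only [lint, int, ← ENNReal.ofReal_mul (den_nonneg hχ _ _)]
  rw [ENNReal.ofReal_sum_of_nonneg fun a _ =>
    setIntegral_nonneg (h.isOpen a).measurableSet (h0 a)]
  exact Finset.sum_congr rfl fun a _ => ofReal_integral_eq_lintegral_ofReal (hf a)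
    ((ae_restrict_mem (h.isOpen a).measurableSet).mono (h0 a))

/-- transfer of a formula for `lint` to `int` -/
theorem transfer (h : A.Ok) (hG : A.IsMet G) (hχ : A.PoU χ K) (hf : A.Ms f) {B : Set E4}
    (hBU : B ⊆ A.U a) {c : ℝ} (hc : 0 < c)
    (e : ∀ φ : ℝ → ℝ≥0∞, Measurable φ → φ 0 = 0 → A.lint χ G (fun a x => φ (f a x)) =
      ENNReal.ofReal c * ∫⁻ x in B, rho G a x * φ (f a x)) :
    (A.Intg χ G f ↔ IntegrableOn (fun x => √(G a x).det * f a x) B) ∧
      (A.Intg χ G f → A.int χ G f = c * ∫ x in B, √(G a x).det * f a x) := by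
  have hm : AEStronglyMeasurable (fun x => √(G a x).det * f a x) (volume.restrict B) :=
    (((sm_sqrt_det (hG.riem a)).continuousOn.aestronglyMeasurable
      (h.isOpen a).measurableSet).mul (hf a)).mono_set hBU
  have h1 : A.Intg χ G f ↔ IntegrableOn (fun x => √(G a x).det * f a x) B := by
    rw [intg_iff h hG hχ hf, e (fun t => ENNReal.ofReal |t|) (by fun_prop) (by simp)]
    simp only [IntegrableOn, Integrable, hm, true_and, hasFiniteIntegral_iff_norm, Real.norm_eq_abs,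
      abs_mul, abs_of_nonneg (Real.sqrt_nonneg _), ENNReal.ofReal_mul (Real.sqrt_nonneg _), rho]
    exact ⟨fun k => ENNReal.lt_top_of_mul_ne_top_right k.ne (by simpa using hc),
      fun k => ENNReal.mul_lt_top ENNReal.ofReal_lt_top k⟩
  refine ⟨h1, fun hi => ?_⟩
  rw [int_eq_lint hχ hi, e ENNReal.ofReal (by fun_prop) (by simp),
    e (fun t => ENNReal.ofReal (-t)) (by fun_prop) (by simp),
    integral_eq_lintegral_pos_part_sub_lintegral_neg_part (h1.1 hi)]
  simp only [rho, ← ENNReal.ofReal_mul (Real.sqrt_nonneg _), mul_neg, ENNReal.toReal_mul,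
    ENNReal.toReal_ofReal hc.le, mul_sub]

/-- **one-chart formula** -/
theorem int_chart (h : A.Ok) (hG : A.IsMet G) (hχ : A.PoU χ K) (hc : A.CompF f) (hf : A.Ms f)
    (hv : A.Van f (A.c a '' A.U a)) :
    (A.Intg χ G f ↔ IntegrableOn (fun x => √(G a x).det * f a x) (A.U a)) ∧
      (A.Intg χ G f →
        A.int χ G f = (Nat.card (A.Γ a) : ℝ)⁻¹ * ∫ x in A.U a, √(G a x).det * f a x) :=
  transfer h hG hχ hf Subset.rfl (inv_pos.2 (card_pos h a)) fun φ hφ h0 => by
    rw [lint_chart h hG hχ (hc.map φ) a (hφ.comp_aemeasurable (hf a).aemeasurable)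
      (hv.of_imp fun b y _ k => by rw [k, h0]), ENNReal.ofReal_inv_of_pos (card_pos h a),
      ENNReal.ofReal_natCast]

/-- the same for a support in an open set on which the chart is injective -/
theorem int_inj (h : A.Ok) (hG : A.IsMet G) (hχ : A.PoU χ K) (hc : A.CompF f) (hf : A.Ms f)
    {B : Set E4} (hB : IsOpen B) (hBU : B ⊆ A.U a) (hi : InjOn (A.c a) B)
    (hv : A.Van f (A.c a '' B)) :
    (A.Intg χ G f ↔ IntegrableOn (fun x => √(G a x).det * f a x) B) ∧
      (A.Intg χ G f → A.int χ G f = ∫ x in B, √(G a x).det * f a x) := by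
  simpa using transfer h hG hχ hf hBU one_pos fun φ hφ h0 => by
    rw [lint_inj h hG hχ (hc.map φ) hB hBU hi (hφ.comp_aemeasurable (hf a).aemeasurable)
      (hv.of_imp fun b y _ k => by rw [k, h0])]
    simp

/-- a chart sees at most `|Γ a|` times the integral -/
theorem int_chart_le (h : A.Ok) (hG : A.IsMet G) (hχ : A.PoU χ K) (hc : A.CompF f) (hf : A.Ms f)
    (h0 : ∀ a, ∀ x ∈ A.U a, 0 ≤ f a x) (hi : A.Intg χ G f) {B : Set E4} (hB : MeasurableSet B)
    (hBU : B ⊆ A.U a) {c : ℝ≥0∞} (hc0 : c ≠ ⊤)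
    (e : ∫⁻ x in B, rho G a x * ENNReal.ofReal (f a x) ≤
      c * A.lint χ G fun a x => ENNReal.ofReal (f a x)) :
    IntegrableOn (fun x => √(G a x).det * f a x) B ∧
      ∫ x in B, √(G a x).det * f a x ≤ c.toReal * A.int χ G f := by
  have hm : AEStronglyMeasurable (fun x => √(G a x).det * f a x) (volume.restrict B) :=
    (((sm_sqrt_det (hG.riem a)).continuousOn.aestronglyMeasurable
      (h.isOpen a).measurableSet).mul (hf a)).mono_set hBU
  have hn : 0 ≤ᵐ[volume.restrict B] fun x => √(G a x).det * f a x :=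
    (ae_restrict_mem hB).mono fun x hx => mul_nonneg (Real.sqrt_nonneg _) (h0 a x (hBU hx))
  rw [← ofReal_int h hχ hi h0] at e
  simp only [rho, ← ENNReal.ofReal_mul (Real.sqrt_nonneg _)] at e
  have ht := ENNReal.mul_ne_top hc0 (ENNReal.ofReal_ne_top (r := A.int χ G f))
  have _ := hc
  refine ⟨⟨hm, (hasFiniteIntegral_iff_ofReal hn).2 (e.trans_lt ht.lt_top)⟩, ?_⟩
  rw [integral_eq_lintegral_of_nonneg_ae hn hm]
  refine (ENNReal.toReal_mono ht e).trans_eq ?_
  rw [ENNReal.toReal_mul, ENNReal.toReal_ofReal (int_nonneg h hχ h0)]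

theorem int_inj_le (h : A.Ok) (hG : A.IsMet G) (hχ : A.PoU χ K) (hc : A.CompF f) (hf : A.Ms f)
    (h0 : ∀ a, ∀ x ∈ A.U a, 0 ≤ f a x) (hi : A.Intg χ G f) {B : Set E4} (hB : IsOpen B)
    (hBU : B ⊆ A.U a) (hj : InjOn (A.c a) B) :
    IntegrableOn (fun x => √(G a x).det * f a x) B ∧
      ∫ x in B, √(G a x).det * f a x ≤ A.int χ G f := by
  simpa using int_chart_le h hG hχ hc hf h0 hi hB.measurableSet hBU ENNReal.one_ne_top (by
    rw [one_mul]
    exact inj_le h hG hχ (hc.map ENNReal.ofReal) hB hBU hj (hf a).aemeasurable.ennreal_ofReal)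

theorem int_U_le (h : A.Ok) (hG : A.IsMet G) (hχ : A.PoU χ K) (hc : A.CompF f) (hf : A.Ms f)
    (h0 : ∀ a, ∀ x ∈ A.U a, 0 ≤ f a x) (hi : A.Intg χ G f) (a : α) :
    IntegrableOn (fun x => √(G a x).det * f a x) (A.U a) ∧
      ∫ x in A.U a, √(G a x).det * f a x ≤ Nat.card (A.Γ a) * A.int χ G f := by
  simpa using int_chart_le h hG hχ hc hf h0 hi (h.isOpen a).measurableSet Subset.rfl
    (ENNReal.natCast_ne_top (Nat.card (A.Γ a))) (by
    have := chart_le h hG hχ (hc.map ENNReal.ofReal) a (hf a).aemeasurable.ennreal_ofReal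
    exact (ENNReal.inv_mul_le_iff (card_ne h a) (ENNReal.natCast_ne_top _)).1 this)

omit [Fintype α] in
/-- small balls on which the chart is injective -/
theorem Ok.exists_ball (h : A.Ok) {x : E4} (hx : x ∈ A.U a) :
    ∃ r > 0, Metric.closedBall x r ⊆ A.U a ∧ InjOn (A.c a) (Metric.closedBall x r) := by
  have h1 := h.locInj hx
  rw [nhds_prod_eq] at h1
  obtain ⟨t, ht, h2⟩ := (eventually_prod_self_iff (r := fun z w => A.c a z = A.c a w → z = w)).1 h1
  obtain ⟨r, hr, h3⟩ := Metric.nhds_basis_closedBall.mem_iff.1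
    (inter_mem ht ((h.isOpen a).mem_nhds hx))
  exact ⟨r, hr, fun z hz => (h3 hz).2, fun z hz w hw e => h2 z (h3 hz).1 w (h3 hw).1 e⟩

end Crest.Agent.N207.I.Atl

end
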