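import Crest.Agent.N207.I.Jet2

/-!
# Row 207, block I (helper24): gluing, part 1 (transitions at two indices are close)
-/

set_option autoImplicit false
open Set Filter Topology Function Metric
open scoped ContDiff

noncomputable section

namespace Crest.Agent.N207.Jt

variable {ι κ E : Type} {M : Type*} [NormedAddCommGroup E] [NormedSpace ℝ E]

/-- local transitions from the chart `c'` to the chart `c` exist and have bounded jets -/
def Loc (l : Filter ι) (c c' : ι → E → M) (D D' : Set E) : Prop :=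
  ∃ τ : ι → E → E → E → E,
    (∀ᶠ i in l, ∀ x ∈ D, ∀ y ∈ D', c i x = c' i y →
      τ i x y y = x ∧ ContDiffAt ℝ ∞ (τ i x y) y ∧ ∀ᶠ w in 𝓝 y, c i (τ i x y w) = c' i w) ∧
    ∀ k : ℕ, ∃ C : ℝ, ∀ᶠ i in l, ∀ x ∈ D, ∀ y ∈ D', c i x = c' i y →
      ‖iteratedFDeriv ℝ k (τ i x y) y‖ ≤ C

theorem Loc.at {l : Filter ι} {c c' : ι → E → M} {D D' : Set E} (h : Loc l c c' D D')
    {m : Filter κ} {e : κ → ι} {x y : κ → E} (he : Tendsto e m l)
    (hm : ∀ᶠ j in m, x j ∈ D ∧ y j ∈ D' ∧ c (e j) (x j) = c' (e j) (y j)) :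
    ∃ τ : κ → E → E, GB m τ y ∧ ∀ᶠ j in m, τ j (y j) = x j ∧
      ∀ᶠ w in 𝓝 (y j), c (e j) (τ j w) = c' (e j) w := by
  obtain ⟨τ, h1, h2⟩ := h
  refine ⟨fun j => τ (e j) (x j) (y j), ⟨?_, fun k => ?_⟩, ?_⟩
  · filter_upwards [he.eventually h1, hm] with j a b using (a _ b.1 _ b.2.1 b.2.2).2.1
  · obtain ⟨C, hC⟩ := h2 k
    exact ⟨C, by filter_upwards [he.eventually hC, hm] with j a b using a _ b.1 _ b.2.1 b.2.2⟩
  · filter_upwards [he.eventually h1, hm] with j a b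
    exact ⟨(a _ b.1 _ b.2.1 b.2.2).1, (a _ b.1 _ b.2.1 b.2.2).2.2⟩

/-- smooth cutoff: `1` on `(-∞, s]`, `0` on `[t, ∞)` -/
def cut (s t : ℝ) (u : ℝ) : ℝ := Real.smoothTransition ((t - u) / (t - s))

theorem cut_smooth (s t : ℝ) : ContDiff ℝ ∞ (cut s t) :=
  Real.smoothTransition.contDiff.comp (by fun_prop)

theorem cut_one {s t u : ℝ} (h : s < t) (hu : u ≤ s) : cut s t u = 1 :=
  Real.smoothTransition.one_of_one_le ((one_le_div (by linarith)).2 (by linarith))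

theorem cut_zero {s t u : ℝ} (h : s < t) (hu : t ≤ u) : cut s t u = 0 :=
  Real.smoothTransition.zero_of_nonpos (div_nonpos_of_nonpos_of_nonneg (by linarith) (by linarith))

/-- sublevel sets -/
def lv (ρ : E → ℝ) (r : ℝ) : Set E := {x | ρ x < r}

/-- closed sublevel sets -/
def lc (ρ : E → ℝ) (r : ℝ) : Set E := {x | ρ x ≤ r}

/-- a chart domain: smooth depth function with compact sublevel set -/
structure Dp (ρ : E → ℝ) : Prop where
  sm : ContDiff ℝ ∞ ρ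
  cpt : IsCompact (lc ρ 4)

namespace Dp

variable {ρ : E → ℝ} (h : Dp ρ)
include h

theorem op (r : ℝ) : IsOpen (lv ρ r) := isOpen_lt h.sm.continuous continuous_const

theorem cp {r : ℝ} (hr : r ≤ 4) : IsCompact (lc ρ r) :=
  h.cpt.of_isClosed_subset (isClosed_le h.sm.continuous continuous_const)
    fun _ hx => le_trans hx hr

theorem bd {m : Filter κ} {x : κ → E} (hx : ∀ᶠ j in m, ρ (x j) ≤ 4) :
    ∃ C : ℝ, ∀ᶠ j in m, ‖x j‖ ≤ C := by
  obtain ⟨C, hC⟩ := h.cpt.isBounded.exists_norm_le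
  exact ⟨C, hx.mono fun j hj => hC _ hj⟩

theorem seg {m : Filter κ} {x y : κ → E} {r s : ℝ} (hr : r ≤ 4) (hs : r < s)
    (hx : ∀ᶠ j in m, ρ (x j) ≤ r) (hy : Tendsto (fun j => y j - x j) m (𝓝 0)) :
    ∀ᶠ j in m, segment ℝ (y j) (x j) ⊆ lv ρ s := by
  obtain ⟨δ, hδ, hh⟩ := (h.cp hr).exists_thickening_subset_open (h.op s)
    fun _ hz => lt_of_le_of_lt hz hs
  filter_upwards [hx, Metric.tendsto_nhds.1 hy δ hδ] with j h1 h2
  rw [dist_zero_right, ← dist_eq_norm] at h2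
  refine Subset.trans ((convex_ball (x j) δ).segment_subset h2 (mem_ball_self hδ)) ?_
  exact fun z hz => hh (mem_thickening_iff.2 ⟨x j, h1, hz⟩)

theorem near {m : Filter κ} {x y : κ → E} {r s : ℝ} (hr : r ≤ 4) (hs : r < s)
    (hx : ∀ᶠ j in m, ρ (x j) ≤ r) (hy : Tendsto (fun j => y j - x j) m (𝓝 0)) :
    ∀ᶠ j in m, ρ (y j) < s :=
  (h.seg hr hs hx hy).mono fun _ hj => hj (left_mem_segment _ _ _)

end Dp

theorem ev_lv {ρ : E → ℝ} (h : Dp ρ) {τ : E → E} {y : E} {r : ℝ} (hτ : ContDiffAt ℝ ∞ τ y)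
    (hr : ρ (τ y) < r) : ∀ᶠ w in 𝓝 y, ρ (τ w) < r :=
  hτ.continuousAt.eventually ((h.op r).mem_nhds hr)

variable [TopologicalSpace M] [T2Space M]

theorem ev_notMem {ρ ρ' : E → ℝ} (h : Dp ρ) (h' : Dp ρ') {c c' : E → M}
    (hc : ContinuousOn c (lv ρ 4)) (hc' : ContinuousOn c' (lv ρ' 4)) {r : ℝ} (hr : r < 4) {y : E}
    (hy : ρ' y < 4) (hn : c' y ∉ c '' lc ρ r) : ∀ᶠ w in 𝓝 y, c' w ∉ c '' lc ρ r := by
  have : IsClosed (c '' lc ρ r) :=
    ((h.cp hr.le).image_of_continuousOn (hc.mono fun _ hz => lt_of_le_of_lt hz hr)).isClosed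
  exact (hc'.continuousAt ((h'.op 4).mem_nhds hy)).eventually (this.isOpen_compl.mem_nhds hn)

open Classical in
/-- a function of the chart coordinate, cut off and extended by zero -/
def ext {V : Type} [AddCommGroup V] [Module ℝ V] (ρ : E → ℝ) (c : E → M) (s t : ℝ) (Φ : E → V)
    (q : M) : V :=
  if q ∈ c '' lv ρ 4 then cut s t (ρ (invFunOn c (lv ρ 4) q)) • Φ (invFunOn c (lv ρ 4) q) else 0

omit [NormedSpace ℝ E] [TopologicalSpace M] [T2Space M] in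
theorem ext_zero {V : Type} [AddCommGroup V] [Module ℝ V] {ρ : E → ℝ} {c : E → M} {s t : ℝ}
    (hst : s < t) (Φ : E → V) {q : M} (hq : q ∉ c '' lc ρ t) : ext ρ c s t Φ q = 0 := by
  unfold ext
  split_ifs with h
  · obtain ⟨x, hx, rfl⟩ := h
    have h1 := invFunOn_pos (f := c) ⟨x, hx, rfl⟩
    rw [cut_zero hst (le_of_not_ge fun h2 => hq ⟨_, h2, h1.2⟩), zero_smul]
  · rfl

omit [NormedSpace ℝ E] [TopologicalSpace M] [T2Space M] in
theorem ext_chart {V : Type} [AddCommGroup V] [Module ℝ V] {ρ : E → ℝ} {c : E → M} (s t : ℝ)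
    {Φ : E → V} (hd : ∀ z ∈ lv ρ 4, ∀ z' ∈ lv ρ 4, c z = c z' → ρ z = ρ z' ∧ Φ z = Φ z') {x : E}
    (hx : ρ x < 4) : ext ρ c s t Φ (c x) = cut s t (ρ x) • Φ x := by
  have h1 := invFunOn_pos (f := c) (s := lv ρ 4) ⟨x, hx, rfl⟩
  obtain ⟨e1, e2⟩ := hd _ h1.1 _ hx h1.2
  rw [ext, if_pos ⟨x, hx, rfl⟩, e1, e2]

variable [FiniteDimensional ℝ E]

/-- the cut-off extension has bounded jets in every other chart -/
theorem ub_ext {V : Type} [NormedAddCommGroup V] [NormedSpace ℝ V] [FiniteDimensional ℝ V]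
    {l : Filter ι} {c c' : ι → E → M} {ρ ρ' : E → ℝ} (h : Dp ρ) (h' : Dp ρ')
    (hc : ∀ᶠ i in l, ContinuousOn (c i) (lv ρ 4)) (hc' : ∀ᶠ i in l, ContinuousOn (c' i) (lv ρ' 4))
    (hl : Loc l c c' (lv ρ 4) (lv ρ' 4)) {s t : ℝ} (hst : s < t) (ht : t < 4) {Φ : E → V}
    (hΦ : ContDiff ℝ ∞ Φ)
    (hd : ∀ᶠ i in l, ∀ z ∈ lv ρ 4, ∀ z' ∈ lv ρ 4, c i z = c i z' → ρ z = ρ z' ∧ Φ z = Φ z') :
    UB l (fun i w => ext ρ (c i) s t Φ (c' i w)) fun _ => lv ρ' 4 := by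
  have : ∀ q : ι × E, ∃ x, c' q.1 q.2 ∈ c q.1 '' lc ρ t → x ∈ lc ρ t ∧ c q.1 x = c' q.1 q.2 :=
    fun q => by
      by_cases hq : c' q.1 q.2 ∈ c q.1 '' lc ρ t
      · obtain ⟨x, h1, h2⟩ := hq
        exact ⟨x, fun _ => ⟨h1, h2⟩⟩
      · exact ⟨0, fun h => absurd h hq⟩
  choose x hx using this
  refine GB.cases (fun q => c' q.1 q.2 ∈ c q.1 '' lc ρ t) ?_ ?_
  · set m := un l (fun _ => lv ρ' 4) ⊓ 𝓟 {q | c' q.1 q.2 ∈ c q.1 '' lc ρ t} with hm
    have he : Tendsto Prod.fst m l := (un_fst _ _).mono_left inf_le_left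
    have hP : ∀ᶠ q in m, x q ∈ lv ρ 4 ∧ q.2 ∈ lv ρ' 4 ∧ c q.1 (x q) = c' q.1 q.2 := by
      refine eventually_inf_principal.2 ((un_mem _ _).mono fun q h1 h2 => ?_)
      exact ⟨lt_of_le_of_lt (hx q h2).1 ht, h1, (hx q h2).2⟩
    obtain ⟨τ, hτ, hτ'⟩ := hl.at he hP
    have := hτ.smooth (Φ := fun z => cut s t (ρ z) • Φ z)
      (((cut_smooth s t).comp h.sm).smul hΦ)
    refine this.congr ?_
    filter_upwards [hτ.sm, hτ', hP, he.eventually hd] with q h1 h2 h3 h4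
    refine ⟨rfl, ?_⟩
    filter_upwards [h2.2, ev_lv h h1 (r := 4) (by rw [h2.1]; exact h3.1)] with w a b
    rw [← a, ext_chart s t h4 b]
  · refine (GB.const' (x := Prod.snd) (0 : V)).congr ?_
    refine eventually_inf_principal.2 ?_
    filter_upwards [un_mem l (fun _ => lv ρ' 4), (un_fst l _).eventually hc,
      (un_fst l _).eventually hc'] with q h1 h2 h3 h4
    refine ⟨rfl, ?_⟩
    filter_upwards [ev_notMem h h' h2 h3 ht h1 h4] with w hw using ext_zero hst Φ hw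

/-- **transitions at the indices `i0`, `i` are close** -/
theorem tr_close {𝒰 : Ultrafilter ι} {c c' : ι → E → M} {ρ ρ' : E → ℝ} (h : Dp ρ) (h' : Dp ρ')
    (hc : ∀ᶠ i in (𝒰 : Filter ι), ContinuousOn (c i) (lv ρ 4))
    (hc' : ∀ᶠ i in (𝒰 : Filter ι), ContinuousOn (c' i) (lv ρ' 4))
    (hi : ∀ᶠ i in (𝒰 : Filter ι), InjOn (c i) (lv ρ 4))
    (hl : Loc (𝒰 : Filter ι) c c' (lv ρ 4) (lv ρ' 4)) {m : Filter κ} {e : κ → ι × ι}
    (he : Tendsto e m ((𝒰 : Filter ι) ×ˢ (𝒰 : Filter ι))) {x y y' : κ → E}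
    (hm : ∀ᶠ j in m, ρ (x j) ≤ 7 / 2 ∧ ρ' (y j) ≤ 7 / 2 ∧ c (e j).1 (x j) = c' (e j).1 (y j))
    (hy : Tendsto (fun j => y' j - y j) m (𝓝 0)) :
    (∀ᶠ j in m, ∀ᶠ w in 𝓝 (y' j), c' (e j).2 w ∈ c (e j).2 '' lv ρ 4) ∧
      GE m (fun j w => invFunOn (c (e j).2) (lv ρ 4) (c' (e j).2 w)) y'
        (fun j w => invFunOn (c (e j).1) (lv ρ 4) (c' (e j).1 w)) y := by
  have he1 : Tendsto (fun j => (e j).1) m 𝒰 := tendsto_fst.comp he
  have he2 : Tendsto (fun j => (e j).2) m 𝒰 := tendsto_snd.comp he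
  have hd : ∀ᶠ i in (𝒰 : Filter ι), ∀ z ∈ lv ρ 4, ∀ z' ∈ lv ρ 4, c i z = c i z' →
      ρ z = ρ z' ∧ ((1 : ℝ), z) = (1, z') := hi.mono fun i hj z hz z' hz' e => by
    rw [hj hz hz' e]; exact ⟨rfl, rfl⟩
  have hT := ub_ext h h' hc hc' hl (s := 18 / 5) (t := 19 / 5) (by norm_num) (by norm_num)
    (Φ := fun z => ((1 : ℝ), z)) (by fun_prop) hd
  set T : ι → E → ℝ × E := fun i w => ext ρ (c i) (18 / 5) (19 / 5) (fun z => ((1 : ℝ), z)) (c' i w)
    with hTd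
  have g1 : GE m (fun j => T (e j).2) y' (fun j => T (e j).2) y :=
    (hT.comap he2 (S' := fun _ => lv ρ' 4) (Eventually.of_forall fun _ => subset_rfl)).move
      (h'.seg (r := 7 / 2) (by norm_num) (by norm_num) (hm.mono fun _ hj => hj.2.1) hy) hy
  have g2 : GE m (fun j => T (e j).1) y (fun j => T (e j).2) y :=
    (hT.cauchy (h'.op 4) (h'.cp (r := 7 / 2) (by norm_num))
      fun z hz => lt_of_le_of_lt hz (show (7 / 2 : ℝ) < 4 by norm_num)).at he (hm.mono fun _ hj => hj.2.1)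
  have g3 := g1.trans g2.symm
  -- local form of `T` near a point whose image lies deep in the chart
  have loc : ∀ {e' : κ → ι} {u w : κ → E}, Tendsto e' m 𝒰 →
      (∀ᶠ j in m, ρ (u j) < 18 / 5 ∧ ρ' (w j) < 4 ∧ c (e' j) (u j) = c' (e' j) (w j)) →
      ∀ᶠ j in m, ∀ᶠ z in 𝓝 (w j), c' (e' j) z ∈ c (e' j) '' lv ρ 4 ∧
        invFunOn (c (e' j)) (lv ρ 4) (c' (e' j) z) = (T (e' j) z).2 := fun {e' u w} h1 h2 => by
    obtain ⟨τ, hτ, hτ'⟩ := hl.at h1 (x := u) (y := w)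
      (h2.mono fun j hj => ⟨lt_trans hj.1 (by norm_num), hj.2⟩)
    filter_upwards [hτ.sm, hτ', h2, h1.eventually hd, h1.eventually hi] with j a b d f g
    filter_upwards [b.2, ev_lv h a (r := 18 / 5) (by rw [b.1]; exact d.1)] with z hz hz'
    have hz4 : τ j z ∈ lv ρ 4 := lt_trans hz' (by norm_num)
    refine ⟨⟨_, hz4, hz⟩, ?_⟩
    simp only [hTd]
    rw [← hz, ext_chart _ _ f hz4, cut_one (by norm_num) hz'.le, one_smul]
    exact g.leftInvOn_invFunOn hz4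
  have v1 : ∀ᶠ j in m, T (e j).1 (y j) = (1, x j) := by
    filter_upwards [hm, he1.eventually hd] with j a b
    simp only [hTd]
    rw [← a.2.2, ext_chart _ _ b (lt_of_le_of_lt a.1 (by norm_num)),
      cut_one (by norm_num) (a.1.trans (by norm_num)), one_smul]
  have v2 : Tendsto (fun j => T (e j).2 (y' j) - (1, x j)) m (𝓝 0) :=
    g3.val.congr' (v1.mono fun j hj => by simp only [hj])
  set u : κ → E := fun j => invFunOn (c (e j).2) (lv ρ 4) (c' (e j).2 (y' j)) with hu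
  have v3 : ∀ᶠ j in m, c' (e j).2 (y' j) ∈ c (e j).2 '' lv ρ 4 := by
    filter_upwards [Metric.tendsto_nhds.1 (continuous_fst.continuousAt.tendsto.comp v2) 1 one_pos]
      with j hj
    by_contra hn
    simp [hTd, ext, if_neg hn] at hj
  have v4 : ∀ᶠ j in m, T (e j).2 (y' j) = cut (18 / 5) (19 / 5) (ρ (u j)) • ((1 : ℝ), u j) :=
    v3.mono fun j hj => by simp only [hTd, ext, if_pos hj, hu]
  have v5 : ∀ᶠ j in m, u j ∈ lv ρ 4 ∧ c (e j).2 (u j) = c' (e j).2 (y' j) :=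
    v3.mono fun j hj => invFunOn_pos hj
  have v6 : Tendsto (fun j => u j - x j) m (𝓝 0) := by
    have a1 : Tendsto (fun j => cut (18 / 5) (19 / 5) (ρ (u j)) - 1) m (𝓝 0) :=
      (continuous_fst.continuousAt.tendsto.comp v2).congr' (v4.mono fun j hj => by simp [hj])
    have a2 : Tendsto (fun j => cut (18 / 5) (19 / 5) (ρ (u j)) • u j - x j) m (𝓝 0) :=
      (continuous_snd.continuousAt.tendsto.comp v2).congr' (v4.mono fun j hj => by simp [hj])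
    obtain ⟨C, hC⟩ := h.bd (x := u) (v5.mono fun j hj => le_of_lt hj.1)
    have a3 := a1.zero_smul_isBoundedUnder_le (g := u) ⟨C, hC⟩
    have := a2.sub a3
    rw [sub_zero] at this
    exact this.congr fun j => by simp [sub_smul]
  have v7 := h.near (r := 7 / 2) (s := 18 / 5) (by norm_num) (by norm_num)
    (hm.mono fun _ hj => hj.1) v6
  have v8 := h'.near (r := 7 / 2) (s := 4) (by norm_num) (by norm_num)
    (hm.mono fun _ hj => hj.2.1) hy
  have l2 := loc (u := u) (w := y') he2 (by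
    filter_upwards [v7, v8, v5] with j a b d using ⟨a, b, d.2⟩)
  have l1 := loc (u := x) (w := y) he1 (hm.mono fun j hj =>
    ⟨lt_of_le_of_lt hj.1 (by norm_num), lt_of_le_of_lt hj.2.1 (by norm_num), hj.2.2⟩)
  refine ⟨l2.mono fun j hj => hj.mono fun z hz => hz.1, ?_⟩
  exact ((g3.clm (ContinuousLinearMap.snd ℝ ℝ E)).congr_left
    (l2.mono fun j hj => ⟨rfl, hj.mono fun z hz => hz.2⟩)).congr_right
    (l1.mono fun j hj => ⟨rfl, hj.mono fun z hz => hz.2⟩)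

end Crest.Agent.N207.Jt

end
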