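import Crest.Agent.N207.I.Met
import Crest.Agent.N207.I.Glue1
import Crest.Agent.N207.G.Tr

/-!
# Row 207, block I (helper24): local isometries of uniformly controlled metrics have bounded jets
-/

set_option autoImplicit false
open Set Filter Topology Function Metric
open scoped ContDiff Manifold
open Crest.GeometryTopology.CoordMetric
open Crest.Agent.R202.Tens

noncomputable section

namespace Crest.Agent.N207.Jt

variable {ι κ : Type} {l : Filter ι} {n : ℕ}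

/-- the right hand side of the equation for the `1`-jet of a local isometry -/
def isoR (p : (En n →L[ℝ] En n →L[ℝ] En n) × (En n →L[ℝ] En n →L[ℝ] En n) × (En n →L[ℝ] En n)) :
    En n →L[ℝ] En n × (En n →L[ℝ] En n) :=
  (ContinuousLinearMap.inl ℝ _ _).comp p.2.2 + (ContinuousLinearMap.inr ℝ _ _).comp
    ((ContinuousLinearMap.compL ℝ (En n) (En n) (En n) p.2.2).comp p.1 -
      ((ContinuousLinearMap.compL ℝ (En n) (En n) (En n)).flip p.2.2).comp (p.2.1.comp p.2.2))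

theorem isoR_smooth : ContDiff ℝ ∞ (isoR (n := n)) := by
  unfold isoR
  have h : ContDiff ℝ ∞ fun p : (En n →L[ℝ] En n →L[ℝ] En n) × (En n →L[ℝ] En n →L[ℝ] En n) ×
    (En n →L[ℝ] En n) => p.2.2 := by fun_prop
  refine (contDiff_const.clm_comp h).add (contDiff_const.clm_comp (ContDiff.sub ?_ ?_))
  · exact ((ContinuousLinearMap.contDiff _).comp h).clm_comp contDiff_fst
  · exact ((ContinuousLinearMap.contDiff _).comp h).clm_comp (contDiff_snd.fst.clm_comp h)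

/-- the differential of a local isometry is bounded above and below -/
theorem iso_bd {g g' : ι → MetricField n} {τ : ι → En n → En n} {y : ι → En n}
    (hP : ∀ᶠ j in l, ∀ X, bil (g' j (y j)) X X =
      bil (g j (τ j (y j))) (fderiv ℝ (τ j) (y j) X) (fderiv ℝ (τ j) (y j) X))
    (hg' : MB l g' y) (hg : MB l g fun j => τ j (y j)) :
    (∃ C, ∀ᶠ j in l, ‖fderiv ℝ (τ j) (y j)‖ ≤ C) ∧
      ∃ c > 0, ∀ᶠ j in l, ∀ X, c * ‖X‖ ≤ ‖fderiv ℝ (τ j) (y j) X‖ := by
  have key : ∀ {c C a b : ℝ}, 0 < c → 0 < C → 0 ≤ a → 0 ≤ b → c * a ^ 2 ≤ C * (b * b) →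
      a ≤ √(C / c) * b := fun {c C a b} hc hC ha hb h => by
    rw [← Real.sqrt_sq hb, ← Real.sqrt_mul (by positivity)]
    refine Real.le_sqrt_of_sq_le ?_
    rw [div_mul_eq_mul_div, le_div_iff₀ hc]; nlinarith
  obtain ⟨c, hc, h1⟩ := hg.pos
  obtain ⟨c', hc', h1'⟩ := hg'.pos
  obtain ⟨C, hC, h2⟩ := hg.upper
  obtain ⟨C', hC', h2'⟩ := hg'.upper
  refine ⟨⟨√(C' / c), ?_⟩, (√(C / c'))⁻¹, by positivity, ?_⟩
  · filter_upwards [hP, h1, h2'] with j a b d
    refine ContinuousLinearMap.opNorm_le_bound _ (Real.sqrt_nonneg _) fun X => ?_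
    exact key hc hC' (norm_nonneg _) (norm_nonneg _)
      ((b.2 _).trans ((a X).symm.le.trans ((le_abs_self _).trans (d X X))))
  · filter_upwards [hP, h1', h2] with j a b d X
    rw [inv_mul_le_iff₀ (by positivity)]
    exact key hc' hC (norm_nonneg _) (norm_nonneg _)
      ((b.2 _).trans ((a X).le.trans ((le_abs_self _).trans (d _ _))))

/-- **local isometries have bounded jets** -/
theorem iso_gb {g g' : ι → MetricField n} {τ : ι → En n → En n} {y : ι → En n}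
    (hP : ∀ᶠ j in l, ∃ V W, y j ∈ V ∧ Pull (g' j) (g j) (τ j) V W)
    (hg' : MB l g' y) (hg : MB l g fun j => τ j (y j)) (hy : ∃ C, ∀ᶠ j in l, ‖y j‖ ≤ C)
    (hx : ∃ C, ∀ᶠ j in l, ‖τ j (y j)‖ ≤ C) : GB l τ y := by
  obtain ⟨⟨D, hD⟩, -⟩ := iso_bd (hP.mono fun j ⟨V, W, h1, h2⟩ X => h2.bil_eq h1 X X) hg' hg
  obtain ⟨C, hC⟩ := hx
  obtain ⟨B, hB⟩ := hy
  set f : ι → En n → En n × (En n →L[ℝ] En n) := fun j z => (τ j z, fderiv ℝ (τ j) z) with hf
  have h0 : ∀ᶠ j in l, ‖f j (y j)‖ ≤ max C D := by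
    filter_upwards [hC, hD] with j a b using max_le_max a b
  have hid : GB l (fun _ (p : En n × En n × (En n →L[ℝ] En n)) => p) fun j => (y j, f j (y j)) :=
    GB.id ⟨max B (max C D), by filter_upwards [hB, h0] with j a b using max_le_max a b⟩
  have h1 := hid.smooth (Φ := fun p => p.1) (by fun_prop)
  have h2 := hid.smooth (Φ := fun p => p.2.1) (by fun_prop)
  have h3 := hid.smooth (Φ := fun p => p.2.2) (by fun_prop)
  have g1 := fun h => GB.comp (g := fun j => Gam (g' j)) h h1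
  have g2 := fun h => GB.comp (g := fun j => Gam (g j)) h h2
  have h4 := ((g1 hg'.me.gam.left).prodMk ((g2 hg.me.gam.left).prodMk h3)).smooth isoR_smooth
  have h5 : GB l f y := by
    refine GB.boot ⟨B, hB⟩ ⟨_, h0⟩ ?_ h4 ?_
    · filter_upwards [hP] with j ⟨V, W, a, b⟩
      exact (b.contDiffAt a).prodMk ((b.contDiffAt a).fderiv_right (m := ∞) (by simp))
    · filter_upwards [hP] with j ⟨V, W, a, b⟩
      filter_upwards [b.isOpen.mem_nhds a] with z hz
      have d1 : DifferentiableAt ℝ (τ j) z := (b.contDiffAt hz).differentiableAt (by simp)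
      have d2 : DifferentiableAt ℝ (fderiv ℝ (τ j)) z :=
        ((b.contDiffAt hz).fderiv_right (m := ∞) (by simp)).differentiableAt (by simp)
      rw [hf, d1.fderiv_prodMk d2]
      refine ContinuousLinearMap.ext fun X => Prod.ext (by simp [isoR]) ?_
      refine ContinuousLinearMap.ext fun Y => ?_
      simp [isoR, b.gam_eq hz X Y]
  exact h5.smooth (Φ := fun p => p.1) (by fun_prop)

/-- metrics with jets bounded uniformly on `S j`, uniformly positive there -/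
def MU (l : Filter ι) (g : ι → MetricField n) (S : ι → Set (En n)) : Prop :=
  MB (un l S) (fun p => g p.1) Prod.snd

theorem mu_iff {g : ι → MetricField n} {S : ι → Set (En n)} : MU l g S ↔
    (∀ a b, UB l (fun j y => g j y a b) S) ∧ ∃ c > 0, ∀ᶠ j in l, ∀ y ∈ S j, Pos c (g j y) :=
  ⟨fun h => ⟨h.gb, h.pos.imp fun _ hc => ⟨hc.1, ev_un.1 hc.2⟩⟩,
    fun h => ⟨h.1, h.2.imp fun _ hc => ⟨hc.1, ev_un.2 hc.2⟩⟩⟩

theorem MU.at {g : ι → MetricField n} {S : ι → Set (En n)} (h : MU l g S) {m : Filter κ}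
    {e : κ → ι} {y : κ → En n} (he : Tendsto e m l) (hy : ∀ᶠ j in m, y j ∈ S (e j)) :
    MB m (fun j => g (e j)) y := MB.comap h (tendsto_un he hy)

theorem MU.comap {g : ι → MetricField n} {S : ι → Set (En n)} (h : MU l g S) {m : Filter κ}
    {e : κ → ι} {S' : κ → Set (En n)} (he : Tendsto e m l) (hS : ∀ᶠ j in m, S' j ⊆ S (e j)) :
    MU m (fun j => g (e j)) S' :=
  h.at (he.comp (un_fst _ _)) (ev_un.2 (hS.mono fun _ hj _ hz => hj hz))

theorem MU.mono {g : ι → MetricField n} {S S' : ι → Set (En n)} (h : MU l g S)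
    (hS : ∀ᶠ j in l, S' j ⊆ S j) : MU l g S' := h.comap (e := id) tendsto_id hS

/-- `Loc` from local isometries -/
theorem loc_of_pull {M : Type*} {c c' : ι → En n → M} {D D' : Set (En n)}
    {g g' : ι → MetricField n} (hD : Bornology.IsBounded D) (hD' : Bornology.IsBounded D')
    (hg : MU l g fun _ => D) (hg' : MU l g' fun _ => D')
    (h : ∀ᶠ i in l, ∀ x ∈ D, ∀ y ∈ D', c i x = c' i y → ∃ τ V W, y ∈ V ∧ τ y = x ∧
      Pull (g' i) (g i) τ V W ∧ ∀ w ∈ V, c i (τ w) = c' i w) : Loc l c c' D D' := by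
  have : ∀ i x y, ∃ τ : En n → En n, (∃ τ V W, y ∈ V ∧ τ y = x ∧
      Pull (g' i) (g i) τ V W ∧ ∀ w ∈ V, c i (τ w) = c' i w) → ∃ V W, y ∈ V ∧ τ y = x ∧
      Pull (g' i) (g i) τ V W ∧ ∀ w ∈ V, c i (τ w) = c' i w := fun i x y => by
    by_cases h : ∃ τ V W, y ∈ V ∧ τ y = x ∧ Pull (g' i) (g i) τ V W ∧ ∀ w ∈ V, c i (τ w) = c' i w
    · obtain ⟨τ, h⟩ := h
      exact ⟨τ, fun _ => h⟩
    · exact ⟨id, fun h' => absurd h' h⟩
  choose τ hτ using this
  set S : ι → Set (En n × En n) := fun i => {p | p.1 ∈ D ∧ p.2 ∈ D' ∧ c i p.1 = c' i p.2}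
  have h1 : ∀ᶠ q in un l S, ∃ V W, q.2.2 ∈ V ∧ τ q.1 q.2.1 q.2.2 q.2.2 = q.2.1 ∧
      Pull (g' q.1) (g q.1) (τ q.1 q.2.1 q.2.2) V W ∧
      ∀ w ∈ V, c q.1 (τ q.1 q.2.1 q.2.2 w) = c' q.1 w :=
    ev_un.2 (h.mono fun i hi p hp => hτ _ _ _ (hi _ hp.1 _ hp.2.1 hp.2.2))
  have h2 : ∀ᶠ q in un l S, τ q.1 q.2.1 q.2.2 q.2.2 ∈ D := by
    filter_upwards [h1, un_mem l S] with q ⟨V, W, a⟩ b
    rw [a.2.1]; exact b.1
  have h3 : ∀ᶠ q in un l S, q.2.2 ∈ D' := (un_mem l S).mono fun q b => b.2.1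
  obtain ⟨C, hC⟩ := hD.exists_norm_le
  obtain ⟨C', hC'⟩ := hD'.exists_norm_le
  have key : GB (un l S) (fun q => τ q.1 q.2.1 q.2.2) fun q => q.2.2 :=
    iso_gb (h1.mono fun q ⟨V, W, a⟩ => ⟨V, W, a.1, a.2.2.1⟩) (hg'.at (un_fst _ _) h3)
      (hg.at (un_fst _ _) h2) ⟨C', h3.mono fun q a => hC' _ a⟩ ⟨C, h2.mono fun q a => hC _ a⟩
  refine ⟨τ, ?_, fun k => (key.bd k).imp fun C hC => ?_⟩
  · filter_upwards [ev_un.1 h1] with i hi x hx y hy e
    obtain ⟨V, W, a, b, d, f⟩ := hi (x, y) ⟨hx, hy, e⟩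
    exact ⟨b, d.contDiffAt a, mem_of_superset (d.isOpen.mem_nhds a) f⟩
  · exact (ev_un.1 hC).mono fun i hi x hx y hy e => hi (x, y) ⟨hx, hy, e⟩

/-- **`Loc` from geometry**: two parametrisations with controlled pull-back metrics -/
theorem loc_of_par {M : Type*} [TopologicalSpace M] [ChartedSpace (En n) M]
    [IsManifold 𝓘(ℝ, En n) ∞ M] [T3Space M] [ConnectedSpace M] (m : ι → Met n M)
    {c c' : ι → En n → M} {D D' : Set (En n)} (hD : Bornology.IsBounded D)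
    (hD' : Bornology.IsBounded D') (hc : ∀ᶠ i in l, Par (c i) D) (hc' : ∀ᶠ i in l, Par (c' i) D')
    (hg : MU l (fun i => (m i).pm (c i)) fun _ => D)
    (hg' : MU l (fun i => (m i).pm (c' i)) fun _ => D') : Loc l c c' D D' := by
  refine loc_of_pull hD hD' hg hg' ?_
  filter_upwards [hc, hc'] with i h h' x hx y hy e
  obtain ⟨T, V, hV, hyV, hVU, hT, hs, hm⟩ := Gs.exists_trans0 h' h hy hx e
  exact ⟨T, V, D, hyV, hT, Gs.pull_of' (m i) h' h hV hVU hs hm, fun w hw => (hm w hw).2⟩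

end Crest.Agent.N207.Jt

end
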