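import Crest.Agent.N207.I.Glue2
import Crest.Agent.N207.I.Iso

/-!
# Row 207, block I (helper24): the gluing theorem at a fixed first index, geometric form
-/

set_option autoImplicit false
open Set Filter Topology Function Metric
open scoped ContDiff Manifold
open Crest.GeometryTopology.CoordMetric
open Crest.Agent.R202.Tens

noncomputable section

namespace Crest.Agent.N207.Jt

variable {ι α : Type} {𝒰 : Ultrafilter ι} {B : α → Prop}

theorem GlH.fix {E : Type} {M : Type*} [NormedAddCommGroup E] [NormedSpace ℝ E]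
    [TopologicalSpace M] {c : α → ι → E → M} {ρ : α → E → ℝ} [T2Space M] [FiniteDimensional ℝ E]
    [Fintype α] (h : GlH 𝒰 c ρ B) {δ : ℝ} (hδ : 0 < δ) :
    ∀ᶠ i0 in (𝒰 : Filter ι), ∃ (F : ι → M → M) (f : α → ι → E → E),
      (∀ a, ∀ᶠ i in (𝒰 : Filter ι), ∀ x, ρ a x < 2 → ρ a (f a i x) < 4 ∧
        F i (c a i0 x) = c a i (f a i x) ∧ ‖f a i x - x‖ ≤ δ ∧
        ‖fderiv ℝ (f a i) x - ContinuousLinearMap.id ℝ E‖ ≤ δ) ∧
      (∀ a, UB (𝒰 : Filter ι) (f a) fun _ => lv (ρ a) 2) ∧ ∀ a, ¬ B a → ∀ i x, f a i x = x := by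
  obtain ⟨F, f, h1, h2, h3, h4⟩ := h.glue
  have h5 : ∀ a, ∀ᶠ p in (𝒰 : Filter ι) ×ˢ (𝒰 : Filter ι), ∀ x, ρ a x < 2 →
      ρ a (f a p x) < 4 ∧ F p (c a p.1 x) = c a p.2 (f a p x) ∧ ‖f a p x - x‖ ≤ δ ∧
        ‖fderiv ℝ (f a p) x - ContinuousLinearMap.id ℝ E‖ ≤ δ := fun a => by
    filter_upwards [h1 a, ev_un.1 (Metric.tendsto_nhds.1 (GE.val (h2 a)) δ hδ),
      ev_un.1 (Metric.tendsto_nhds.1 (GE.fderiv (h2 a)).val δ hδ)] with p a1 a2 a3 x hx
    exact ⟨(a1 x hx).1, (a1 x hx).2, by simpa using (a2 x hx).le, by simpa using (a3 x hx).le⟩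
  filter_upwards [eventually_all.2 fun a => (h5 a).curry, eventually_all.2 h3] with i a1 a2
  refine ⟨fun j => F (i, j), fun a j => f a (i, j), a1, fun a => ?_, fun a ha j => h4 a ha _⟩
  exact (a2 a).comap (e := fun j => (i, j)) (tendsto_const_pure.prodMk tendsto_id)
    (Eventually.of_forall fun _ => subset_rfl)

variable {n : ℕ} {l : Filter ι}

/-- a fixed metric on a compact set -/
theorem mu_fixed {g : MetricField n} {O K : Set (En n)} (h : IsRiemannianOn g O) (hK : IsCompact K)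
    (hKO : K ⊆ O) (l : Filter ι) : MU l (fun _ => g) fun _ => K := by
  have hs := fun a b z (hz : z ∈ K) => (h.contDiffOn a b).contDiffAt (h.isOpen.mem_nhds (hKO hz))
  obtain ⟨c, hc, hp⟩ := pos_of_compact hK (A := g)
    (fun a b z hz => (hs a b z hz).continuousAt.continuousWithinAt) fun z hz => h.posDef z (hKO hz)
  exact mu_iff.2 ⟨fun a b => (GE.fixed hK (hs a b) (un_mem _ _) (un_mem _ _)
    (by simpa using tendsto_const_nhds)).left, c, hc, Eventually.of_forall fun _ => hp⟩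

theorem mu_pure {g : ι → MetricField n} {O K : Set (En n)} {i : ι} (h : IsRiemannianOn (g i) O)
    (hK : IsCompact K) (hKO : K ⊆ O) : MU (pure i) g fun _ => K :=
  MB.congr (mu_fixed h hK hKO (pure i)) (((un_fst _ _).eventually
    (show ∀ᶠ j in pure i, j = i from rfl)).mono fun q hq => ⟨rfl, by rw [hq]⟩)

/-- pull-back of controlled metrics by controlled immersions -/
theorem MB.pull {g g' : ι → MetricField n} {f : ι → En n → En n} {x : ι → En n}
    (hg : MB l g fun j => f j (x j)) (hf : GB l f x) {c : ℝ} (hc : 0 < c)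
    (hl : ∀ᶠ j in l, ∀ X, c * ‖X‖ ≤ ‖fderiv ℝ (f j) (x j) X‖)
    (he : ∀ᶠ j in l, ∀ᶠ y in 𝓝 (x j), ∀ p q, g' j y p q = ∑ a, ∑ b, g j (f j y) a b *
      (fderiv ℝ (f j) y (EuclideanSpace.single p 1)) a *
      (fderiv ℝ (f j) y (EuclideanSpace.single q 1)) b) : MB l g' x := by
  refine ⟨fun p q => GB.congr (GE.sum Finset.univ fun a _ => GE.sum Finset.univ fun b _ =>
    ((((hg.gb a b).comp hf).ge.mul ((hf.fderiv.ge.app (GE.const' _)).coord a)).mul
      ((hf.fderiv.ge.app (GE.const' _)).coord b))).left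
    (he.mono fun j hj => ⟨rfl, hj.mono fun y hy => hy p q⟩), ?_⟩
  obtain ⟨d, hd, hp⟩ := hg.pos
  refine ⟨d * c ^ 2, by positivity, ?_⟩
  filter_upwards [hp, hl, he] with j h1 h2 h3
  have h4 := h3.self_of_nhds
  refine ⟨fun p q => ?_, fun v => ?_⟩
  · rw [h4, h4, Finset.sum_comm]
    refine Finset.sum_congr rfl fun a _ => Finset.sum_congr rfl fun b _ => ?_
    rw [h1.1 b a]; ring
  · have e : bil (g' j (x j)) v v =
        bil (g j (f j (x j))) (fderiv ℝ (f j) (x j) v) (fderiv ℝ (f j) (x j) v) := by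
      have h5 : ∀ p q, g' j (x j) p q = bil (g j (f j (x j)))
          (fderiv ℝ (f j) (x j) (EuclideanSpace.single p 1))
          (fderiv ℝ (f j) (x j) (EuclideanSpace.single q 1)) := fun p q => by rw [h4, bil_apply]
      rw [bil_apply]
      simp only [h5]
      conv_rhs => rw [Gs.sum_single v]
      simp only [map_sum, sum_apply, map_smul, smul_apply, smul_eq_mul, Finset.mul_sum]
      rw [Finset.sum_comm]
      exact Finset.sum_congr rfl fun a _ => Finset.sum_congr rfl fun b _ => by ring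
    rw [e]
    refine le_trans ?_ (h1.2 _)
    rw [mul_assoc, ← mul_pow]
    gcongr
    exact h2 v

theorem lower_of_near {E : Type} [NormedAddCommGroup E] [NormedSpace ℝ E] {A : E →L[ℝ] E}
    (h : ‖A - ContinuousLinearMap.id ℝ E‖ ≤ 1 / 2) (X : E) : 1 / 2 * ‖X‖ ≤ ‖A X‖ := by
  have h1 : ‖A X - X‖ ≤ 1 / 2 * ‖X‖ := (A - ContinuousLinearMap.id ℝ E).le_of_opNorm_le h X
  have := norm_sub_norm_le X (A X)
  rw [norm_sub_rev] at this
  linarith

theorem inj_of_near {E : Type} [NormedAddCommGroup E] [NormedSpace ℝ E] {A : E →L[ℝ] E}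
    (h : ‖A - ContinuousLinearMap.id ℝ E‖ ≤ 1 / 2) : Injective A :=
  (injective_iff_map_eq_zero A).2 fun X hX => by
    have := lower_of_near h X
    rw [hX, norm_zero] at this
    exact norm_le_zero_iff.1 (by linarith)

/-- an almost identity is injective on convex sets -/
theorem injOn_of_near {E : Type} [NormedAddCommGroup E] [NormedSpace ℝ E] {f : E → E} {S : Set E}
    (hS : Convex ℝ S) (hd : ∀ x ∈ S, DifferentiableAt ℝ f x)
    (h : ∀ x ∈ S, ‖fderiv ℝ f x - ContinuousLinearMap.id ℝ E‖ ≤ 1 / 2) : InjOn f S := by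
  intro x hx y hy e
  have := hS.norm_image_sub_le_of_norm_fderiv_le' hd h hx hy
  rw [e, sub_self, zero_sub, norm_neg, ContinuousLinearMap.id_apply] at this
  exact (sub_eq_zero.1 (norm_le_zero_iff.1 (by linarith [norm_nonneg (y - x)]))).symm

variable {M : Type*} [TopologicalSpace M] [ChartedSpace (En n) M] [IsManifold 𝓘(ℝ, En n) ∞ M]

/-- geometric hypotheses of the gluing theorem -/
structure GeoH (𝒰 : Ultrafilter ι) (m : ι → Met n M) (c : α → ι → En n → M) (ρ : α → En n → ℝ)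
    (B : α → Prop) (O : α → Set (En n)) : Prop where
  dp : ∀ a, Dp (ρ a)
  sub : ∀ a, lc (ρ a) 4 ⊆ O a
  par : ∀ a, ∀ᶠ i in (𝒰 : Filter ι), Par (c a i) (O a)
  mu : ∀ a, MU (𝒰 : Filter ι) (fun i => (m i).pm (c a i)) fun _ => lv (ρ a) 4
  inj : ∀ a, B a → ∀ᶠ i in (𝒰 : Filter ι), InjOn (c a i) (lv (ρ a) 4)
  desc : ∀ a, ∀ᶠ i in (𝒰 : Filter ι), ∀ z ∈ lv (ρ a) 4, ∀ z' ∈ lv (ρ a) 4,
    c a i z = c a i z' → ρ a z = ρ a z'
  sat : ∀ a b, ¬ B a → ¬ B b → ∀ᶠ p in (𝒰 : Filter ι) ×ˢ (𝒰 : Filter ι),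
    ∀ z ∈ lv (ρ a) 4, ∀ z' ∈ lv (ρ b) 4, c a p.1 z = c b p.1 z' → c a p.2 z = c b p.2 z'

variable [T3Space M] [ConnectedSpace M] {m : ι → Met n M} {c : α → ι → En n → M}
  {ρ : α → En n → ℝ} {O : α → Set (En n)}

theorem GeoH.glh (h : GeoH 𝒰 m c ρ B O) : GlH 𝒰 c ρ B := by
  have hs : ∀ a, lv (ρ a) 4 ⊆ lc (ρ a) 4 := fun a z (hz : ρ a z < 4) => hz.le
  have hp : ∀ a, ∀ᶠ i in (𝒰 : Filter ι), Par (c a i) (lv (ρ a) 4) := fun a =>
    (h.par a).mono fun i hi => Gs.par_mono hi ((h.dp a).op 4) ((hs a).trans (h.sub a))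
  have hb : ∀ a, Bornology.IsBounded (lv (ρ a) 4) := fun a => (h.dp a).cpt.isBounded.subset (hs a)
  refine ⟨h.dp, fun a => (hp a).mono fun i hi => Gs.par_cont hi, h.inj, h.desc, h.sat,
    fun a b _ => loc_of_par m (hb a) (hb b) (hp a) (hp b) (h.mu a) (h.mu b), fun a b _ => ?_⟩
  filter_upwards [h.par a, h.par b, hp a, hp b] with i h1 h2 h3 h4
  exact loc_of_par m (l := pure i) (c := c a) (c' := c b) (hb a) (hb b) h3 h4
    ((mu_pure (Gs.par_riem (m i) h1) (h.dp a).cpt (h.sub a)).mono (.of_forall fun _ => hs a))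
    ((mu_pure (Gs.par_riem (m i) h2) (h.dp b).cpt (h.sub b)).mono (.of_forall fun _ => hs b))

/-- **gluing, geometric form** -/
theorem GeoH.fix [Fintype α] (h : GeoH 𝒰 m c ρ B O) {δ : ℝ} (hδ : 0 < δ) :
    ∀ᶠ i0 in (𝒰 : Filter ι), ∃ (F : ι → M → M) (f : α → ι → En n → En n),
      (∀ a, ∀ᶠ i in (𝒰 : Filter ι), Par (fun x => c a i (f a i x)) (lv (ρ a) 2) ∧
        (B a → Convex ℝ (lv (ρ a) 2) → InjOn (fun x => c a i (f a i x)) (lv (ρ a) 2)) ∧
        ∀ x, ρ a x < 2 → ContDiffAt ℝ ∞ (f a i) x ∧ F i (c a i0 x) = c a i (f a i x) ∧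
          ‖f a i x - x‖ ≤ δ ∧ ‖fderiv ℝ (f a i) x - ContinuousLinearMap.id ℝ (En n)‖ ≤ δ) ∧
      (∀ a, MU (𝒰 : Filter ι) (fun i => (m i).pm fun x => c a i (f a i x)) fun _ => lv (ρ a) 2) ∧
      ∀ a, ¬ B a → ∀ i x, f a i x = x := by
  filter_upwards [h.glh.fix (lt_min hδ one_half_pos)] with i0 ⟨F, f, h1, h2, h3⟩
  have h4 := fun a => (ub_iff.1 (h2 a)).1
  refine ⟨F, f, fun a => ?_, fun a => ?_, h3⟩
  · filter_upwards [h1 a, h4 a, h.par a,
      eventually_imp_distrib_left.2 (h.inj a)] with i a1 a2 a3 a4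
    have a5 := fun x hx => (a1 x hx).2.2.2.trans (min_le_right _ _)
    refine ⟨Gs.par_comp a3 ((h.dp a).op 2) (fun x hx => (a2 x hx).contDiffWithinAt)
      (fun x hx => h.sub a (le_of_lt (a1 x hx).1)) fun x hx => inj_of_near (a5 x hx),
      fun ha hc x hx y hy e => ?_, fun x hx => ⟨a2 x hx, (a1 x hx).2.1,
        (a1 x hx).2.2.1.trans (min_le_left _ _), (a1 x hx).2.2.2.trans (min_le_left _ _)⟩⟩
    exact injOn_of_near hc (fun x hx => (a2 x hx).differentiableAt (by simp)) a5 hx hy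
      (a4 ha (a1 x hx).1 (a1 y hy).1 e)
  · have h5 : MB (un (𝒰 : Filter ι) fun _ => lv (ρ a) 2) (fun q => (m q.1).pm (c a q.1))
        fun q => f a q.1 q.2 := (h.mu a).at (e := Prod.fst) (un_fst _ _)
      (ev_un.2 ((h1 a).mono fun i hi x hx => (hi x hx).1))
    refine MB.pull (f := fun q : ι × En n => f a q.1) (x := Prod.snd) h5 (h2 a) one_half_pos
      (ev_un.2 ((h1 a).mono fun i hi x hx =>
        lower_of_near ((hi x hx).2.2.2.trans (min_le_right _ _)))) (ev_un.2 ?_)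
    filter_upwards [h1 a, h4 a, h.par a] with i a1 a2 a3 x hx
    filter_upwards [((h.dp a).op 2).mem_nhds hx] with y hy
    exact Gs.pm_comp (m i) (Gs.par_md a3 (h.sub a (le_of_lt (a1 y hy).1)))
      ((a2 y hy).differentiableAt (by simp))

end Crest.Agent.N207.Jt

end
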