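import Mathlib

/-! Rigidity of finite orthogonal groups along an ultrafilter (row 207, block I). -/

set_option autoImplicit false
open Filter Topology

namespace Crest.Agent.N207.I

/-- square root near `1` inside a closed set stable under the Newton map -/
theorem sqrt_near {A : Type*} [NormedRing A] [NormedAlgebra ℝ A] [CompleteSpace A] (X : A)
    (hX : ‖X‖ ≤ 1 / 4) (s : Set A) (hs : IsClosed s) (h0 : (0 : A) ∈ s)
    (hT : ∀ Y ∈ s, (1 / 2 : ℝ) • (X - Y * Y) ∈ s) :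
    ∃ Y ∈ s, ‖Y‖ ≤ ‖X‖ ∧ (1 + Y) * (1 + Y) = 1 + X := by
  set K : Set A := s ∩ Metric.closedBall 0 ‖X‖ with hK
  have hKc : IsComplete K := (hs.inter Metric.isClosed_closedBall).isComplete
  set T : A → A := fun Y => (1 / 2 : ℝ) • (X - Y * Y) with hTd
  have hn : ∀ Y ∈ K, ‖Y‖ ≤ ‖X‖ := fun Y hY => by simpa using hY.2
  have hm : Set.MapsTo T K K := by
    intro Y hY
    refine ⟨hT Y hY.1, ?_⟩
    have h1 := hn Y hY
    have h2 : ‖X - Y * Y‖ ≤ ‖X‖ + ‖Y‖ * ‖Y‖ := (norm_sub_le _ _).trans (by gcongr; exact norm_mul_le _ _)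
    have h3 : ‖Y‖ * ‖Y‖ ≤ ‖X‖ := by nlinarith [norm_nonneg Y, norm_nonneg X]
    simp only [Metric.mem_closedBall, dist_zero_right, hTd, norm_smul]
    norm_num
    linarith
  have hc : ContractingWith (1 / 2 : NNReal) (hm.restrict T K K) := by
    refine ⟨by norm_num, LipschitzWith.of_dist_le_mul fun Y Z => ?_⟩
    have hY := hn Y Y.2
    have hZ := hn Z Z.2
    have e : T Y - T Z = (1 / 2 : ℝ) • ((Z : A) * (Z - Y) + (Z - Y) * Y) := by
      simp only [hTd, ← smul_sub]; congr 1; noncomm_ring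
    have h1 : ‖(Z : A) * (Z - Y) + (Z - Y) * Y‖ ≤ ‖(Z : A)‖ * ‖(Z : A) - Y‖ + ‖(Z : A) - Y‖ * ‖(Y : A)‖ :=
      (norm_add_le _ _).trans (add_le_add (norm_mul_le _ _) (norm_mul_le _ _))
    show dist (T Y) (T Z) ≤ ((1 / 2 : NNReal) : ℝ) * dist (Y : A) Z
    rw [dist_eq_norm, e, norm_smul, dist_comm, dist_eq_norm]
    norm_num
    nlinarith [norm_nonneg ((Z : A) - Y), norm_nonneg (Y : A), norm_nonneg (Z : A)]
  have h0K : (0 : A) ∈ K := ⟨h0, by simp⟩
  obtain ⟨Y, hY, hf, -⟩ := ContractingWith.exists_fixedPoint' hKc hm hc h0K (edist_ne_top _ _)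
  refine ⟨Y, hY.1, hn Y hY, ?_⟩
  have h2 : (2 : ℝ) • Y = X - Y * Y := by
    have : T Y = Y := hf
    rw [← congrArg (fun z => (2 : ℝ) • z) this, hTd, smul_smul]; norm_num
  rw [two_smul] at h2
  have : X = Y + Y + Y * Y := by rw [h2]; abel
  rw [this]; noncomm_ring

variable {E : Type*} [NormedAddCommGroup E] [InnerProductSpace ℝ E] [FiniteDimensional ℝ E]

/-- the continuous linear map of a linear isometric equivalence -/
noncomputable abbrev cl (g : E ≃ₗᵢ[ℝ] E) : E →L[ℝ] E := g.toContinuousLinearEquiv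

omit [FiniteDimensional ℝ E] in
theorem cl_mul (g h : E ≃ₗᵢ[ℝ] E) : cl (g * h) = cl g * cl h := by ext; rfl
omit [FiniteDimensional ℝ E] in
theorem cl_one : cl (1 : E ≃ₗᵢ[ℝ] E) = 1 := by ext; rfl
omit [FiniteDimensional ℝ E] in
theorem cl_inj {g h : E ≃ₗᵢ[ℝ] E} (e : cl g = cl h) : g = h := by
  ext x; exact congrArg (fun L : E →L[ℝ] E => L x) e

theorem star_cl (g : E ≃ₗᵢ[ℝ] E) :
    haveI := FiniteDimensional.complete ℝ E; star (cl g) = cl g⁻¹ := by
  haveI := FiniteDimensional.complete ℝ E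
  rw [ContinuousLinearMap.star_eq_adjoint]
  exact g.adjoint_eq_symm

/-- a linear map with `star L * L = 1` is a linear isometric equivalence -/
theorem exists_cl (L : E →L[ℝ] E) (h : ∀ x, ‖L x‖ = ‖x‖) : ∃ g : E ≃ₗᵢ[ℝ] E, cl g = L := by
  let f : E →ₗᵢ[ℝ] E := ⟨L.toLinearMap, h⟩
  refine ⟨f.toLinearIsometryEquiv rfl, ?_⟩
  ext x; rfl

/-- an almost-identity intertwiner can be made orthogonal -/
theorem orth_of_near {G : Type*} [Group G] (ρ σ : G →* (E ≃ₗᵢ[ℝ] E)) (A : E →L[ℝ] E)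
    (hA : ‖A - 1‖ ≤ 1 / 10) (hi : ∀ g, cl (ρ g) * A = A * cl (σ g)) :
    ∃ O : E ≃ₗᵢ[ℝ] E, ‖cl O - 1‖ ≤ 10 * ‖A - 1‖ ∧ ∀ g, ρ g * O = O * σ g := by
  haveI := FiniteDimensional.complete ℝ E
  set B := A - 1 with hB
  have hAB : A = 1 + B := by rw [hB]; abel
  set X := star A * A - 1 with hX
  have hXB : X = star B + B + star B * B := by rw [hX, hAB]; simp only [star_add, star_one]; noncomm_ring
  have hXn : ‖X‖ ≤ 5 / 2 * ‖B‖ := by
    have h1 : ‖X‖ ≤ ‖star B‖ + ‖B‖ + ‖star B‖ * ‖B‖ := by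
      rw [hXB]
      exact (norm_add_le _ _).trans (add_le_add (norm_add_le _ _) (norm_mul_le _ _))
    have h2 : ‖star B‖ = ‖B‖ := by
      rw [ContinuousLinearMap.star_eq_adjoint]; exact LinearIsometryEquiv.norm_map _ _
    rw [h2] at h1
    nlinarith [norm_nonneg B]
  have hXs : star X = X := by simp [hX]
  have hXc : ∀ g, X * cl (σ g) = cl (σ g) * X := by
    intro g
    have h1 := congrArg star (hi g⁻¹)
    simp only [star_mul, star_cl, map_inv, inv_inv] at h1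
    rw [hX, sub_mul, mul_sub, mul_assoc, ← hi g, ← mul_assoc, h1, mul_assoc, one_mul, mul_one]
  obtain ⟨Y, ⟨hYs, hYc⟩, hYn, hY⟩ := sqrt_near X (by linarith)
    {Y | star Y = Y ∧ ∀ g, Y * cl (σ g) = cl (σ g) * Y}
    (by
      have : {Y : E →L[ℝ] E | star Y = Y ∧ ∀ g, Y * cl (σ g) = cl (σ g) * Y}
          = {Y | star Y = Y} ∩ ⋂ g, {Y | Y * cl (σ g) = cl (σ g) * Y} := by ext; simp
      rw [this]
      exact (isClosed_eq continuous_star continuous_id).inter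
        (isClosed_iInter fun g => isClosed_eq (by fun_prop) (by fun_prop)))
    (by simp)
    (by
      rintro Y ⟨h1, h2⟩
      refine ⟨by simp [star_mul, h1, hXs], fun g => ?_⟩
      rw [smul_mul_assoc, mul_smul_comm, sub_mul, mul_sub, hXc, mul_assoc, h2, ← mul_assoc, h2,
        mul_assoc])
  have hY4 : ‖Y‖ ≤ 1 / 4 := by linarith
  let u : (E →L[ℝ] E)ˣ := Units.oneSub (-Y) (by rw [norm_neg]; linarith)
  have hu : (u : E →L[ℝ] E) = 1 + Y := by simp [u]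
  set S : E →L[ℝ] E := ↑u⁻¹ with hS
  have hS1 : (1 + Y) * S = 1 := by rw [← hu, hS]; simp
  have hS2 : S * (1 + Y) = 1 := by rw [← hu, hS]; simp
  have hSs : star S * (1 + Y) = 1 := by
    have := congrArg star hS1
    simpa [star_mul, hYs] using this
  have hO : star (A * S) * (A * S) = 1 := by
    have : star A * A = (1 + Y) * (1 + Y) := by rw [hY, hX]; abel
    calc star (A * S) * (A * S) = star S * (star A * A) * S := by rw [star_mul]; noncomm_ring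
      _ = (star S * (1 + Y)) * ((1 + Y) * S) := by rw [this]; noncomm_ring
      _ = 1 := by rw [hSs, hS1, one_mul]
  have hiso : ∀ x, ‖(A * S) x‖ = ‖x‖ := by
    intro x
    have h1 : inner ℝ ((A * S) x) ((A * S) x) = inner ℝ x x := by
      rw [← ContinuousLinearMap.adjoint_inner_right, ← ContinuousLinearMap.star_eq_adjoint]
      have := congrArg (fun L : E →L[ℝ] E => L x) hO
      simp only [ContinuousLinearMap.mul_apply, ContinuousLinearMap.one_apply] at this ⊢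
      rw [this]
    rw [real_inner_self_eq_norm_sq, real_inner_self_eq_norm_sq] at h1
    exact (sq_eq_sq₀ (norm_nonneg _) (norm_nonneg _)).1 h1
  obtain ⟨O, hOe⟩ := exists_cl _ hiso
  refine ⟨O, ?_, fun g => cl_inj ?_⟩
  · have e : cl O - 1 = B - cl O * Y := by
      have : cl O * (1 + Y) = A := by rw [hOe, mul_assoc, hS2, mul_one]
      rw [hB, ← this]; noncomm_ring
    have h1 : ‖cl O‖ ≤ 1 := ContinuousLinearMap.opNorm_le_bound _ zero_le_one fun x => by simp [cl]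
    have h2 : ‖cl O * Y‖ ≤ ‖Y‖ := (norm_mul_le _ _).trans (by nlinarith [norm_nonneg Y])
    rw [e]
    have := norm_sub_le B (cl O * Y)
    nlinarith [norm_nonneg B]
  · have h1 : S * cl (σ g) = cl (σ g) * S := by
      have h2 : (1 + Y) * cl (σ g) = cl (σ g) * (1 + Y) := by
        rw [add_mul, mul_add, hYc, one_mul, mul_one]
      calc S * cl (σ g) = S * cl (σ g) * ((1 + Y) * S) := by rw [hS1, mul_one]
        _ = S * ((1 + Y) * cl (σ g)) * S := by rw [h2]; noncomm_ring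
        _ = cl (σ g) * S := by rw [← mul_assoc, hS2, one_mul]
    rw [cl_mul, cl_mul, hOe, ← mul_assoc, hi, mul_assoc, mul_assoc, h1]

/-- converging representations of a finite group are conjugate to the limit by `O → 1` -/
theorem rig_hom {ι G : Type*} [Group G] [Finite G] (l : Filter ι) (ρ : ι → G →* (E ≃ₗᵢ[ℝ] E))
    (σ : G →* (E ≃ₗᵢ[ℝ] E)) (h : ∀ g, Tendsto (fun i => cl (ρ i g)) l (𝓝 (cl (σ g)))) :
    ∃ O : ι → E ≃ₗᵢ[ℝ] E, Tendsto (fun i => cl (O i)) l (𝓝 1) ∧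
      ∀ᶠ i in l, ∀ g, ρ i g * O i = O i * σ g := by
  classical
  haveI := Fintype.ofFinite G
  have hc : (Fintype.card G : ℝ) ≠ 0 := by exact_mod_cast Fintype.card_ne_zero
  set A : ι → E →L[ℝ] E := fun i => (Fintype.card G : ℝ)⁻¹ • ∑ g, cl (ρ i g) * cl (σ g⁻¹) with hA
  have hA1 : Tendsto A l (𝓝 1) := by
    have : Tendsto A l (𝓝 ((Fintype.card G : ℝ)⁻¹ • ∑ g, cl (σ g) * cl (σ g⁻¹))) :=
      (tendsto_finset_sum _ fun g _ => (h g).mul_const _).const_smul _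
    convert this using 2
    simp only [← cl_mul, ← map_mul, mul_inv_cancel, map_one, cl_one, Finset.sum_const,
      Finset.card_univ, ← Nat.cast_smul_eq_nsmul ℝ, smul_smul, inv_mul_cancel₀ hc, one_smul]
  have hi : ∀ i g, cl (ρ i g) * A i = A i * cl (σ g) := by
    intro i g
    simp only [hA, mul_smul_comm, smul_mul_assoc, Finset.mul_sum, Finset.sum_mul]
    congr 1
    refine Fintype.sum_equiv (Equiv.mulLeft g) _ _ fun k => ?_
    simp only [Equiv.coe_mulLeft, ← cl_mul, ← map_mul, mul_assoc]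
    congr 1
    rw [map_mul (ρ i), mul_assoc, mul_inv_rev, mul_assoc, inv_mul_cancel, mul_one]
  have hn : Tendsto (fun i => ‖A i - 1‖) l (𝓝 0) := tendsto_iff_norm_sub_tendsto_zero.1 hA1
  have hev : ∀ᶠ i in l, ‖A i - 1‖ ≤ 1 / 10 := hn.eventually (ge_mem_nhds (by norm_num))
  have : ∀ i, ∃ O : E ≃ₗᵢ[ℝ] E, ‖A i - 1‖ ≤ 1 / 10 →
      ‖cl O - 1‖ ≤ 10 * ‖A i - 1‖ ∧ ∀ g, ρ i g * O = O * σ g := by
    intro i
    by_cases hh : ‖A i - 1‖ ≤ 1 / 10
    · obtain ⟨O, hO⟩ := orth_of_near (ρ i) σ (A i) hh (hi i)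
      exact ⟨O, fun _ => hO⟩
    · exact ⟨1, fun h' => absurd h' hh⟩
  choose O hO using this
  refine ⟨O, tendsto_iff_norm_sub_tendsto_zero.2 ?_, hev.mono fun i hi => (hO i hi).2⟩
  refine squeeze_zero' (Eventually.of_forall fun _ => norm_nonneg _)
    (hev.mono fun i hi => (hO i hi).1) ?_
  simpa using hn.const_mul 10

/-- every family of orthogonal maps converges along an ultrafilter to an orthogonal map -/
theorem exists_lim_cl {ι : Type*} (U : Ultrafilter ι) (g : ι → E ≃ₗᵢ[ℝ] E) :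
    ∃ h : E ≃ₗᵢ[ℝ] E, Tendsto (fun i => cl (g i)) U (𝓝 (cl h)) := by
  have hK : IsCompact (Metric.closedBall (0 : E →L[ℝ] E) 1) := isCompact_closedBall _ _
  obtain ⟨L, -, hL⟩ := hK.ultrafilter_le_nhds (U.map fun i => cl (g i)) (by
    rw [le_principal_iff]
    refine mem_map.2 (Eventually.of_forall fun i => ?_)
    simp only [Set.mem_preimage, Metric.mem_closedBall, dist_zero_right]
    exact ContinuousLinearMap.opNorm_le_bound _ zero_le_one fun x => by simp [cl])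
  have hL' : Tendsto (fun i => cl (g i)) U (𝓝 L) := hL
  obtain ⟨h, rfl⟩ := exists_cl L fun x => by
    have h1 : Tendsto (fun i => ‖cl (g i) x‖) U (𝓝 ‖L x‖) :=
      (((ContinuousLinearMap.apply ℝ E x).continuous.tendsto L).comp hL').norm
    have h2 : (fun i => ‖cl (g i) x‖) = fun _ => ‖x‖ := by ext i; simp [cl]
    rw [h2] at h1
    exact (tendsto_nhds_unique tendsto_const_nhds h1).symm
  exact ⟨h, hL'⟩

/-- a function with values in a finite type is constant along an ultrafilter -/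
theorem ev_const {ι α : Type*} [Finite α] (U : Ultrafilter ι) (f : ι → α) :
    ∃ a, ∀ᶠ i in U, f i = a :=
  Ultrafilter.eventually_exists_iff.1 (Eventually.of_forall fun i => ⟨f i, rfl⟩)

theorem ev_const_nat {ι : Type*} (U : Ultrafilter ι) (f : ι → ℕ) (N : ℕ)
    (h : ∀ᶠ i in U, f i ≤ N) : ∃ a ≤ N, ∀ᶠ i in U, f i = a := by
  obtain ⟨a, ha⟩ := ev_const U fun i => (⟨min (f i) N, by omega⟩ : Fin (N + 1))
  refine ⟨a, by omega, (h.and ha).mono fun i hi => ?_⟩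
  have := congrArg Fin.val hi.2
  simp only at this
  omega

/-- **(Rig)** finite orthogonal groups of bounded order are, along an ultrafilter, conjugate to one
group by orthogonal maps tending to the identity -/
theorem rig {ι : Type*} (U : Ultrafilter ι) (Γ : ι → Subgroup (E ≃ₗᵢ[ℝ] E)) (N : ℕ)
    (hf : ∀ᶠ i in U, Finite (Γ i) ∧ Nat.card (Γ i) ≤ N) :
    ∃ (Γ₀ : Subgroup (E ≃ₗᵢ[ℝ] E)) (O : ι → E ≃ₗᵢ[ℝ] E), Finite Γ₀ ∧ Nat.card Γ₀ ≤ N ∧
      Tendsto (fun i => cl (O i)) U (𝓝 1) ∧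
      ∀ᶠ i in U, ∀ g, g ∈ Γ₀ ↔ O i * g * (O i)⁻¹ ∈ Γ i := by
  classical
  obtain ⟨n, hn, hc⟩ := ev_const_nat U (fun i => Nat.card (Γ i)) N (hf.mono fun _ h => h.2)
  have he : ∀ i, ∃ e : Fin n → Γ i, (Finite (Γ i) ∧ Nat.card (Γ i) = n) → Function.Bijective e := by
    intro i
    by_cases hh : Finite (Γ i) ∧ Nat.card (Γ i) = n
    · haveI := hh.1
      exact ⟨(Finite.equivFinOfCardEq hh.2).symm, fun _ => Equiv.bijective _⟩
    · exact ⟨fun _ => 1, fun h => absurd h hh⟩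
  choose e he using he
  obtain ⟨m, hm⟩ := ev_const U fun i => {p : Fin n × Fin n × Fin n | e i p.1 * e i p.2.1 = e i p.2.2}
  have hg : ∀ᶠ i in U, Function.Bijective (e i) ∧
      {p : Fin n × Fin n × Fin n | e i p.1 * e i p.2.1 = e i p.2.2} = m :=
    (((hf.and hc).mono fun i h => he i ⟨h.1.1, h.2⟩)).and hm
  obtain ⟨i₀, hb₀, hm₀⟩ := hg.exists
  let e₀ := Equiv.ofBijective _ hb₀
  haveI : Finite (Γ i₀) := Finite.of_equiv _ e₀
  have hρ : ∀ i, ∃ ρ : Γ i₀ →* (E ≃ₗᵢ[ℝ] E), (Function.Bijective (e i) ∧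
      {p : Fin n × Fin n × Fin n | e i p.1 * e i p.2.1 = e i p.2.2} = m) →
      ∀ g, g ∈ Γ i ↔ g ∈ ρ.range := by
    intro i
    by_cases hh : Function.Bijective (e i) ∧
      {p : Fin n × Fin n × Fin n | e i p.1 * e i p.2.1 = e i p.2.2} = m
    · refine ⟨MonoidHom.mk' (fun g => (e i (e₀.symm g) : E ≃ₗᵢ[ℝ] E)) fun a b => ?_, fun _ g => ?_⟩
      · have h1 : (e₀.symm a, e₀.symm b, e₀.symm (a * b)) ∈ m := by
          rw [← hm₀]
          show e₀ _ * e₀ _ = e₀ _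
          simp
        rw [← hh.2] at h1
        exact (congrArg Subtype.val h1).symm
      · constructor
        · intro hg'
          obtain ⟨k, hk⟩ := hh.1.2 ⟨g, hg'⟩
          exact ⟨e₀ k, by simp [hk]⟩
        · rintro ⟨k, rfl⟩
          exact (e i _).2
    · exact ⟨1, fun h => absurd h hh⟩
  choose ρ hρ using hρ
  choose σ hσ using fun g => exists_lim_cl U fun i => ρ i g
  let σ' : Γ i₀ →* (E ≃ₗᵢ[ℝ] E) := MonoidHom.mk' σ fun a b => cl_inj (by
    have h1 := (hσ a).mul (hσ b)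
    simp only [← cl_mul, ← map_mul] at h1
    exact tendsto_nhds_unique (hσ (a * b)) h1)
  obtain ⟨O, hO, hO'⟩ := rig_hom U ρ σ' hσ
  have hs : Function.Surjective σ'.rangeRestrict := σ'.rangeRestrict_surjective
  refine ⟨σ'.range, O, Finite.of_surjective _ hs, ?_, hO, (hg.and hO').mono fun i h g => ?_⟩
  · refine (Nat.card_le_card_of_surjective _ hs).trans ?_
    rw [← Nat.card_congr e₀]; simpa using hn
  · rw [hρ i h.1]
    constructor
    · rintro ⟨k, rfl⟩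
      exact ⟨k, by rw [← h.2 k]; simp⟩
    · rintro ⟨k, hk⟩
      refine ⟨k, ?_⟩
      have h1 := h.2 k
      rw [hk] at h1
      simpa [mul_assoc] using h1.symm

omit [FiniteDimensional ℝ E] in
/-- freeness off the origin passes to a conjugate group -/
theorem conj_free {Γ Γ₀ : Subgroup (E ≃ₗᵢ[ℝ] E)} {O : E ≃ₗᵢ[ℝ] E}
    (h : ∀ g, g ∈ Γ₀ ↔ O * g * O⁻¹ ∈ Γ) (hf : ∀ g ∈ Γ, ∀ x, x ≠ 0 → g x = x → g = 1) :
    ∀ g ∈ Γ₀, ∀ x, x ≠ 0 → g x = x → g = 1 := by
  intro g hg x hx hgx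
  have h1 := hf _ ((h g).1 hg) (O x) (by simpa using hx) (by
    show O (g (O.symm (O x))) = O x
    rw [O.symm_apply_apply, hgx])
  have : g = O⁻¹ * (O * g * O⁻¹) * O := by group
  rw [this, h1]; group

omit [FiniteDimensional ℝ E] in
theorem conj_mem {Γ Γ₀ : Subgroup (E ≃ₗᵢ[ℝ] E)} {O : E ≃ₗᵢ[ℝ] E}
    (h : ∀ g, g ∈ Γ₀ ↔ O * g * O⁻¹ ∈ Γ) (g : E ≃ₗᵢ[ℝ] E) : g ∈ Γ ↔ O⁻¹ * g * O ∈ Γ₀ := by
  rw [h]; congr! 1; group

omit [FiniteDimensional ℝ E] in
theorem conj_ne_bot {Γ Γ₀ : Subgroup (E ≃ₗᵢ[ℝ] E)} {O : E ≃ₗᵢ[ℝ] E}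
    (h : ∀ g, g ∈ Γ₀ ↔ O * g * O⁻¹ ∈ Γ) (hn : Γ ≠ ⊥) : Γ₀ ≠ ⊥ := by
  intro h0
  refine hn ((Subgroup.eq_bot_iff_forall _).2 fun g hg => ?_)
  have h1 := (conj_mem h g).1 hg
  rw [h0, Subgroup.mem_bot] at h1
  have : g = O * (O⁻¹ * g * O) * O⁻¹ := by group
  rw [this, h1]; group

omit [FiniteDimensional ℝ E] in
/-- a chart invariant exactly under `Γ`, rotated by `O`, is invariant exactly under `Γ₀` -/
theorem conj_chart {M : Type*} {Γ Γ₀ : Subgroup (E ≃ₗᵢ[ℝ] E)} {O : E ≃ₗᵢ[ℝ] E}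
    (h : ∀ g, g ∈ Γ₀ ↔ O * g * O⁻¹ ∈ Γ) (Ψ : E → M) (x y : E)
    (hΨ : Ψ (O x) = Ψ (O y) ↔ ∃ g ∈ Γ, g (O x) = O y) :
    Ψ (O x) = Ψ (O y) ↔ ∃ g ∈ Γ₀, g x = y := by
  rw [hΨ]
  constructor
  · rintro ⟨g, hg, e⟩
    refine ⟨_, (conj_mem h g).1 hg, ?_⟩
    show O.symm (g (O x)) = y
    rw [e, O.symm_apply_apply]
  · rintro ⟨g, hg, e⟩
    refine ⟨_, (h g).1 hg, ?_⟩
    show O (g (O.symm (O x))) = O y
    rw [O.symm_apply_apply, e]

end Crest.Agent.N207.I
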