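import Crest.Agent.N207.I.Lim1
import Crest.Agent.N207.I.Rig
import Crest.Agent.N207.AI.Nat
import Crest.Agent.N207.AI.Par2
import Crest.Agent.N207.G.Tr
import Crest.Agent.N207.Sk.Defs

/-!
# Row 207, block I (helper56): rotating and rescaling neck charts
-/

set_option autoImplicit false

open scoped ContDiff Topology Manifold
open Set Filter Metric
open Crest.GeometryTopology.CoordMetric Crest.Agent.R202.Tens

noncomputable section

namespace Crest.Agent.N207.I

open Jt AI

section smul
variable {n : ℕ}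

theorem pderiv_cmul (c : ℝ) (f : En n → ℝ) (i : Fin n) (x : En n) :
    pderiv i (fun y => c * f y) x = c * pderiv i f x := by
  unfold pderiv
  have h := fderiv_const_smul_field (𝕜 := ℝ) (f := f) c
  have h2 : (fun y => c * f y) = c • f := rfl
  rw [h2, h]
  rfl

theorem minv_smul {c : ℝ} (hc : c ≠ 0) (A : Matrix (Fin n) (Fin n) ℝ) :
    (c • A)⁻¹ = c⁻¹ • A⁻¹ := by
  by_cases h : IsUnit A.det
  · exact Matrix.inv_smul' A (Units.mk0 c hc) h
  · have h2 : ¬ IsUnit (c • A).det := by
      rw [Matrix.det_smul]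
      intro h3
      apply h
      rw [isUnit_iff_ne_zero] at h3 ⊢
      exact right_ne_zero_of_mul h3
    rw [Matrix.nonsing_inv_apply_not_isUnit _ h, Matrix.nonsing_inv_apply_not_isUnit _ h2,
      smul_zero]

theorem chr_csmul {c : ℝ} (hc : c ≠ 0) (g : MetricField n) (x : En n) (k i j : Fin n) :
    christoffel (fun y => c • g y) x k i j = christoffel g x k i j := by
  unfold christoffel inverseField
  congr 1
  refine Finset.sum_congr rfl fun l _ => ?_
  rw [minv_smul hc]
  simp only [Matrix.smul_apply, smul_eq_mul]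
  rw [pderiv_cmul, pderiv_cmul, pderiv_cmul]
  field_simp

theorem ricci_csmul {c : ℝ} (hc : c ≠ 0) (g : MetricField n) (x : En n) (i j : Fin n) :
    ricci (fun y => c • g y) x i j = ricci g x i j := by
  unfold ricci
  simp only [chr_csmul hc]

theorem riem_csmul {c : ℝ} (hc : 0 < c) {g : MetricField n} {U : Set (En n)}
    (h : IsRiemannianOn g U) : IsRiemannianOn (fun y => c • g y) U :=
  ⟨h.isOpen, fun i j => contDiffOn_const.mul (h.contDiffOn i j),
    fun x hx => (h.posDef x hx).smul hc⟩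

end smul

/-- the linear map `x ↦ u • O x` -/
def sim (u : ℝ) (O : Iso4) : E4 →L[ℝ] E4 := u • (O.toContinuousLinearEquiv : E4 →L[ℝ] E4)

@[simp] theorem sim_apply (u : ℝ) (O : Iso4) (x : E4) : sim u O x = u • O x := rfl

/-- the metric `G` in the coordinate `x`, `y = u • O x`, divided by `u²` -/
def rot (G : MetricField 4) (u : ℝ) (O : Iso4) : MetricField 4 := fun x => Matrix.of fun p q =>
  ∑ a, ∑ b, G (u • O x) a b * O (eb p) a * O (eb q) b

variable {G : MetricField 4} {u : ℝ} {O : Iso4} {U : Set E4} {x : E4}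

theorem norm_sim (hu : 0 < u) (O : Iso4) (x : E4) : ‖u • O x‖ = u * ‖x‖ := by
  rw [norm_smul, Real.norm_of_nonneg hu.le, O.norm_map]

theorem sim_inj (hu : 0 < u) (O : Iso4) : Function.Injective (sim u O) := fun _ _ h =>
  O.injective (smul_right_injective E4 hu.ne' h)

theorem abs_O_le (O : Iso4) (p a : Fin 4) : |O (eb p) a| ≤ 1 := by
  have := PiLp.norm_apply_le (O (eb p)) a
  simpa using this

theorem dv_rot (G : MetricField 4) (u : ℝ) (O : Iso4) (p q : Fin 4) : TD.dv (rot G u O) p q =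
    fun x => ∑ a, ∑ b, (O (eb p) a * O (eb q) b) * TD.dv G a b (u • O x) := by
  funext x
  have h1 : ∑ a, O (eb p) a * O (eb q) a = (1 : Matrix (Fin 4) (Fin 4) ℝ) p q := by
    have := O.inner_map_map (eb q) (eb p)
    rw [PiLp.inner_apply, EuclideanSpace.inner_single_left] at this
    simpa [Matrix.one_apply, PiLp.single_apply, eq_comm] using this
  simp only [TD.dv, rot, Matrix.of_apply, mul_sub, Finset.sum_sub_distrib, ← h1]
  congr 1
  · exact Finset.sum_congr rfl fun a _ => Finset.sum_congr rfl fun b _ => by ring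
  · simp [Matrix.one_apply]

theorem pull_rot (hu : 0 < u) (O : Iso4) (h : IsRiemannianOn G U) :
    Pull (fun x => u ^ 2 • rot G u O x) G (sim u O) {x | u • O x ∈ U} U where
  isOpen := h.isOpen.preimage (sim u O).continuous
  riem := h
  maps := fun _ hy => hy
  smooth := (sim u O).contDiff.contDiffOn
  pull := fun y _ i j => by
    simp only [ContinuousLinearMap.fderiv, sim_apply, rot, Matrix.smul_apply, Matrix.of_apply,
      smul_eq_mul, Finset.mul_sum, PiLp.smul_apply]
    exact Finset.sum_congr rfl fun a _ => Finset.sum_congr rfl fun b _ => by ring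
  inj := fun y _ => by rw [ContinuousLinearMap.fderiv]; exact sim_inj hu O

theorem riem_rot (hu : 0 < u) (O : Iso4) (h : IsRiemannianOn G U) :
    IsRiemannianOn (rot G u O) {x | u • O x ∈ U} := by
  have := riem_csmul (c := (u ^ 2)⁻¹) (by positivity) (pull_rot hu O h).riem'
  simpa only [inv_smul_smul₀ (pow_pos hu 2).ne'] using this

theorem ricci_rot (hu : 0 < u) (h : IsRiemannianOn G U) (hx : u • O x ∈ U) (p q : Fin 4) :
    ricci (rot G u O) x p q =
      u ^ 2 * ∑ a, ∑ b, ricci G (u • O x) a b * O (eb p) a * O (eb q) b := by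
  have h1 := congrFun (ricT_pull (pull_rot hu O h) hx) ![p, q]
  rw [pullT, evT_ricT] at h1
  simp only [ricT, ricci_csmul (pow_pos hu 2).ne', ContinuousLinearMap.fderiv, sim_apply,
    Matrix.cons_val_zero, Matrix.cons_val_one, PiLp.smul_apply, smul_eq_mul] at h1
  rw [h1]
  simp only [Finset.mul_sum]
  exact Finset.sum_congr rfl fun a _ => Finset.sum_congr rfl fun b _ => by ring

theorem abs_sum_le {A : Fin 4 → Fin 4 → ℝ} {c : ℝ} (h : ∀ a b, |A a b| ≤ c) (O : Iso4)
    (p q : Fin 4) : |∑ a, ∑ b, A a b * O (eb p) a * O (eb q) b| ≤ 16 * c := by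
  calc _ ≤ ∑ _a : Fin 4, ∑ _b : Fin 4, c := by
        refine (Finset.abs_sum_le_sum_abs _ _).trans (Finset.sum_le_sum fun a _ => ?_)
        refine (Finset.abs_sum_le_sum_abs _ _).trans (Finset.sum_le_sum fun b _ => ?_)
        rw [abs_mul, abs_mul]
        exact (mul_le_of_le_one_right (by positivity) (abs_O_le _ _ _)).trans
          ((mul_le_of_le_one_right (abs_nonneg _) (abs_O_le _ _ _)).trans (h a b))
    _ = 16 * c := by simp; ring

theorem abs_ricci_rot (hu : 0 < u) (h : IsRiemannianOn G U) (hx : u • O x ∈ U) {c : ℝ}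
    (hc : ∀ a b, |ricci G (u • O x) a b| ≤ c) (p q : Fin 4) :
    |ricci (rot G u O) x p q| ≤ u ^ 2 * (16 * c) := by
  rw [ricci_rot hu h hx, abs_mul, abs_of_nonneg (sq_nonneg u)]
  exact mul_le_mul_of_nonneg_left (abs_sum_le hc O p q) (sq_nonneg u)

theorem jet_rot (hu : 0 < u) (h : IsRiemannianOn G U) (hx : u • O x ∈ U) {k : ℕ} {c : ℝ}
    (hc : ∀ a b, Sk.J1 k (Sk.dv G a b) (u • O x) ‖u • O x‖ c) (p q : Fin 4) :
    ‖iteratedFDeriv ℝ k (TD.dv (rot G u O) p q) x‖ * ‖x‖ ^ k ≤ 16 * c := by
  have hs : ∀ a b, ContDiffAt ℝ k (fun x => TD.dv G a b (u • O x)) x := fun a b =>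
    (ContDiffAt.comp (g := TD.dv G a b) (f := sim u O) x
      (((h.contDiffOn a b).contDiffAt (h.isOpen.mem_nhds hx)).sub contDiffAt_const)
      (sim u O).contDiff.contDiffAt).of_le (kle k)
  have h1 : ∀ a b, ‖iteratedFDeriv ℝ k (fun x => (O (eb p) a * O (eb q) b) *
      TD.dv G a b (u • O x)) x‖ * ‖x‖ ^ k ≤ c := fun a b => by
    have e := iteratedFDeriv_const_smul_apply' (a := O (eb p) a * O (eb q) b) (hs a b)
    simp only [smul_eq_mul] at e
    have h2 := O.norm_iteratedFDeriv_comp_right (fun z => TD.dv G a b (u • z)) x k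
    have h3 := norm_iter_smul (TD.dv G a b) hu k (O x)
    have h4 := hc a b
    rw [Sk.J1, norm_sim hu, mul_pow] at h4
    have h5 : ‖O (eb p) a * O (eb q) b‖ ≤ 1 := by
      rw [Real.norm_eq_abs, abs_mul]
      exact mul_le_one₀ (abs_O_le _ _ _) (abs_nonneg _) (abs_O_le _ _ _)
    rw [e, norm_smul]
    refine le_trans (mul_le_mul_of_nonneg_right ((mul_le_of_le_one_left (norm_nonneg _) h5).trans
      (h2.trans_le h3)) (by positivity)) (le_of_eq_of_le ?_ h4)
    rw [mul_comm (u ^ k), mul_assoc]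
    rfl
  have hs' : ∀ a b, ContDiffAt ℝ k (fun x => (O (eb p) a * O (eb q) b) * TD.dv G a b (u • O x)) x :=
    fun a b => contDiffAt_const.mul (hs a b)
  rw [dv_rot, iteratedFDeriv_fun_sum_apply (fun a _ => ContDiffAt.sum fun b _ => hs' a b)]
  simp only [iteratedFDeriv_fun_sum_apply (fun b (_ : b ∈ Finset.univ) => hs' _ b)]
  calc _ ≤ (∑ a, ∑ b, ‖iteratedFDeriv ℝ k (fun x => (O (eb p) a * O (eb q) b) *
        TD.dv G a b (u • O x)) x‖) * ‖x‖ ^ k :=
        mul_le_mul_of_nonneg_right ((norm_sum_le _ _).trans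
          (Finset.sum_le_sum fun a _ => norm_sum_le _ _)) (by positivity)
    _ ≤ ∑ _a : Fin 4, ∑ _b : Fin 4, c := by
        simp only [Finset.sum_mul]
        exact Finset.sum_le_sum fun a _ => Finset.sum_le_sum fun b _ => h1 a b
    _ = 16 * c := by simp; ring

/-- invariance under the conjugated group -/
theorem inv_rot {γ : Iso4} (hx : matT G (u • O x) = pullT (O * γ * O⁻¹ : Iso4) (matT G) (u • O x)) :
    matT (rot G u O) x = pullT γ (matT (rot G u O)) x := by
  have e : ∀ (y v w : E4), bil (rot G u O y) v w = bil (G (u • O y)) (O v) (O w) := fun y v w => by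
    have h := evT_map (O.toContinuousLinearEquiv : E4 →L[ℝ] E4) (matT G (u • O y)) ![v, w]
    rw [evT_matT] at h
    refine Eq.trans ?_ h
    rw [← show _ = bil (rot G u O y) v w from evT_matT (rot G u O) y ![v, w]]
    congr 1
    funext I
    rw [evT_matT, bil_apply]
    rfl
  funext I
  have h1 := congrArg (fun A => evT A ![O (eb (I 0)), O (eb (I 1))]) hx
  have e1 : ∀ (A : Iso4) (y v : E4), fderiv ℝ A y v = A v := fun A y v => by
    rw [LinearIsometryEquiv.fderiv]; rfl
  have e2 : ∀ v, (O * γ * O⁻¹ : Iso4) (O v) = O (γ v) := fun v => by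
    show O (γ (O.symm (O v))) = _
    rw [O.symm_apply_apply]
  simp only [evT_pullT, evT_matT, e1, map_smul, e2, Matrix.cons_val_zero, Matrix.cons_val_one] at h1
  rw [← evT_single (matT (rot G u O) x), pullT, evT_matT, evT_matT, e, e, e1, e1]
  exact h1

variable {M : Type*} [TopologicalSpace M] [ChartedSpace E4 M] [IsManifold 𝓘(ℝ, E4) ∞ M]
  {Ψ : E4 → M}

theorem par_rot (hu : 0 < u) (O : Iso4) (hP : Par Ψ U) :
    Par (fun x => Ψ (u • O x)) {x | u • O x ∈ U} :=
  Gs.par_comp (T := sim u O) hP (hP.isOpen.preimage (sim u O).continuous)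
    (sim u O).contDiff.contDiffOn (fun _ hx => hx) fun y _ => by
      rw [ContinuousLinearMap.fderiv]; exact sim_inj hu O

theorem pm_rot (g : Met 4 M) (hP : Par Ψ U) (hx : u • O x ∈ U) :
    g.pm (fun x => Ψ (u • O x)) x = u ^ 2 • rot (g.pm Ψ) u O x := by
  ext p q
  refine (Gs.pm_comp (T := sim u O) g (hP.mdifferentiableAt hx) (sim u O).differentiableAt
    p q).trans ?_
  simp only [ContinuousLinearMap.fderiv, sim_apply, rot, Matrix.smul_apply, Matrix.of_apply,
    smul_eq_mul, Finset.mul_sum, PiLp.smul_apply]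
  exact Finset.sum_congr rfl fun a _ => Finset.sum_congr rfl fun b _ => by ring

end Crest.Agent.N207.I

end
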