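import Crest.Agent.N207.Lg.Fun1
import Crest.Agent.N207.Sk.Dyn

/-!
# Row 207, block I (helper26): the exterior action is the integral of the scalar curvature
-/

set_option autoImplicit false

open scoped ContDiff Topology
open Set MeasureTheory Filter
open Crest.GeometryTopology.CoordMetric Crest.GeometryTopology.ChartCurvature
  Crest.GeometryTopology.MetricFamily

noncomputable section

namespace Crest.Agent.N207.I

/-- the exterior integral of the scalar curvature -/
def aS (G : MetricField 4) (a : ℝ) : ℝ :=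
  ∫ x in {x : E4 | a < ‖x‖}, (1 - Sk.cut a x) * (√(G x).det * scalarCurv G x)

variable {G : MetricField 4} {a a0 R : ℝ} {x : E4} {f : E4 → ℝ}

theorem cut_sm (a : ℝ) : ContDiff ℝ ∞ (Sk.cut a) :=
  Real.smoothTransition.contDiff.comp (contDiff_const.sub ((contDiff_norm_sq ℝ).div_const _))

theorem cut_one (ha : 0 < a) (h : ‖x‖ ^ 2 ≤ 2 * a ^ 2) : Sk.cut a x = 1 :=
  Real.smoothTransition.one_of_one_le (by
    have : ‖x‖ ^ 2 / a ^ 2 ≤ 2 := by rw [div_le_iff₀ (by positivity)]; linarith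
    linarith)

theorem cut_zero (ha : 0 < a) (h : 3 * a ^ 2 ≤ ‖x‖ ^ 2) : Sk.cut a x = 0 :=
  Real.smoothTransition.zero_of_nonpos (by
    have : 3 ≤ ‖x‖ ^ 2 / a ^ 2 := by rw [le_div_iff₀ (by positivity)]; linarith
    linarith)

theorem cut_nonneg (a : ℝ) (x : E4) : 0 ≤ Sk.cut a x := Real.smoothTransition.nonneg _

theorem cut_le_one (a : ℝ) (x : E4) : Sk.cut a x ≤ 1 := Real.smoothTransition.le_one _

theorem open_ext (a : ℝ) : IsOpen {x : E4 | a < ‖x‖} := isOpen_lt continuous_const continuous_norm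

theorem cf_zero (ha : 0 < a) (f : E4 → ℝ) (hx : ‖x‖ ≤ a) :
    (fun y => (1 - Sk.cut a y) * f y) =ᶠ[𝓝 x] fun _ => 0 := by
  have h : {y : E4 | ‖y‖ ^ 2 < 2 * a ^ 2} ∈ 𝓝 x :=
    (isOpen_lt (by fun_prop) continuous_const).mem_nhds (by
      show ‖x‖ ^ 2 < 2 * a ^ 2
      nlinarith [norm_nonneg x])
  filter_upwards [h] with y hy
  rw [cut_one ha (le_of_lt hy)]; simp

theorem cf_sm (ha0 : 0 < a0) (ha : a0 ≤ a) (hf : ContDiffOn ℝ ∞ f {x | a0 < ‖x‖}) :
    ContDiff ℝ ∞ fun y => (1 - Sk.cut a y) * f y := by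
  refine contDiff_iff_contDiffAt.2 fun x => ?_
  by_cases hx : a0 < ‖x‖
  · exact (contDiff_const.sub (cut_sm a)).contDiffAt.mul
      (hf.contDiffAt ((open_ext a0).mem_nhds hx))
  · exact contDiffAt_const.congr_of_eventuallyEq
      (cf_zero (ha0.trans_le ha) f ((not_lt.1 hx).trans ha))

theorem cf_supp (hz : ∀ x, R < ‖x‖ → f x = 0) :
    HasCompactSupport fun y => (1 - Sk.cut a y) * f y :=
  HasCompactSupport.intro (isCompact_closedBall (0 : E4) R) fun x hx => by
    rw [hz x (by simpa using hx), mul_zero]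

theorem integral_pd (hf : ContDiff ℝ ∞ f) (hc : HasCompactSupport f) (i : Fin 4) :
    Integrable (pderiv i f) ∧ ∫ x, pderiv i f x = 0 := by
  have hi : Integrable (pderiv i f) :=
    ((hf.continuous_fderiv (by simp)).clm_apply continuous_const).integrable_of_hasCompactSupport
      (hc.fderiv_apply ℝ _)
  refine ⟨hi, ?_⟩
  have h := integral_mul_fderiv_eq_neg_fderiv_mul_of_integrable (μ := (volume : Measure E4))
    (f := fun _ : E4 => (1 : ℝ)) (g := f) (v := EuclideanSpace.single i 1) (by simp)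
    (by simp only [one_mul]; exact hi)
    (by simpa using hf.continuous.integrable_of_hasCompactSupport hc) (by simp)
    (fun x _ => (hf.differentiable (by simp)) x)
  simpa [pderiv] using h

theorem chr_flat (x : E4) : christoffel (fun _ : E4 => (1 : Matrix (Fin 4) (Fin 4) ℝ)) x = 0 := by
  funext k i j
  simp [christoffel, pd_const]

theorem ricci_flat (x : E4) : ricci (fun _ : E4 => (1 : Matrix (Fin 4) (Fin 4) ℝ)) x = 0 := by
  funext i j
  simp [ricci, chr_flat, pd_const]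

theorem riem_flat {U : Set E4} (hU : IsOpen U) :
    IsRiemannianOn (fun _ : E4 => (1 : Matrix (Fin 4) (Fin 4) ℝ)) U :=
  ⟨hU, fun _ _ => contDiffOn_const, fun _ _ => Matrix.PosDef.one⟩

theorem ev_flat (hR : ∀ x : E4, R ≤ ‖x‖ → G x = 1) (hx : R < ‖x‖) : G =ᶠ[𝓝 x] fun _ => 1 := by
  filter_upwards [(open_ext R).mem_nhds hx] with y hy using hR y (le_of_lt hy)

theorem scal_flat (hR : ∀ x : E4, R ≤ ‖x‖ → G x = 1) (hx : R < ‖x‖) : scalarCurv G x = 0 := by
  rw [scal_congr (ev_flat hR hx)]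
  simp [scalarCurv, ricci_flat]

theorem flux_flat (hR : ∀ x : E4, R ≤ ‖x‖ → G x = 1) (i : Fin 4) (hx : R < ‖x‖) :
    Sk.flux G i x = 0 := by
  simp [Sk.flux, chr_congr (ev_flat hR hx), chr_flat]

theorem flux_sm {U : Set E4} (hG : IsRiemannianOn G U) (i : Fin 4) :
    ContDiffOn ℝ ∞ (Sk.flux G i) U :=
  (sm_sqrt_det hG).mul ((ContDiffOn.sum fun _ _ => ContDiffOn.sum fun _ _ =>
    (sm_inv hG _ _).mul (sm_chr hG _ _ _)).sub (ContDiffOn.sum fun _ _ =>
      (sm_inv hG _ _).mul (ContDiffOn.sum fun _ _ => sm_chr hG _ _ _)))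

/-- `√g R = lagr + div flux` -/
theorem eh_flat {U : Set E4} (hG : IsRiemannianOn G U) (hx : x ∈ U) :
    √(G x).det * scalarCurv G x = Sk.lagr G x + ∑ i, pderiv i (Sk.flux G i) x := by
  have hb := riem_flat hG.isOpen
  have h := Lg.eh_eq hb hG hx
  have h1 : Lg.lagF (fun _ => 1) G x = Sk.lagr G x := by
    simp only [Lg.lagF, Lg.lag, Lg.ell, Lg.chr_TG hb hG hx, chr_flat, ricci_flat, sub_zero]
    simp [Lg.tr2, Lg.cc, Sk.lagr, Lg.sq, Lg.iv, Finset.sum_sub_distrib]
  have h2 : ∀ i, pderiv i (Lg.fluxF (fun _ => 1) G i) x = pderiv i (Sk.flux G i) x := fun i => by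
    refine pd_congr_on i hG.isOpen hx fun y hy => ?_
    simp only [Lg.fluxF, Lg.flux, Lg.fl, Lg.chr_TG hb hG hy, chr_flat, sub_zero, Sk.flux, Lg.sq,
      Finset.mul_sum]
    congr 2
    refine Finset.sum_congr rfl fun j _ => Finset.sum_congr rfl fun k _ => ?_
    rw [Lg.iv_sy hG hy j i]; rfl
  rw [h1] at h
  simpa only [h2, Lg.sq] using h

theorem aS_int (ha0 : 0 < a0) (ha : a0 ≤ a) (hG : IsRiemannianOn G {x | a0 < ‖x‖})
    (hR : ∃ R : ℝ, ∀ x : E4, R ≤ ‖x‖ → G x = 1) :
    Integrable fun x => (1 - Sk.cut a x) * (√(G x).det * scalarCurv G x) := by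
  obtain ⟨R, hR⟩ := hR
  exact (cf_sm ha0 ha ((sm_sqrt_det hG).mul (sm_scal hG))).continuous.integrable_of_hasCompactSupport
    (cf_supp (R := R) fun x hx => by rw [scal_flat hR hx, mul_zero])

/-- (A1) -/
theorem act_eq (ha0 : 0 < a0) (ha : a0 ≤ a) (hG : IsRiemannianOn G {x | a0 < ‖x‖})
    (hR : ∃ R : ℝ, ∀ x : E4, R ≤ ‖x‖ → G x = 1) : Sk.act G a = aS G a := by
  have hi := aS_int ha0 ha hG hR
  obtain ⟨R, hR⟩ := hR
  have hp := fun i => integral_pd (cf_sm ha0 ha (flux_sm hG i))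
    (cf_supp (a := a) (R := R) fun x hx => flux_flat hR i hx) i
  have h0 : ∀ i, ∫ x in {x : E4 | a < ‖x‖},
      pderiv i (fun y => (1 - Sk.cut a y) * Sk.flux G i y) x = 0 := fun i => by
    rw [setIntegral_eq_integral_of_forall_compl_eq_zero, (hp i).2]
    intro x hx
    rw [pd_congr i (cf_zero (ha0.trans_le ha) _ (not_lt.1 hx)), pd_const]
  have e : Sk.act G a = ∫ x in {x : E4 | a < ‖x‖},
      ((1 - Sk.cut a x) * (√(G x).det * scalarCurv G x) -
        ∑ i, pderiv i (fun y => (1 - Sk.cut a y) * Sk.flux G i y) x) := by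
    refine setIntegral_congr_fun (open_ext a).measurableSet fun x hx => ?_
    have hx' : x ∈ {x : E4 | a0 < ‖x‖} := ha.trans_lt hx
    have hc : DifferentiableAt ℝ (Sk.cut a) x := (cut_sm a).differentiable (by simp) x
    have h1 : ∀ i, pderiv i (fun y => (1 - Sk.cut a y) * Sk.flux G i y) x =
        (1 - Sk.cut a x) * pderiv i (Sk.flux G i) x - pderiv i (Sk.cut a) x * Sk.flux G i x :=
      fun i => by
        rw [pd_mul i ((differentiableAt_const _).fun_sub hc) (dAt (flux_sm hG i) hG.isOpen hx'),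
          pd_sub i (differentiableAt_const _) hc, pd_const]
        ring
    simp only [h1, eh_flat hG hx', Finset.sum_sub_distrib, ← Finset.mul_sum]
    ring
  rw [e, integral_sub hi.integrableOn (integrable_finsetSum _ fun i _ => (hp i).1.integrableOn),
    integral_finsetSum _ fun i _ => (hp i).1.integrableOn]
  simp [h0, aS]

end Crest.Agent.N207.I

end
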