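import Crest.Agent.N207.I.Act1
import Crest.Agent.N207.I.NkRot

/-!
# Row 207, block I (helper26): scaling of the exterior action
-/

set_option autoImplicit false

open scoped ContDiff Topology
open Set MeasureTheory Filter
open Crest.GeometryTopology.CoordMetric Crest.GeometryTopology.ChartCurvature
  Crest.GeometryTopology.MetricFamily

noncomputable section

namespace Crest.Agent.N207.I

variable {G : MetricField 4} {a a0 s : ℝ} {x : E4}

theorem det_rot (G : MetricField 4) (s : ℝ) (O : Iso4) (x : E4) :
    (rot G s O x).det = (G (s • O x)).det := by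
  set A : Matrix (Fin 4) (Fin 4) ℝ := Matrix.of fun a p => O (AI.eb p) a with hA
  have h1 : A.transpose * A = 1 := by
    ext p q
    have := O.inner_map_map (AI.eb q) (AI.eb p)
    rw [PiLp.inner_apply, EuclideanSpace.inner_single_left] at this
    simpa [hA, Matrix.mul_apply, Matrix.one_apply, PiLp.single_apply, eq_comm] using this
  have h2 : rot G s O x = A.transpose * G (s • O x) * A := by
    ext p q
    simp only [rot, hA, Matrix.mul_apply, Matrix.of_apply, Matrix.transpose_apply, Finset.sum_mul]
    rw [Finset.sum_comm]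
    exact Finset.sum_congr rfl fun b _ => Finset.sum_congr rfl fun a _ => by ring
  have h3 := congrArg Matrix.det h1
  rw [Matrix.det_mul, Matrix.det_one] at h3
  rw [h2, Matrix.det_mul, Matrix.det_mul]
  linear_combination (G (s • O x)).det * h3

theorem scal_rot (hs : 0 < s) (O : Iso4) {U : Set E4} (h : IsRiemannianOn G U) (hx : s • O x ∈ U) :
    scalarCurv (rot G s O) x = s ^ 2 * scalarCurv G (s • O x) := by
  have h1 := AI.scalarCurv_pull (pull_rot hs O h) hx
  rw [sim_apply] at h1
  rw [← h1]
  simp only [scalarCurv, ricci_csmul (pow_pos hs 2).ne', minv_smul (pow_pos hs 2).ne',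
    Matrix.smul_apply, smul_eq_mul, Finset.mul_sum]
  refine Finset.sum_congr rfl fun i _ => Finset.sum_congr rfl fun j _ => ?_
  field_simp

theorem cut_sim (hs : 0 < s) (O : Iso4) (a : ℝ) (x : E4) :
    Sk.cut a (s • O x) = Sk.cut (a / s) x := by
  unfold Sk.cut
  rw [norm_sim hs, div_pow, mul_pow, div_div_eq_mul_div, mul_comm]

theorem integral_sim (hs : 0 < s) (O : Iso4) (f : E4 → ℝ) :
    ∫ x, f (s • O x) = (s ^ 4)⁻¹ * ∫ y, f y := by
  rw [O.measurePreserving.integral_comp O.toHomeomorph.measurableEmbedding fun z => f (s • z),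
    Measure.integral_comp_smul, finrank_euclideanSpace_fin, abs_of_pos (by positivity),
    smul_eq_mul]

/-- (A2) -/
theorem aS_rot (hs : 0 < s) (O : Iso4) (ha : a0 ≤ a) (hG : IsRiemannianOn G {x | a0 < ‖x‖}) :
    aS G a = s ^ 2 * aS (rot G s O) (a / s) := by
  have h := integral_sim hs O ({x : E4 | a < ‖x‖}.indicator
    fun x => (1 - Sk.cut a x) * (√(G x).det * scalarCurv G x))
  rw [integral_indicator (open_ext a).measurableSet] at h
  have e : aS (rot G s O) (a / s) = s ^ 2 * ∫ x, {x : E4 | a < ‖x‖}.indicator
      (fun x => (1 - Sk.cut a x) * (√(G x).det * scalarCurv G x)) (s • O x) := by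
    rw [aS, ← integral_indicator (open_ext _).measurableSet, ← integral_const_mul]
    refine integral_congr_ae (Eventually.of_forall fun x => ?_)
    have hm : s • O x ∈ {x : E4 | a < ‖x‖} ↔ x ∈ {x : E4 | a / s < ‖x‖} := by
      simp only [mem_ofPred_eq, norm_sim hs, div_lt_iff₀' hs]
    by_cases hx : x ∈ {x : E4 | a / s < ‖x‖}
    · simp only [indicator_of_mem hx, indicator_of_mem (hm.2 hx)]
      rw [det_rot, scal_rot hs O hG (ha.trans_lt (hm.2 hx) :), cut_sim hs]
      ring
    · simp only [indicator_of_notMem hx, indicator_of_notMem (mt hm.1 hx), mul_zero]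
  rw [e, h, aS]
  field_simp

end Crest.Agent.N207.I

end
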