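import Crest.Agent.N207.I.Act2
import Crest.Agent.N207.I.Car3
import Crest.Agent.N207.Sk.Sta2

/-!
# Row 207, block I (helper26): the action of a tree is the exterior action of its root
-/

set_option autoImplicit false

open scoped ContDiff Topology
open Set MeasureTheory Filter Metric
open Crest.GeometryTopology.CoordMetric Crest.GeometryTopology.ChartCurvature
  Crest.GeometryTopology.MetricFamily

noncomputable section

namespace Crest.Agent.N207.I

/-- the volume of the unit ball -/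
def vB : ℝ := (volume : Measure E4).real (ball 0 1)

theorem vB_nonneg : 0 ≤ vB := measureReal_nonneg

theorem sqrt_det_le {A : Matrix (Fin 4) (Fin 4) ℝ} {b : ℝ} (h : ∀ p q, |A p q| ≤ b) :
    √A.det ≤ 5 * b ^ 2 := by
  have h1 := Matrix.det_le (abv := AbsoluteValue.abs) h
  simp only [AbsoluteValue.abs_apply, Fintype.card_fin, nsmul_eq_mul] at h1
  refine Real.sqrt_le_iff.2 ⟨by positivity, (le_abs_self _).trans (h1.trans ?_)⟩
  have : (0 : ℝ) ≤ b ^ 4 := by positivity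
  norm_num [Nat.factorial]
  nlinarith

section
variable {U : Set E4} {f : E4 → ℝ} {C ρ : ℝ}

theorem bd_int (hU : MeasurableSet U) (hC : 0 ≤ C) (hρ : 0 ≤ ρ) (hf : ∀ x ∈ U, ‖x‖ < ρ → |f x| ≤ C)
    (hz : ∀ x ∈ U, ρ ≤ ‖x‖ → f x = 0) : |∫ x in U, f x| ≤ C * (ρ ^ 4 * vB) := by
  rw [setIntegral_eq_of_subset_of_forall_sdiff_eq_zero hU (inter_subset_left (t := ball 0 ρ))
    fun x hx => hz x hx.1 (by simpa [hx.1] using hx.2)]
  have h1 := norm_setIntegral_le_of_norm_le_const (μ := (volume : Measure E4)) (f := f)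
    (s := U ∩ ball 0 ρ) ((measure_mono inter_subset_right).trans_lt measure_ball_lt_top)
    fun x hx => hf x hx.1 (mem_ball_zero_iff.1 hx.2)
  refine h1.trans (mul_le_mul_of_nonneg_left ((measureReal_mono inter_subset_right
    measure_ball_lt_top.ne).trans_eq ?_) hC)
  rw [measureReal_def, Measure.addHaar_ball _ _ hρ, ENNReal.toReal_mul,
    ENNReal.toReal_ofReal (by positivity), finrank_euclideanSpace_fin]
  rfl

theorem bd_intg (hU : MeasurableSet U) (hc : ContinuousOn f U) (hf : ∀ x ∈ U, ‖x‖ < ρ → |f x| ≤ C)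
    (hz : ∀ x ∈ U, ρ ≤ ‖x‖ → f x = 0) : IntegrableOn f U := by
  have hm : MeasurableSet (U ∩ ball (0 : E4) ρ) := hU.inter measurableSet_ball
  have h1 : IntegrableOn f (U ∩ ball 0 ρ) :=
    ⟨(hc.mono inter_subset_left).aestronglyMeasurable hm, .restrict_of_bounded (C := C)
      ((measure_mono inter_subset_right).trans_lt measure_ball_lt_top)
      ((ae_restrict_iff' hm).2 (Eventually.of_forall fun x hx =>
        hf x hx.1 (mem_ball_zero_iff.1 hx.2)))⟩
  exact h1.of_forall_sdiff_eq_zero hU fun x hx => hz x hx.1 (by simpa [hx.1] using hx.2)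

end

namespace TD

variable {M : Type*} {T : TD M} {L : T.V → ℝ} {G : T.S → MetricField 4} {b c : ℝ}

theorem Ok.eps_le_one (h : T.Ok) (hL : T.Long L) (v : T.V) : T.eps L v ≤ 1 := by
  refine h.ind (P := fun v => T.eps L v ≤ 1) (h.eps_root L).le (fun w hw ih => ?_) v
  have h1 := hL w hw
  have h2 := Real.exp_pos (L w)
  have h3 : 1 ≤ Real.exp (L w) := by nlinarith [h.r_lt, h.r_pos]
  rw [h.eps_kid L hw, Real.exp_neg]
  exact mul_le_one₀ ih (by positivity) (inv_le_one_of_one_le₀ h3)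

theorem sqrt_nrm {s : T.S} {x : E4} (hb : ∀ p q, |T.nrm L G s x p q| ≤ b) :
    √(G s x).det ≤ 5 * b ^ 2 * T.eps L (T.un s) ^ 4 := by
  have he := eps_pos L (T.un s)
  refine (sqrt_det_le (b := T.eps L (T.un s) ^ 2 * b) fun p q => ?_).trans_eq (by ring)
  have h1 := hb p q
  simp only [nrm, Matrix.smul_apply, smul_eq_mul, abs_mul] at h1
  rw [abs_of_pos (by positivity), inv_mul_le_iff₀ (by positivity)] at h1
  exact h1

theorem nrm_le_two {s : T.S} {x : E4} (hb : ∀ p q, |dv (T.nrm L G s) p q x| ≤ 1 / 100) (p q : Fin 4) :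
    |T.nrm L G s x p q| ≤ 2 := by
  have h1 := abs_le.1 (hb p q)
  have h2 : 0 ≤ (1 : Matrix (Fin 4) (Fin 4) ℝ) p q ∧ (1 : Matrix (Fin 4) (Fin 4) ℝ) p q ≤ 1 := by
    rw [Matrix.one_apply]; split_ifs <;> norm_num
  simp only [dv] at h1
  exact abs_le.2 ⟨by linarith [h1.1, h2.1], by linarith [h1.2, h2.2]⟩

theorem Ok.χ_le_one (h : T.Ok) (hL : T.Long L) (s : T.S) {x : E4} (hx : x ∈ (T.glob L).U s) :
    T.χ s ((T.glob L).c s x) ≤ 1 :=
  (Finset.single_le_sum (fun a _ => (h.glob_pou hL).nonneg a _) (Finset.mem_univ s)).trans_eq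
    ((h.glob_pou hL).sum s x hx)

theorem card_inv_le (H : Subgroup Iso4) : 0 ≤ (Nat.card H : ℝ)⁻¹ ∧ (Nat.card H : ℝ)⁻¹ ≤ 1 :=
  ⟨by positivity, Nat.cast_inv_le_one _⟩

theorem abs_mul3 {t q r B c : ℝ} (ht : |t| ≤ 1) (hq0 : 0 ≤ q) (hq : q ≤ B) (hr : |r| ≤ c) :
    |t * (q * r)| ≤ B * c := by
  rw [abs_mul, abs_mul, abs_of_nonneg hq0]
  exact (mul_le_of_le_one_left (by positivity) ht).trans
    (mul_le_mul hq hr (abs_nonneg _) (hq0.trans hq))

theorem Ok.den_le (h : T.Ok) (hL : T.Long L) (s : T.S) {x : E4} (hx : x ∈ (T.glob L).U s) {B r : ℝ}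
    (hB : √(G s x).det ≤ B) (hr : |r| ≤ c) : |(T.glob L).den T.χ G s x * r| ≤ B * c := by
  have h1 := card_inv_le ((T.glob L).Γ s)
  have h2 := (h.glob_pou hL).nonneg s ((T.glob L).c s x)
  rw [Atl.den, ← mul_assoc, mul_assoc]
  refine abs_mul3 ?_ (Real.sqrt_nonneg _) hB hr
  rw [abs_of_nonneg (mul_nonneg h1.1 h2)]
  exact mul_le_one₀ h1.2 h2 (h.χ_le_one hL s hx)

theorem act_ball (h : T.Ok) (hL : T.Long L) (a : T.B) (hc0 : 0 ≤ c)
    (hb : ∀ p q, ∀ x : E4, ‖x‖ ≤ 3 / 2 → |T.nrm L G (Sum.inl a) x p q| ≤ b)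
    (hc : ∀ x ∈ (T.glob L).U (Sum.inl a), |scalarCurv (G (Sum.inl a)) x| ≤ c) :
    |∫ x in (T.glob L).U (Sum.inl a), (T.glob L).den T.χ G (Sum.inl a) x *
      scalarCurv (G (Sum.inl a)) x| ≤ 80 * b ^ 2 * vB * c := by
  refine (bd_int (C := 5 * b ^ 2 * c) (ρ := 2) ((h.glob_ok hL).isOpen _).measurableSet
    (by positivity) (by norm_num) (fun x hx _ => ?_) fun x hx h2 =>
      absurd (mem_glob_inl.1 hx) (not_lt.2 h2)).trans_eq (by ring)
  by_cases h0 : T.χ (Sum.inl a) ((T.glob L).c (Sum.inl a) x) = 0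
  · simp only [Atl.den, h0, zero_mul, mul_zero, abs_zero]; positivity
  obtain ⟨y, hy, e⟩ := (h.glob_pou hL).supp _ _ x hx h0
  obtain ⟨γ, -, rfl⟩ := ((h.glob_ok hL).fib _ y ((h.glob_pou hL).sub _ hy) x hx).1 e
  refine h.den_le hL _ hx ((sqrt_nrm fun p q => hb p q _ ?_).trans ?_) (hc _ hx)
  · rw [γ.norm_map]; exact mem_gK_inl.1 hy
  · exact mul_le_of_le_one_right (by positivity)
      (pow_le_one₀ (eps_pos L _).le (h.eps_le_one hL _))

theorem act_neck (h : T.Ok) (hL : T.Long L) {w : T.V} (hw : w ≠ T.root) (hc0 : 0 ≤ c)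
    (hs : ∀ p q, ∀ x ∈ (T.glob L).U (Sum.inr w), |dv (T.nrm L G (Sum.inr w)) p q x| ≤ 1 / 100)
    (hc : ∀ x ∈ (T.glob L).U (Sum.inr w), |scalarCurv (G (Sum.inr w)) x| ≤ c) :
    |∫ x in (T.glob L).U (Sum.inr w), (T.glob L).den T.χ G (Sum.inr w) x *
      scalarCurv (G (Sum.inr w)) x| ≤ 20 * vB * c := by
  have he := eps_pos L w
  have hr := h.r_pos
  refine (bd_int (C := 5 * 2 ^ 2 * T.eps L w ^ 4 * c) (ρ := T.r * Real.exp (L w))
    ((h.glob_ok hL).isOpen _).measurableSet (by positivity) (by positivity)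
    (fun x hx _ => h.den_le hL _ hx (sqrt_nrm (nrm_le_two fun p q => hs p q x hx)) (hc x hx))
    fun x hx h2 => absurd ((mem_glob_inr.1 hx).2 hw) (not_lt.2 h2)).trans ?_
  have h1 : T.eps L w * (T.r * Real.exp (L w)) ≤ 1 := by
    rw [h.eps_kid L hw, Real.exp_neg, mul_assoc, mul_left_comm _ T.r,
      inv_mul_cancel₀ (Real.exp_pos _).ne', mul_one]
    exact mul_le_one₀ (h.eps_le_one hL _) hr.le h.r_lt.le
  have h2 : (T.eps L w * (T.r * Real.exp (L w))) ^ 4 ≤ 1 := pow_le_one₀ (by positivity) h1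
  calc _ = 20 * vB * c * (T.eps L w * (T.r * Real.exp (L w))) ^ 4 := by ring
    _ ≤ _ := mul_le_of_le_one_right (by have := vB_nonneg; positivity) h2

theorem act_root (h : T.Ok) (hL : T.Long L) (hG : (T.glob L).IsMet G) (hF : Sk.Flat T G)
    (hc0 : 0 ≤ c) (hs : ∀ p q, ∀ x ∈ (T.glob L).U (Sum.inr T.root),
      |dv (T.nrm L G (Sum.inr T.root)) p q x| ≤ 1 / 100)
    (hc : ∀ x ∈ (T.glob L).U (Sum.inr T.root), ‖x‖ < 6 → |scalarCurv (G (Sum.inr T.root)) x| ≤ c) :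
    |(∫ x in (T.glob L).U (Sum.inr T.root), (T.glob L).den T.χ G (Sum.inr T.root) x *
      scalarCurv (G (Sum.inr T.root)) x) - aS (G (Sum.inr T.root)) (9 / 4) /
        Nat.card (T.Γ T.root)| ≤ 5120 * vB * c := by
  have hU : (T.glob L).U (Sum.inr T.root) = {x : E4 | 1 < ‖x‖} := by
    ext x; simp [mem_glob_inr]
  have hR := hG.riem (Sum.inr T.root)
  have hm := hR.isOpen.measurableSet
  set G0 := G (Sum.inr T.root) with hG0
  have hi := aS_int (a := 9 / 4) one_pos (by norm_num) (hU ▸ hR) hF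
  set f : E4 → ℝ := fun x => (T.χ (Sum.inr T.root) ((T.glob L).c (Sum.inr T.root) x) -
    (1 - Sk.cut (9 / 4) x)) * (√(G0 x).det * scalarCurv G0 x) with hf
  have hb : ∀ x ∈ (T.glob L).U (Sum.inr T.root), ‖x‖ < 4 → |f x| ≤ 20 * c := fun x hx h4 => by
    refine abs_mul3 (abs_le.2 ⟨?_, ?_⟩) (Real.sqrt_nonneg _)
      ((sqrt_nrm (nrm_le_two fun p q => hs p q x hx)).trans_eq ?_) (hc x hx (by linarith))
    · linarith [(h.glob_pou hL).nonneg (Sum.inr T.root) ((T.glob L).c (Sum.inr T.root) x),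
        cut_nonneg (9 / 4) x]
    · linarith [h.χ_le_one hL _ hx, cut_le_one (9 / 4) x]
    · rw [show T.un (Sum.inr T.root) = T.root from rfl, h.eps_root]; norm_num
  have hz : ∀ x ∈ (T.glob L).U (Sum.inr T.root), 4 ≤ ‖x‖ → f x = 0 := fun x _ h4 => by
    simp only [hf]
    rw [h.glob_χ_mid hL (by linarith) (fun hw => absurd rfl hw), if_pos rfl,
      cut_zero (by norm_num) (by nlinarith)]
    simp
  have hfi : IntegrableOn f ((T.glob L).U (Sum.inr T.root)) := bd_intg hm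
    ((((h.glob_pou hL).sm _ _).continuousOn.sub (continuousOn_const.sub
      (cut_sm _).continuous.continuousOn)).mul
      ((sm_sqrt_det hR).continuousOn.mul (sm_scal hR).continuousOn)) hb hz
  have e1 : aS G0 (9 / 4) = ∫ x in (T.glob L).U (Sum.inr T.root),
      (1 - Sk.cut (9 / 4) x) * (√(G0 x).det * scalarCurv G0 x) := by
    refine (setIntegral_eq_of_subset_of_forall_sdiff_eq_zero hm (fun x hx => ?_)
      fun x hx => ?_).symm
    · rw [hU]; exact lt_trans (by norm_num) (show (9 / 4 : ℝ) < ‖x‖ from hx)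
    · exact (cf_zero (by norm_num) (fun x => √(G0 x).det * scalarCurv G0 x)
        (not_lt.1 hx.2)).self_of_nhds
  have e2 : ∫ x in (T.glob L).U (Sum.inr T.root), (T.glob L).den T.χ G (Sum.inr T.root) x *
      scalarCurv G0 x = (Nat.card (T.Γ T.root) : ℝ)⁻¹ *
        ((∫ x in (T.glob L).U (Sum.inr T.root), f x) + aS G0 (9 / 4)) := by
    rw [e1, ← integral_add hfi hi.integrableOn, ← integral_const_mul]
    refine integral_congr_ae (Eventually.of_forall fun x => ?_)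
    simp only [Atl.den, hf, ← hG0]
    rw [show (T.glob L).Γ (Sum.inr T.root) = T.Γ T.root from rfl]
    ring
  have h1 := bd_int hm (by positivity) (by norm_num) hb hz
  have h2 := card_inv_le (T.Γ T.root)
  rw [e2, mul_add, div_eq_inv_mul (aS G0 (9 / 4)), add_sub_cancel_right, abs_mul, abs_of_nonneg h2.1]
  exact (mul_le_of_le_one_left (abs_nonneg _) h2.2).trans (h1.trans_eq (by ring))

theorem act_pt (h : T.Ok) (hL : T.Long L) (hG : (T.glob L).IsMet G) (hF : Sk.Flat T G)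
    (hb : ∀ a p q, ∀ x : E4, ‖x‖ ≤ 3 / 2 → |T.nrm L G (Sum.inl a) x p q| ≤ b)
    (hs : ∀ w p q, ∀ x ∈ (T.glob L).U (Sum.inr w), |dv (T.nrm L G (Sum.inr w)) p q x| ≤ 1 / 100)
    (hc : ∀ s, ∀ x ∈ (T.glob L).U s, (s = Sum.inr T.root → ‖x‖ < 6) → |scalarCurv (G s) x| ≤ c) :
    |Sk.SR T L G - aS (G (Sum.inr T.root)) (9 / 4) / Nat.card (T.Γ T.root)| ≤
      Fintype.card T.S * ((80 * b ^ 2 + 5120) * vB) * c := by
  have hc0 : 0 ≤ c := (abs_nonneg _).trans (hc (Sum.inr T.root) (EuclideanSpace.single 0 2)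
    (by simp [mem_glob_inr]) fun _ => by norm_num)
  have hv := vB_nonneg
  have h1 : 0 ≤ b ^ 2 * vB * c := by positivity
  have h2 : 0 ≤ vB * c := by positivity
  have e : Sk.SR T L G - aS (G (Sum.inr T.root)) (9 / 4) / Nat.card (T.Γ T.root) =
      ∑ s, ((∫ x in (T.glob L).U s, (T.glob L).den T.χ G s x * scalarCurv (G s) x) -
        if s = Sum.inr T.root then aS (G (Sum.inr T.root)) (9 / 4) / Nat.card (T.Γ T.root)
        else 0) := by
    simp [Sk.SR, Atl.int]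
  rw [e, mul_assoc, ← nsmul_eq_mul, ← Finset.card_univ]
  refine (Finset.abs_sum_le_sum_abs _ _).trans (Finset.sum_le_card_nsmul _ _ _ fun s _ => ?_)
  rcases s with a | w
  · rw [if_neg Sum.inl_ne_inr, sub_zero]
    refine (act_ball h hL a hc0 (hb a) fun x hx => hc _ x hx (by simp)).trans ?_
    nlinarith
  · by_cases hw : w = T.root
    · subst hw
      rw [if_pos rfl]
      refine (act_root h hL hG hF hc0 (hs _) fun x hx h6 => hc _ x hx fun _ => h6).trans ?_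
      nlinarith
    · rw [if_neg (by simpa using hw), sub_zero]
      refine (act_neck h hL hw hc0 (hs w) fun x hx => hc _ x hx (by simp [hw])).trans ?_
      nlinarith

/-- (A3) -/
theorem Seq.act_le {ι : Type} {g : T.V → T.S → MetricField 4} {γ : ℝ} {l : Filter ι}
    {L : ι → T.V → ℝ} {G : ι → T.S → MetricField 4} {c : ι → ℝ} (hS : T.Seq g γ l L G) (h : T.Ok)
    (hF : ∀ᶠ i in l, Sk.Flat T (G i))
    (hc : ∀ᶠ i in l, ∀ s, ∀ x ∈ (T.glob (L i)).U s, (s = Sum.inr T.root → ‖x‖ < 6) →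
      |scalarCurv (G i s) x| ≤ c i) :
    ∃ C : ℝ, 0 ≤ C ∧ ∀ᶠ i in l, |Sk.SR T (L i) (G i) - aS (G i (Sum.inr T.root)) (9 / 4) /
      Nat.card (T.Γ T.root)| ≤ C * c i := by
  have h1 : ∀ j : T.B × Fin 4 × Fin 4, ∃ C : ℝ, ∀ᶠ i in l, ∀ x : E4, ‖x‖ ≤ 3 / 2 →
      |T.nrm (L i) (G i) (Sum.inl j.1) x j.2.1 j.2.2| ≤ C := fun j => by
    have h0 : Jt.UB l (fun i x => T.nrm (L i) (G i) (Sum.inl j.1) x j.2.1 j.2.2)
        fun _ => closedBall 0 (3 / 2) := Jt.GE.left (hS.ball j.1 j.2.1 j.2.2 _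
      (isCompact_closedBall 0 (3 / 2)) (closedBall_subset_ball (by norm_num)))
    obtain ⟨C, hC⟩ := (Jt.ub_iff.1 h0).2 0
    exact ⟨C, hC.mono fun i hi x hx => by
      simpa [norm_iteratedFDeriv_zero] using hi x (mem_closedBall_zero_iff.2 hx)⟩
  choose C hC using h1
  obtain ⟨b, hb⟩ := (Set.finite_range C).bddAbove
  refine ⟨Fintype.card T.S * ((80 * b ^ 2 + 5120) * vB), by have := vB_nonneg; positivity, ?_⟩
  filter_upwards [eventually_all.2 hC, hS.met, hS.small, hF, hc] with i h1 h2 h3 h4 h5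
  exact act_pt h h2.1 h2.2 h4
    (fun a p q x hx => (h1 (a, p, q) x hx).trans (hb (mem_range_self (a, p, q)))) h3 h5

end TD

end Crest.Agent.N207.I

end
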