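import Crest.Agent.N207.I.NkRot
import Crest.Agent.N207.I.Iso
import Crest.Agent.N207.Sk.Dyn

/-!
# Row 207, block I (helper56): rescaled necks with a fixed deck group
-/

set_option autoImplicit false

open scoped ContDiff Topology Manifold
open Set Filter Metric
open Crest.GeometryTopology.CoordMetric Crest.Agent.R202.Tens

noncomputable section

namespace Crest.Agent.N207.I

open Jt AI Sk

/-- `Γ0 = O⁻¹ Γ O` -/
def Cj (Γ0 : Subgroup Iso4) (O : Iso4) (Γ : Subgroup Iso4) : Prop := ∀ γ, γ ∈ Γ0 ↔ O * γ * O⁻¹ ∈ Γ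

variable {Γ0 Γ : Subgroup Iso4} {O : Iso4} {s : ℝ}

/-- conjugate groups are isomorphic -/
def Cj.equiv (h : Cj Γ0 O Γ) : Γ0 ≃ Γ where
  toFun γ := ⟨O * γ * O⁻¹, (h γ).1 γ.2⟩
  invFun γ := ⟨O⁻¹ * γ * O, (conj_mem h γ).1 γ.2⟩
  left_inv γ := Subtype.ext (by group)
  right_inv γ := Subtype.ext (by group)

theorem Cj.card (h : Cj Γ0 O Γ) : Nat.card Γ0 = Nat.card Γ := Nat.card_congr h.equiv

theorem Cj.grp (h : Cj Γ0 O Γ) (hΓ : Grp Γ) : Grp Γ0 :=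
  ⟨have := hΓ.fin; Finite.of_equiv _ h.equiv.symm, conj_ne_bot h hΓ.ne, conj_free h hΓ.free⟩

/-- along an ultrafilter, groups of bounded order are conjugate to a fixed one -/
theorem exists_cj {ι : Type*} (U : Ultrafilter ι) (Γ : ι → Subgroup Iso4) (n0 : ℕ)
    (h : ∀ᶠ i in U, Grp (Γ i) ∧ Nat.card (Γ i) ≤ n0) :
    ∃ (Γ0 : Subgroup Iso4) (O : ι → Iso4), Grp Γ0 ∧ ∀ᶠ i in U, Cj Γ0 (O i) (Γ i) := by
  obtain ⟨Γ0, O, -, -, -, h1⟩ := rig U Γ n0 (h.mono fun i hi => ⟨hi.1.fin, hi.2⟩)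
  obtain ⟨i, hi, hi'⟩ := (h.and h1).exists
  exact ⟨Γ0, O, Cj.grp hi' hi.1, h1⟩

theorem sim_mem_shell (hs : 0 < s) (O : Iso4) {a b : ℝ} {x : E4} :
    s • O x ∈ shell a b ↔ x ∈ shell (a / s) (b / s) := by
  simp only [shell, mem_setOf_eq, norm_sim hs, div_lt_iff₀ hs, lt_div_iff₀ hs, mul_comm s]

theorem image_sim {M : Type*} (hs : 0 < s) (O : Iso4) (Ψ : E4 → M) {P Q : ℝ → Prop}
    (h : ∀ r, P r ↔ Q (s * r)) : (fun x => Ψ (s • O x)) '' {x | P ‖x‖} = Ψ '' {y | Q ‖y‖} := by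
  ext p
  constructor
  · rintro ⟨x, hx, rfl⟩
    exact ⟨_, by rw [mem_setOf_eq, norm_sim hs]; exact (h _).1 hx, rfl⟩
  · rintro ⟨y, hy, rfl⟩
    have e : s • O (O.symm (s⁻¹ • y)) = y := by rw [O.apply_symm_apply, smul_inv_smul₀ hs.ne']
    refine ⟨O.symm (s⁻¹ • y), (h _).2 ?_, by simp only [e]⟩
    rw [← norm_sim hs O, e]
    exact hy

/-- the neck `N` in the unit `s`, rotated by `O`, with deck group `Γ0` -/
def _root_.Crest.Agent.N207.Sk.Nk.rs {M : Type*} (N : Nk M) (s : ℝ) (O : Iso4)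
    (Γ0 : Subgroup Iso4) : Nk M := ⟨Γ0, fun x => N.Ψ (s • O x), N.In, N.a / s, N.b / s⟩

theorem rs_image {M : Type*} (N : Nk M) (hs : 0 < s) (O : Iso4) (Γ0 : Subgroup Iso4) (r r' : ℝ) :
    (N.rs s O Γ0).Ψ '' shell r r' = N.Ψ '' shell (s * r) (s * r') :=
  image_sim hs O N.Ψ (P := fun t => r < t ∧ t < r') (Q := fun t => s * r < t ∧ t < s * r')
    fun t => by simp only [mul_lt_mul_iff_right₀ hs]

theorem rs_Om {M : Type*} (N : Nk M) (hs : 0 < s) (O : Iso4) (Γ0 : Subgroup Iso4) (r : ℝ) :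
    (N.rs s O Γ0).Om r = N.Om (s * r) := by
  rw [Nk.Om, rs_image N hs, Nk.Om]
  show _ ∪ N.Ψ '' shell (s * (N.a / s)) _ = _
  rw [mul_div_cancel₀ _ hs.ne']
  rfl

variable {M : Type*} [TopologicalSpace M] [ChartedSpace E4 M] [IsManifold 𝓘(ℝ, E4) ∞ M]
  {N : Nk M}

theorem top_rs (hN : N.Top) (hs : 0 < s) (h : Cj Γ0 O N.Γ) : (N.rs s O Γ0).Top := by
  have e : shell (N.a / s) (N.b / s) = {x | s • O x ∈ shell N.a N.b} :=
    Set.ext fun x => (sim_mem_shell hs O).symm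
  refine ⟨h.grp hN.grp, div_pos hN.a_pos hs, div_lt_div_of_pos_right hN.a_lt hs, ?_,
    fun x hx y hy => ?_, fun x hx => hN.disj _ ((sim_mem_shell hs O).2 hx), fun r hr => ?_,
    fun r hr => ?_, hN.ne⟩
  · show Par _ (shell (N.a / s) (N.b / s))
    rw [e]; exact par_rot hs O hN.par
  · have h1 := hN.fib _ ((sim_mem_shell hs O).2 hx) _ ((sim_mem_shell hs O).2 hy)
    refine conj_chart h (fun z => N.Ψ (s • z)) x y (h1.trans ?_)
    simp only [map_smul, (smul_right_injective E4 hs.ne').eq_iff]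
  · rw [rs_Om N hs]
    exact hN.opn _ ⟨by rw [mul_comm]; exact (div_lt_iff₀ hs).1 hr.1,
      by rw [mul_comm]; exact (le_div_iff₀ hs).1 hr.2⟩
  · have e2 := image_sim hs O N.Ψ (P := fun t => N.a / s < t ∧ t ≤ r)
      (Q := fun t => N.a < t ∧ t ≤ s * r) fun t => by
        simp only [div_lt_iff₀ hs, mul_comm t, mul_le_mul_iff_right₀ hs]
    show IsClosed (N.In ∪ (fun x => N.Ψ (s • O x)) '' {x | N.a / s < ‖x‖ ∧ ‖x‖ ≤ r})
    rw [e2]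
    exact hN.cls _ ⟨by rw [mul_comm]; exact (div_lt_iff₀ hs).1 hr.1,
      by rw [mul_comm]; exact (lt_div_iff₀ hs).1 hr.2⟩

theorem pm_rs (g : Met 4 M) (hN : N.Top) (hs : 0 < s) (O : Iso4) (Γ0 : Subgroup Iso4) {x : E4}
    (hx : x ∈ shell (N.a / s) (N.b / s)) :
    (s ^ 2)⁻¹ • g.pm (N.rs s O Γ0).Ψ x = rot (g.pm N.Ψ) s O x := by
  rw [show (N.rs s O Γ0).Ψ = fun x => N.Ψ (s • O x) from rfl,
    pm_rot g hN.par ((sim_mem_shell hs O).2 hx), inv_smul_smul₀ (pow_pos hs 2).ne']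

theorem isOpen_shell (a b : ℝ) : IsOpen (shell a b) :=
  (isOpen_lt continuous_const continuous_norm).inter (isOpen_lt continuous_norm continuous_const)

theorem pm_rs_ev (g : Met 4 M) (hN : N.Top) (hs : 0 < s) (O : Iso4) (Γ0 : Subgroup Iso4) {x : E4}
    (hx : x ∈ shell (N.a / s) (N.b / s)) :
    (fun y => (s ^ 2)⁻¹ • g.pm (N.rs s O Γ0).Ψ y) =ᶠ[𝓝 x] rot (g.pm N.Ψ) s O :=
  mem_of_superset ((isOpen_shell _ _).mem_nhds hx) fun _ hy => pm_rs g hN hs O Γ0 hy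

/-! ### jets -/

variable {G : MetricField 4} {W : Set E4} {x : E4}

theorem jall_rot (hs : 0 < s) (h : IsRiemannianOn G W) (hx : s • O x ∈ W) (h0 : x ≠ 0)
    {Cs : ℕ → ℝ} {w w' : ℝ} (hJ : JAll Cs G (s • O x) ‖s • O x‖ w) (hw : |w| ≤ w') (k : ℕ)
    (p q : Fin 4) :
    ‖iteratedFDeriv ℝ k (TD.dv (rot G s O) p q) x‖ ≤ 16 * |Cs k| * (‖x‖ ^ k)⁻¹ * w' := by
  have h1 := jet_rot hs h hx (fun a b => hJ k a b) p q
  have h2 : 0 < ‖x‖ ^ k := pow_pos (norm_pos_iff.2 h0) k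
  have h3 : Cs k * w ≤ |Cs k| * w' :=
    (le_abs_self _).trans (by rw [abs_mul]; exact mul_le_mul_of_nonneg_left hw (abs_nonneg _))
  rw [mul_right_comm, ← div_eq_mul_inv, le_div_iff₀ h2]
  linarith

theorem small_rot (hs : 0 < s) (h : IsRiemannianOn G W) (hx : s • O x ∈ W) {m : ℕ} {c : ℝ}
    (hJ : JG m G (s • O x) ‖s • O x‖ c) (p q : Fin 4) : |TD.dv (rot G s O) p q x| ≤ 16 * c := by
  simpa using jet_rot hs h hx (fun a b => hJ 0 (Nat.zero_le _) a b) p q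

theorem symm_rot (hs : 0 < s) (h : IsRiemannianOn G W) (hx : s • O x ∈ W) (p q : Fin 4) :
    rot G s O x p q = rot G s O x q p := by
  simpa using ((riem_rot hs O h).posDef x hx).isHermitian.apply q p

theorem wt_nonneg (a b : ℝ) (y : E4) : 0 ≤ Sk.wt a b y := by unfold Sk.wt; positivity

theorem wt_le_two {a b : ℝ} {y : E4} (ha : 0 < a) (hy : y ∈ shell a b) : Sk.wt a b y ≤ 2 := by
  have h0 : 0 < ‖y‖ := ha.trans hy.1
  have h1 : √(a / ‖y‖) ≤ 1 := Real.sqrt_le_one.2 ((div_le_one h0).2 hy.1.le)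
  have h2 : √(‖y‖ / b) ≤ 1 := Real.sqrt_le_one.2 ((div_le_one (h0.trans hy.2)).2 hy.2.le)
  unfold Sk.wt
  linarith

/-- the weight of the neck in the units of the child -/
theorem wt_sim (hs : 0 < s) (O : Iso4) {a b r L : ℝ} (hr : 0 < r) (hr1 : r ≤ 1) (ha : a ≤ s)
    (hb : r * Real.exp L * s ≤ b) (h0 : x ≠ 0) : Sk.wt a b (s • O x) ≤
      r⁻¹ * (‖x‖ ^ (-(1 / 2) : ℝ) + (Real.exp (-L) * ‖x‖) ^ (1 / 2 : ℝ)) := by
  have hx := norm_pos_iff.2 h0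
  have he := Real.exp_pos L
  have hr2 : 1 ≤ r⁻¹ := (one_le_inv₀ hr).2 hr1
  have h1 : √(a / (s * ‖x‖)) ≤ ‖x‖ ^ (-(1 / 2) : ℝ) := by
    rw [Real.rpow_neg hx.le, ← Real.inv_rpow hx.le, ← Real.sqrt_eq_rpow]
    refine Real.sqrt_le_sqrt ?_
    rw [div_le_iff₀ (by positivity), mul_left_comm, inv_mul_cancel₀ hx.ne', mul_one]
    exact ha
  have h2 : √(s * ‖x‖ / b) ≤ r⁻¹ * (Real.exp (-L) * ‖x‖) ^ (1 / 2 : ℝ) := by
    rw [← Real.sqrt_eq_rpow, ← Real.sqrt_sq (show 0 ≤ r⁻¹ by positivity),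
      ← Real.sqrt_mul (sq_nonneg _)]
    refine Real.sqrt_le_sqrt ?_
    calc s * ‖x‖ / b ≤ s * ‖x‖ / (r * Real.exp L * s) := by gcongr
      _ = r⁻¹ * (Real.exp (-L) * ‖x‖) := by rw [Real.exp_neg]; field_simp
      _ ≤ r⁻¹ ^ 2 * (Real.exp (-L) * ‖x‖) :=
        mul_le_mul_of_nonneg_right (by nlinarith) (by positivity)
  have h3 : 0 ≤ ‖x‖ ^ (-(1 / 2) : ℝ) := by positivity
  rw [Sk.wt, norm_sim hs]
  nlinarith

variable [T3Space M] [ConnectedSpace M] [MeasurableSpace M] [BorelSpace M] {g : Met 4 M}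
  {m : ℕ} {η V : ℝ} {Cs : ℕ → ℝ}

/-- `Bd.neck` for a good neck (`γ = 1/2`) -/
theorem good_jet (hN : N.Top) (hG : Good g N m η Cs V) (hs : 0 < s) (O : Iso4) {r L : ℝ}
    (hr : 0 < r) (hr1 : r ≤ 1) (ha : N.a ≤ s) (hb : r * Real.exp L * s ≤ N.b)
    (hx : x ∈ shell (N.a / s) (N.b / s)) (k : ℕ) (p q : Fin 4) :
    ‖iteratedFDeriv ℝ k (TD.dv (rot (g.pm N.Ψ) s O) p q) x‖ ≤ 16 * |Cs k| * r⁻¹ * (‖x‖ ^ k)⁻¹ *
      (‖x‖ ^ (-(1 / 2) : ℝ) + (Real.exp (-L) * ‖x‖) ^ (1 / 2 : ℝ)) := by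
  have h0 : x ≠ 0 := norm_pos_iff.1 ((div_pos hN.a_pos hs).trans hx.1)
  have hy := (sim_mem_shell hs O).2 hx
  refine (jall_rot hs (hN.par.riem g) hy h0 (hG.all _ hy) ((abs_of_nonneg (wt_nonneg _ _ _)).trans_le
    (wt_sim hs O hr hr1 ha hb h0)) k p q).trans (le_of_eq (by ring))

/-- `Bd.small` for a good neck -/
theorem good_small (hN : N.Top) (hG : Good g N m η Cs V) (hη : 0 ≤ η) (hs : 0 < s) (O : Iso4)
    (hx : x ∈ shell (N.a / s) (N.b / s)) (p q : Fin 4) :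
    |TD.dv (rot (g.pm N.Ψ) s O) p q x| ≤ 32 * η := by
  have hy := (sim_mem_shell hs O).2 hx
  have := mul_le_mul_of_nonneg_left (wt_le_two hN.a_pos hy) hη
  linarith [small_rot hs (hN.par.riem g) hy (hG.jet _ hy) p q]

/-- uniform control of rotated fields on a fixed shell -/
theorem mu_rot {ι : Type} {l : Filter ι} {G : ι → MetricField 4} {W : ι → Set E4} {s : ι → ℝ}
    {O : ι → Iso4} {r1 r2 c : ℝ} (hr : 0 < r1) (hc : 16 * c ≤ 1 / 100) {w : ι → E4 → ℝ} {B : ℝ}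
    (h : ∀ᶠ i in l, 0 < s i ∧ IsRiemannianOn (G i) (W i) ∧ ∀ x ∈ shell r1 r2,
      s i • O i x ∈ W i ∧ JAll Cs (G i) (s i • O i x) ‖s i • O i x‖ (w i x) ∧ |w i x| ≤ B ∧
        JG 0 (G i) (s i • O i x) ‖s i • O i x‖ c) :
    MU l (fun i => rot (G i) (s i) (O i)) fun _ => shell r1 r2 := by
  refine mu_iff.2 ⟨fun p q => ub_of_dv (ub_iff.2 ⟨h.mono fun i hi x hx => ?_, fun k =>
    ⟨16 * |Cs k| * (r1 ^ k)⁻¹ * B, h.mono fun i hi x hx => ?_⟩⟩), 1 / 2, by norm_num,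
    h.mono fun i hi x hx => ?_⟩
  · have := riem_rot hi.1 (O i) hi.2.1
    exact ((this.contDiffOn p q).contDiffAt (this.isOpen.mem_nhds (hi.2.2 x hx).1)).sub
      contDiffAt_const
  · obtain ⟨h1, h2, h3, -⟩ := hi.2.2 x hx
    refine (jall_rot hi.1 hi.2.1 h1 (norm_pos_iff.1 (hr.trans hx.1)) h2 h3 k p q).trans ?_
    have := (abs_nonneg _).trans h3
    have := hx.1.le
    gcongr
  · obtain ⟨h1, -, -, h4⟩ := hi.2.2 x hx
    exact pos_of_small (symm_rot hi.1 hi.2.1 h1) fun p q =>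
      (small_rot hi.1 hi.2.1 h1 h4 p q).trans hc

theorem MU.congr_shell {ι : Type} {l : Filter ι} {G G' : ι → MetricField 4} {r1 r2 : ℝ}
    (h : MU l G fun _ => shell r1 r2) (e : ∀ᶠ i in l, ∀ x ∈ shell r1 r2, G' i x = G i x) :
    MU l G' fun _ => shell r1 r2 :=
  MB.congr h (ev_un.2 (e.mono fun _ hi _ hx =>
    ⟨rfl, mem_of_superset ((isOpen_shell _ _).mem_nhds hx) hi⟩))

/-- uniform control on the collars of good necks -/
theorem mu_good {ι : Type} {l : Filter ι} {g : ι → Met 4 M} {N : ι → Nk M} {s : ι → ℝ}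
    (O : ι → Iso4) (Γ0 : Subgroup Iso4) {r1 r2 : ℝ} (hr : 0 < r1) (hη : 0 ≤ η)
    (hη' : η ≤ 1 / 3200) (h : ∀ᶠ i in l, 0 < s i ∧ (N i).Top ∧ Good (g i) (N i) m η Cs V ∧
      (N i).a ≤ s i * r1 ∧ s i * r2 ≤ (N i).b) :
    MU l (fun i x => (s i ^ 2)⁻¹ • (g i).pm ((N i).rs (s i) (O i) Γ0).Ψ x) fun _ => shell r1 r2 := by
  have h1 : ∀ᶠ i in l, ∀ x ∈ shell r1 r2, x ∈ shell ((N i).a / s i) ((N i).b / s i) :=
    h.mono fun i hi x hx => ⟨lt_of_le_of_lt ((div_le_iff₀' hi.1).2 hi.2.2.2.1) hx.1,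
      hx.2.trans_le ((le_div_iff₀' hi.1).2 hi.2.2.2.2)⟩
  refine MU.congr_shell (mu_rot (G := fun i => (g i).pm (N i).Ψ) (s := s) (O := O) (Cs := Cs)
    (W := fun i => shell (N i).a (N i).b) (c := η * 2) (B := 2)
    (w := fun i x => Sk.wt (N i).a (N i).b (s i • O i x)) hr (by linarith) ?_) ?_
  · filter_upwards [h, h1] with i hi h2
    refine ⟨hi.1, hi.2.1.par.riem _, fun x hx => ?_⟩
    have hy := (sim_mem_shell hi.1 (O i)).2 (h2 x hx)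
    have h3 := wt_le_two hi.2.1.a_pos hy
    exact ⟨hy, hi.2.2.1.all _ hy, (abs_of_nonneg (wt_nonneg _ _ _)).trans_le h3,
      fun k hk a b => (hi.2.2.1.jet _ hy k (hk.trans (Nat.zero_le _)) a b).trans
        (mul_le_mul_of_nonneg_left h3 hη)⟩
  · filter_upwards [h, h1] with i hi h2 x hx using pm_rs _ hi.2.1 hi.1 _ _ (h2 x hx)

/-! ### the exterior field -/

variable {ρ e y : ℝ}

theorem ext_mem (hs : 0 < s) (O : Iso4) (hx : ρ / 32 / s < ‖x‖) : ρ / 32 < ‖s • O x‖ := by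
  rw [norm_sim hs, mul_comm]; exact (div_lt_iff₀ hs).1 hx

theorem ext_pos (h : Ext g N G ρ e y η Cs V) : 0 < ρ := by linarith [h.top.a_pos, h.a_eq]

theorem ext_riem (h : Ext g N G ρ e y η Cs V) (hs : 0 < s) (O : Iso4) :
    IsRiemannianOn (rot G s O) {x | ρ / 32 / s < ‖x‖} := by
  convert riem_rot hs O h.riem using 2 with x
  simp only [mem_setOf_eq, norm_sim hs, div_lt_iff₀ hs, mul_comm s]

theorem ext_inv (h : Ext g N G ρ e y η Cs V) (hs : 0 < s) (hc : Cj Γ0 O N.Γ) {γ : Iso4}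
    (hγ : γ ∈ Γ0) (hx : ρ / 32 / s < ‖x‖) : matT (rot G s O) x = pullT γ (matT (rot G s O)) x :=
  inv_rot (h.inv _ ((hc γ).1 hγ) _ (ext_mem hs O hx))

theorem ext_eq (h : Ext g N G ρ e y η Cs V) (hs : 0 < s) (O : Iso4) (Γ0 : Subgroup Iso4)
    (hx : x ∈ shell (ρ / 32 / s) (ρ / 4 / s)) :
    rot G s O x = (s ^ 2)⁻¹ • g.pm (N.rs s O Γ0).Ψ x := by
  rw [← h.a_eq, ← h.b_eq] at hx
  rw [pm_rs g h.top hs O Γ0 hx, rot, rot, h.eq _ ((sim_mem_shell hs O).2 hx)]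

theorem ext_wt (hρ : 0 < ρ) (hs : ρ / 32 ≤ s) (O : Iso4) (h0 : x ≠ 0) :
    |(ρ / 32 / ‖s • O x‖) ^ 3| ≤ 1 / ‖x‖ ^ 3 := by
  have hs0 : 0 < s := lt_of_lt_of_le (by positivity) hs
  have hx := norm_pos_iff.2 h0
  rw [abs_of_nonneg (by positivity), norm_sim hs0, one_div, ← inv_pow]
  gcongr
  rw [div_le_iff₀ (by positivity), mul_left_comm, inv_mul_cancel₀ hx.ne', mul_one]
  exact hs

/-- fast decay of the exterior field -/
theorem ext_fast (h : Ext g N G ρ e y η Cs V) (hs : ρ / 32 ≤ s) (O : Iso4)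
    (hx : ρ / 32 / s < ‖x‖) (k : ℕ) (p q : Fin 4) :
    ‖iteratedFDeriv ℝ k (TD.dv (rot G s O) p q) x‖ ≤ 16 * |Cs k| * (‖x‖ ^ k)⁻¹ * (1 / ‖x‖ ^ 3) := by
  have hρ := ext_pos h
  have hs0 : 0 < s := lt_of_lt_of_le (by positivity) hs
  have h0 : x ≠ 0 := norm_pos_iff.1 (lt_trans (by positivity) hx)
  exact jall_rot hs0 h.riem (ext_mem hs0 O hx) h0 (h.all _ (ext_mem hs0 O hx)) (ext_wt hρ hs O h0)
    k p q

theorem ext_small (h : Ext g N G ρ e y η Cs V) (hη : 0 ≤ η) (hs : 0 < s) (O : Iso4)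
    (hx : ρ / 32 / s < ‖x‖) (p q : Fin 4) : |TD.dv (rot G s O) p q x| ≤ 16 * η := by
  have hρ := ext_pos h
  have h1 := ext_mem hs O hx
  have h2 : (ρ / 32 / ‖s • O x‖) ^ 3 ≤ 1 :=
    pow_le_one₀ (by positivity) ((div_le_one (lt_trans (by positivity) h1)).2 h1.le)
  have := mul_le_mul_of_nonneg_left h2 hη
  linarith [small_rot hs h.riem h1 (h.jet _ h1) p q]

theorem ext_ric (h : Ext g N G ρ e y η Cs V) (hs : 0 < s) (O : Iso4) (hx : ρ / 32 / s < ‖x‖)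
    (p q : Fin 4) : |ricci (rot G s O) x p q| ≤ 16 * (ρ / s) ^ 2 * e / ‖x‖ ^ 4 := by
  have hρ := ext_pos h
  have h1 := ext_mem hs O hx
  have h0 : 0 < ‖x‖ := lt_trans (by positivity) hx
  refine (abs_ricci_rot hs h.riem h1 (h.ric _ h1) p q).trans (le_of_eq ?_)
  rw [norm_sim hs]
  field_simp

theorem mu_ext {ι : Type} {l : Filter ι} {g : ι → Met 4 M} {N : ι → Nk M} {G : ι → MetricField 4}
    {s ρ e y : ι → ℝ} (O : ι → Iso4) {r1 : ℝ} (r2 : ℝ) (hr : 0 < r1) (hη : 0 ≤ η)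
    (hη' : η ≤ 1 / 1600) (h : ∀ᶠ i in l, 0 < s i ∧
      Ext (g i) (N i) (G i) (ρ i) (e i) (y i) η Cs V ∧ ρ i / 32 ≤ s i * r1) :
    MU l (fun i => rot (G i) (s i) (O i)) fun _ => shell r1 r2 := by
  refine mu_rot (Cs := Cs) (W := fun i => {x | ρ i / 32 < ‖x‖}) (c := η) (B := 1)
    (w := fun i x => (ρ i / 32 / ‖s i • O i x‖) ^ 3) hr (by linarith) (h.mono fun i hi => ?_)
  refine ⟨hi.1, hi.2.1.riem, fun x hx => ?_⟩
  have hρ := ext_pos hi.2.1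
  have h1 : ρ i / 32 < ‖s i • O i x‖ := by
    rw [norm_sim hi.1]; exact hi.2.2.trans_lt (mul_lt_mul_of_pos_left hx.1 hi.1)
  have h2 : (ρ i / 32 / ‖s i • O i x‖) ^ 3 ≤ 1 :=
    pow_le_one₀ (by positivity) ((div_le_one (lt_trans (by positivity) h1)).2 h1.le)
  exact ⟨h1, hi.2.1.all _ h1, (abs_of_nonneg (by positivity)).trans_le h2, fun k hk a b =>
    (hi.2.1.jet _ h1 k (hk.trans (Nat.zero_le _)) a b).trans (mul_le_of_le_one_right hη h2)⟩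

end Crest.Agent.N207.I

end
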