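import Crest.Agent.N207.I.Pre
import Crest.Agent.N207.I.NkRs

/-!
# Row 207, block I (helper56): normalised ball charts from `LOCF`
-/

set_option autoImplicit false

open scoped ContDiff Topology Manifold
open Set Filter Metric
open Crest.GeometryTopology.CoordMetric Crest.Agent.R202.Tens

noncomputable section

namespace Crest.Agent.N207.I

open Jt Sk

theorem MU.csmul {ι : Type} {n : ℕ} {l : Filter ι} {H : ι → MetricField n} {S : ι → Set (En n)}
    (h : MU l H S) {κ : ℝ} (hκ : 0 < κ) : MU l (fun i y => κ • H i y) S := by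
  obtain ⟨h1, c, hc, h2⟩ := mu_iff.1 h
  refine mu_iff.2 ⟨fun a b => GB.mul (GB.const' κ) (h1 a b), κ * c, by positivity,
    h2.mono fun i hi y hy => ⟨fun a b => ?_, fun v => ?_⟩⟩
  · simp only [Matrix.smul_apply, (hi y hy).1 a b]
  · have e : bil (κ • H i y) v v = κ * bil (H i y) v v := by
      simp only [bil_apply, Matrix.smul_apply, smul_eq_mul, Finset.mul_sum, mul_assoc]
    rw [e, mul_assoc]
    exact mul_le_mul_of_nonneg_left ((hi y hy).2 v) hκ.le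

theorem MU.congr_open {ι : Type} {n : ℕ} {l : Filter ι} {G G' : ι → MetricField n}
    {S : Set (En n)} (hS : IsOpen S) (h : MU l G fun _ => S)
    (e : ∀ᶠ i in l, ∀ x ∈ S, G' i x = G i x) : MU l G' fun _ => S :=
  MB.congr h (ev_un.2 (e.mono fun _ hi _ hx => ⟨rfl, mem_of_superset (hS.mem_nhds hx) hi⟩))

variable {M : Type*} [TopologicalSpace M] [ChartedSpace E4 M] [IsManifold 𝓘(ℝ, E4) ∞ M]
  [T3Space M] [ConnectedSpace M] [MeasurableSpace M] [BorelSpace M] {F : Flow M}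

/-- **Normalised ball charts.** -/
theorem ball_charts (hL : LOCF F) : ∃ ε0 r0 c : ℝ, 0 < ε0 ∧ 0 < r0 ∧ 0 < c ∧ c ≤ 1 / 8 ∧
    ∀ {ι : Type} (l : Filter ι) (t ρ s : ι → ℝ) (x : ι → M) (θ : ℝ), 0 < θ →
      (∀ᶠ i in l, t i ∈ late F ∧ 0 < ρ i ∧ ρ i ≤ r0 ∧ en (F.m (t i)) (x i) (ρ i) ≤ ε0 ∧
        ρ i = θ * s i) →
      ∃ φ : ι → E4 → M, (∀ᶠ i in l, Par (φ i) (ball 0 4) ∧ InjOn (φ i) (ball 0 4) ∧
        (∀ y ∈ ball (0 : E4) 4, (F.m (t i)).d (φ i y) (x i) < 4 * (c * ρ i / 4)) ∧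
        ∀ p, (F.m (t i)).d p (x i) < c * ρ i / 4 → p ∈ φ i '' ball 0 1) ∧
        MU l (fun i y => (s i ^ 2)⁻¹ • (F.m (t i)).pm (φ i) y) fun _ => ball 0 4 := by
  obtain ⟨ε0, r0, hε0, hr0, hL⟩ := hL
  obtain ⟨c, Cs, hc, hc8, hL⟩ := hL 0 (1 / 100) (by norm_num)
  refine ⟨ε0, r0, c, hε0, hr0, hc, hc8, fun {ι} l t ρ s x θ hθ h => ?_⟩
  have h1 : ∀ i, ∃ φ : E4 → M, (t i ∈ late F ∧ 0 < ρ i ∧ ρ i ≤ r0 ∧
      en (F.m (t i)) (x i) (ρ i) ≤ ε0 ∧ ρ i = θ * s i) → BallCh φ (x i) (c * ρ i) ∧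
      (∀ u ∈ Ioc 0 (c * ρ i), φ '' ball 0 u = (F.m (t i)).ball (x i) u) ∧
      ∀ y ∈ ball (0 : E4) (c * ρ i), JG 0 ((F.m (t i)).pm φ) y (c * ρ i) (1 / 100) ∧
        JAll Cs ((F.m (t i)).pm φ) y (c * ρ i) 1 := fun i => by
    by_cases hi : t i ∈ late F ∧ 0 < ρ i ∧ ρ i ≤ r0 ∧ en (F.m (t i)) (x i) (ρ i) ≤ ε0 ∧
      ρ i = θ * s i
    · obtain ⟨φ, a1, a2, a3⟩ := hL _ hi.1 (x i) _ hi.2.1 hi.2.2.1 hi.2.2.2.1
      refine ⟨φ, fun _ => ⟨a1, a2, a3 _ ⟨by linarith [hi.1.1, F.hT], hi.1.2⟩ ?_⟩⟩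
      rw [sub_self, abs_zero]
      have := hi.2.1
      positivity
    · exact ⟨fun _ => x i, fun h' => absurd h' hi⟩
  choose φ hφ using h1
  have h2 : ∀ᶠ i in l, 0 < c * ρ i / 4 ∧ ∀ (r : ℝ) (y : E4),
      y ∈ ball (0 : E4) r ↔ (c * ρ i / 4) • y ∈ ball (0 : E4) (r * (c * ρ i / 4)) :=
    h.mono fun i hi => by
      have h0 : 0 < c * ρ i / 4 := by have := hi.2.1; positivity
      refine ⟨h0, fun r y => ?_⟩
      rw [mem_ball_zero_iff, mem_ball_zero_iff, norm_smul, Real.norm_of_nonneg h0.le, mul_comm r,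
        mul_lt_mul_iff_right₀ h0]
  have h3 : ∀ᶠ i in l, ∀ y ∈ ball (0 : E4) 4, (c * ρ i / 4) • y ∈ ball (0 : E4) (c * ρ i) :=
    h2.mono fun i hi y hy => by convert (hi.2 4 y).1 hy using 2; ring
  refine ⟨fun i y => φ i ((c * ρ i / 4) • y), ?_, ?_⟩
  · filter_upwards [h, h2, h3] with i hi h2 h3
    obtain ⟨a1, a2, -⟩ := hφ i hi
    refine ⟨par_smul a1.par h2.1.ne' isOpen_ball h3, fun y hy z hz e =>
      smul_right_injective E4 h2.1.ne' (a1.inj (h3 y hy) (h3 z hz) e), fun y hy => ?_,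
      fun p hp => ?_⟩
    · have := (a2 _ ⟨by linarith [h2.1], le_rfl⟩).subset ⟨_, h3 y hy, rfl⟩
      exact lt_of_lt_of_eq this (by ring)
    · obtain ⟨z, hz, rfl⟩ := (a2 _ ⟨h2.1, by linarith [h2.1]⟩).superset hp
      have e := smul_inv_smul₀ h2.1.ne' z
      exact ⟨(c * ρ i / 4)⁻¹ • z, (h2.2 1 _).2 (by rwa [e, one_mul]), by simp only [e]⟩
  · refine MU.congr_open isOpen_ball (MU.csmul (κ := (c * θ / 4) ^ 2)
      (H := fun i y => (F.m (t i)).pm (φ i) ((c * ρ i / 4) • y)) (mu_iff.2 ⟨fun p q =>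
        ub_of_dv (ub_iff.2 ⟨?_, fun k => ⟨|Cs k|, ?_⟩⟩), 1 / 2, one_half_pos, ?_⟩)
      (by positivity)) ?_
    · filter_upwards [h, h3] with i hi h3 y hy
      have := (hφ i hi).1.par.riem (F.m (t i))
      exact (((this.contDiffOn p q).contDiffAt (isOpen_ball.mem_nhds (h3 y hy))).sub
        contDiffAt_const).comp y (contDiff_const_smul _).contDiffAt
    · filter_upwards [h, h2, h3] with i hi h2 h3 y hy
      have a1 := ((hφ i hi).2.2 _ (h3 y hy)).2 k p q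
      refine (norm_iter_smul (TD.dv ((F.m (t i)).pm (φ i)) p q) h2.1 k y).trans
        (le_trans ?_ (a1.trans (by rw [mul_one]; exact le_abs_self _)))
      rw [mul_comm]
      exact mul_le_mul_of_nonneg_left (pow_le_pow_left₀ h2.1.le (by linarith [h2.1]) k)
        (norm_nonneg _)
    · filter_upwards [h, h3] with i hi h3 y hy
      have := ((hφ i hi).1.par.riem (F.m (t i))).posDef _ (h3 y hy)
      refine pos_of_small (fun a b => by simpa using this.isHermitian.apply b a) fun a b => ?_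
      simpa [J1, Sk.dv] using ((hφ i hi).2.2 _ (h3 y hy)).1 0 le_rfl a b
    · filter_upwards [h, h3] with i hi h3 y hy
      have hs : 0 < s i := by
        have := hi.2.1
        rw [hi.2.2.2.2] at this
        exact (mul_pos_iff_of_pos_left hθ).1 this
      rw [pm_smul _ ((hφ i hi).1.par.mdifferentiableAt (h3 y hy)), smul_smul]
      congr 1
      rw [hi.2.2.2.2]
      field_simp

end Crest.Agent.N207.I

end
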