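import Crest.Agent.N207.I.Cal1

/-!
# Row 207, block I (helper67): calculus on an atlas, part 2: change of charts in integrals
-/

set_option autoImplicit false

open scoped ContDiff Topology ENNReal
open Set Filter MeasureTheory
open Crest.GeometryTopology.CoordMetric

noncomputable section

namespace Crest.Agent.N207.I.Atl

variable {X : Type*} {α : Type} {A : Atl X α} {a b : α} {G : α → MetricField 4}

/-- the volume density -/
def rho (G : α → MetricField 4) (a : α) (x : E4) : ℝ≥0∞ := ENNReal.ofReal √(G a x).det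

theorem exists_pieces (h : A.Ok) {B : Set E4} (hB : MeasurableSet B) (hBU : B ⊆ A.U a)
    (hb : ∀ x ∈ B, A.c a x ∈ A.c b '' A.U b) : ∃ (P : ℕ → Set E4) (F : ℕ → E4 → E4),
      (∀ i, MeasurableSet (P i)) ∧ Pairwise (Function.onFun Disjoint P) ∧ ⋃ i, P i = B ∧
      (∀ i, ∀ z ∈ P i, A.Tr a b z (F i)) ∧ ∀ i, InjOn (F i) (P i) := by
  have h1 : ∀ x ∈ B, ∃ p : (E4 → E4) × Set E4, IsOpen p.2 ∧ x ∈ p.2 ∧
      (∀ z ∈ p.2, A.Tr a b z p.1) ∧ InjOn p.1 p.2 := fun x hx => by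
    obtain ⟨y, hy, e⟩ := hb x hx
    obtain ⟨F, t, -⟩ := h.loc a b x (hBU hx) y hy e.symm
    obtain ⟨V, hV⟩ := t.exists_nbhd h
    exact ⟨(F, V), hV⟩
  choose! p hp using h1
  rcases B.eq_empty_or_nonempty with rfl | hne
  · exact ⟨fun _ => ∅, fun _ => id, by simp, fun _ _ _ => by simp, by simp, by simp, by simp⟩
  obtain ⟨s, hs, hc, hcov⟩ := TopologicalSpace.countable_cover_nhdsWithin
    (f := fun x => (p x).2) (s := B) fun x hx =>
      mem_nhdsWithin_of_mem_nhds ((hp x hx).1.mem_nhds (hp x hx).2.1)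
  have hs0 : s.Nonempty := by
    obtain ⟨x, hx⟩ := hne
    obtain ⟨y, hy, -⟩ := mem_iUnion₂.1 (hcov hx)
    exact ⟨y, hy⟩
  obtain ⟨e, rfl⟩ := hc.exists_eq_range hs0
  have he : ∀ i, e i ∈ B := fun i => hs ⟨i, rfl⟩
  refine ⟨disjointed fun i => (p (e i)).2 ∩ B, fun i => (p (e i)).1,
    MeasurableSet.disjointed fun i => (hp _ (he i)).1.measurableSet.inter hB,
    disjoint_disjointed _, ?_, fun i z hz => (hp _ (he i)).2.2.1 z (disjointed_subset _ i hz).1,
    fun i => (hp _ (he i)).2.2.2.mono fun z hz => (disjointed_subset _ i hz).1⟩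
  rw [iUnion_disjointed, ← iUnion_inter, inter_eq_right]
  simpa using hcov

theorem lintegral_tr (h : A.Ok) (hG : A.IsMet G) {P : Set E4} {F : E4 → E4} (hP : MeasurableSet P)
    (t : ∀ z ∈ P, A.Tr a b z F) (hi : InjOn F P) {φ : α → E4 → ℝ≥0∞} (hφ : A.CompF φ) :
    MeasurableSet (F '' P) ∧
      ∫⁻ y in F '' P, rho G b y * φ b y = ∫⁻ x in P, rho G a x * φ a x := by
  have hd : ∀ z ∈ P, HasFDerivWithinAt F (fderiv ℝ F z) P z := fun z hz =>
    (t z hz).diff.hasFDerivAt.hasFDerivWithinAt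
  refine ⟨measurable_image_of_fderivWithin hP hd hi, ?_⟩
  rw [lintegral_image_eq_lintegral_abs_det_fderiv_mul volume hP hd hi]
  refine setLIntegral_congr_fun hP fun z hz => ?_
  simp only [rho]
  rw [hG.sqrt_det h (t z hz), hφ.tr (t z hz), ENNReal.ofReal_mul (Real.sqrt_nonneg _)]
  ring

/-- **change of charts**; `n` is the number of points of `B` over a point of `S` -/
theorem chg (h : A.Ok) (hG : A.IsMet G) {B S : Set E4} (hB : MeasurableSet B) (hBU : B ⊆ A.U a)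
    (hb : ∀ x ∈ B, A.c a x ∈ A.c b '' A.U b) (hS : MeasurableSet S) (hSU : S ⊆ A.U b) (n : ℕ)
    (h1 : ∀ y ∈ S, {x ∈ B | A.c a x = A.c b y}.encard = n)
    (h0 : ∀ y ∈ A.U b, A.c b y ∈ A.c a '' B → y ∈ S) {φ : α → E4 → ℝ≥0∞} (hφ : A.CompF φ) :
    (Nat.card (A.Γ b) : ℝ≥0∞) * ∫⁻ x in B, rho G a x * φ a x =
      n * ∫⁻ y in S, rho G b y * φ b y := by
  classical
  have := h.fin b
  have := Fintype.ofFinite (A.Γ b)
  obtain ⟨P, F, hP, hd, hU, ht, hi⟩ := exists_pieces h hB hBU hb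
  let Q : ℕ × A.Γ b → Set E4 := fun p => (fun z => (p.2 : Iso4) (F p.1 z)) '' P p.1
  have ht' : ∀ p : ℕ × A.Γ b, ∀ z ∈ P p.1, A.Tr a b z fun z => (p.2 : Iso4) (F p.1 z) :=
    fun p z hz => (ht _ z hz).comp (h.tr_deck p.2.2 (ht _ z hz).mem')
  have hQ := fun p : ℕ × A.Γ b => lintegral_tr h hG (hP p.1) (ht' p)
    (fun z hz w hw e => hi _ hz hw (p.2.1.injective e)) hφ
  have hPB : ∀ i, P i ⊆ B := fun i => hU ▸ subset_iUnion P i
  have hcnt : ∀ y, ∑' p, (Q p).indicator (1 : E4 → ℝ≥0∞) y = S.indicator (fun _ => (n : ℝ≥0∞)) y := by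
    intro y
    have e1 : ∀ p, (Q p).indicator (1 : E4 → ℝ≥0∞) y =
        {p | y ∈ Q p}.indicator (fun _ => (1 : ℝ≥0∞)) p := fun p => by
      simp only [indicator, mem_ofPred_eq, Pi.one_apply]
    simp only [e1]
    rw [← tsum_subtype, ENNReal.tsum_set_one]
    by_cases hy : y ∈ S
    · rw [indicator_of_mem hy]
      have hx : ∀ p : ℕ × A.Γ b, y ∈ Q p → ∃ z ∈ P p.1, (p.2 : Iso4) (F p.1 z) = y := fun p hp => hp
      choose! z hz using hx
      have hbij : BijOn z {p | y ∈ Q p} {x ∈ B | A.c a x = A.c b y} := by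
        refine ⟨fun p hp => ⟨hPB _ (hz p hp).1, ?_⟩, fun p hp q hq e => ?_, fun x hx => ?_⟩
        · rw [← (ht' p _ (hz p hp).1).eq0, (hz p hp).2]
        · have e1 : p.1 = q.1 := by
            by_contra hne
            exact disjoint_left.1 (hd hne) (hz p hp).1 (e ▸ (hz q hq).1)
          refine Prod.ext e1 (Subtype.ext (h.deck_inj p.2.2 q.2.2 (ht _ _ (hz p hp).1).mem' ?_))
          rw [(hz p hp).2, e1, e, (hz q hq).2]
        · obtain ⟨i, hxi⟩ := mem_iUnion.1 (hU ▸ hx.1 : x ∈ ⋃ i, P i)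
          obtain ⟨γ, hγ, e⟩ := (h.fib b _ (ht i x hxi).mem' y (hSU hy)).1
            ((ht i x hxi).eq0.trans hx.2)
          have hp : y ∈ Q (i, ⟨γ, hγ⟩) := ⟨x, hxi, e⟩
          exact ⟨_, hp, hi i (hz _ hp).1 hxi (γ.injective ((hz _ hp).2.trans e.symm))⟩
      rw [← hbij.injOn.encard_image, hbij.image_eq, h1 y hy]
      rfl
    · rw [indicator_of_notMem hy, show {p | y ∈ Q p} = ∅ from eq_empty_of_forall_notMem ?_]
      · simp
      · rintro p ⟨z, hz, rfl⟩
        exact hy (h0 _ (ht' p z hz).mem' ⟨z, hPB _ hz, (ht' p z hz).eq0.symm⟩)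
  have hm : (Measure.sum fun p => volume.restrict (Q p)) = (n : ℝ≥0∞) • volume.restrict S := by
    ext E hE
    rw [Measure.sum_apply _ hE, Measure.smul_apply, Measure.restrict_apply hE, smul_eq_mul]
    have e1 : ∀ p, volume.restrict (Q p) E = ∫⁻ y in E, (Q p).indicator 1 y := fun p => by
      rw [lintegral_indicator_one (hQ p).1, Measure.restrict_apply hE,
        Measure.restrict_apply (hQ p).1, inter_comm]
    simp only [e1]
    rw [← lintegral_tsum fun p => (measurable_one.indicator (hQ p).1).aemeasurable]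
    rw [lintegral_congr hcnt, lintegral_indicator_const hS, Measure.restrict_apply hS, inter_comm]
  rw [← smul_eq_mul (n : ℝ≥0∞), ← lintegral_smul_measure, ← hm, lintegral_sum_measure, ← hU,
    lintegral_iUnion hP hd, ENNReal.tsum_prod', ← ENNReal.tsum_mul_left]
  refine tsum_congr fun i => ?_
  simp only [Q, fun γ => (hQ (i, γ)).2]
  simp

/-- the part of the chart `a` that meets the chart `b` -/
def ov (A : Atl X α) (a b : α) : Set E4 := {x ∈ A.U a | A.c a x ∈ A.c b '' A.U b}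

theorem isOpen_pre (h : A.Ok) {B : Set E4} (hB : IsOpen B) (hBU : B ⊆ A.U a) (b : α) :
    IsOpen {y ∈ A.U b | A.c b y ∈ A.c a '' B} :=
  isOpen_iff_mem_nhds.2 fun _ hy =>
    (((h.isOpen b).eventually_mem hy.1).and (Tr.ev_mem_image h hB hBU hy.1 hy.2) :)

theorem isOpen_ov (h : A.Ok) (a b : α) : IsOpen (A.ov a b) :=
  isOpen_pre h (h.isOpen b) Subset.rfl a

theorem encard_fib (h : A.Ok) {x : E4} (hx : x ∈ A.U a) :
    {z ∈ A.U a | A.c a z = A.c a x}.encard = Nat.card (A.Γ a) := by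
  have := h.fin a
  have e : {z ∈ A.U a | A.c a z = A.c a x} = range fun γ : A.Γ a => (γ : Iso4) x := by
    ext z
    refine ⟨fun hz => ?_, ?_⟩
    · obtain ⟨γ, hγ, e⟩ := (h.fib a x hx z hz.1).1 hz.2.symm
      exact ⟨⟨γ, hγ⟩, e⟩
    · rintro ⟨γ, rfl⟩
      exact ⟨h.inv a γ γ.2 x hx, h.c_deck γ.2 hx⟩
  rw [e, ← image_univ, Function.Injective.encard_image
    fun γ δ e => Subtype.ext (h.deck_inj γ.2 δ.2 hx e), encard_univ, ENat.card_eq_coe_natCard]

theorem chg_ov (h : A.Ok) (hG : A.IsMet G) (a b : α) {φ : α → E4 → ℝ≥0∞} (hφ : A.CompF φ) :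
    (Nat.card (A.Γ b) : ℝ≥0∞) * ∫⁻ x in A.ov a b, rho G a x * φ a x =
      Nat.card (A.Γ a) * ∫⁻ y in A.ov b a, rho G b y * φ b y := by
  refine chg h hG (isOpen_ov h a b).measurableSet (fun _ hx => hx.1) (fun _ hx => hx.2)
    (isOpen_ov h b a).measurableSet (fun _ hx => hx.1) _ (fun y hy => ?_)
    (fun y hy e => ⟨hy, image_mono (fun _ hx => hx.1) e⟩) hφ
  obtain ⟨x, hx, e⟩ := hy.2
  rw [← encard_fib h hx, e]
  congr 1
  ext z
  exact ⟨fun k => ⟨k.1.1, k.2⟩, fun k => ⟨⟨k.1, y, hy.1, k.2.symm⟩, k.2⟩⟩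

/-- a set on which the chart is injective is a fundamental domain of its saturation -/
theorem chg_inj (h : A.Ok) (hG : A.IsMet G) {B : Set E4} (hB : IsOpen B) (hBU : B ⊆ A.U a)
    (hi : InjOn (A.c a) B) {φ : α → E4 → ℝ≥0∞} (hφ : A.CompF φ) :
    (Nat.card (A.Γ a) : ℝ≥0∞) * ∫⁻ x in B, rho G a x * φ a x =
      ∫⁻ y in {y ∈ A.U a | A.c a y ∈ A.c a '' B}, rho G a y * φ a y := by
  have := chg h hG hB.measurableSet hBU (fun x hx => ⟨x, hBU hx, rfl⟩)
    (isOpen_pre h hB hBU a).measurableSet (fun _ hx => hx.1) 1 (fun y hy => ?_)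
    (fun y hy e => ⟨hy, e⟩) hφ
  · simpa using this
  · obtain ⟨x, hx, e⟩ := hy.2
    rw [show {z ∈ B | A.c a z = A.c a y} = {x} from ?_]
    · simp
    · ext z
      exact ⟨fun k => hi k.1 hx (k.2.trans e.symm), fun k => k ▸ ⟨hx, e⟩⟩

theorem card_ne (h : A.Ok) (a : α) : (Nat.card (A.Γ a) : ℝ≥0∞) ≠ 0 := by
  have := h.fin a
  exact_mod_cast Nat.card_pos.ne'

theorem card_pos (h : A.Ok) (a : α) : (0 : ℝ) < Nat.card (A.Γ a) := by
  have := h.fin a
  exact_mod_cast Nat.card_pos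

variable [Fintype α] {χ : α → X → ℝ} {K : α → Set E4}

omit [Fintype α] in
theorem ofReal_den (h : A.Ok) (h0 : ∀ a p, 0 ≤ χ a p) (a : α) (x : E4) :
    ENNReal.ofReal (A.den χ G a x) =
      (Nat.card (A.Γ a) : ℝ≥0∞)⁻¹ * (rho G a x * ENNReal.ofReal (χ a (A.c a x))) := by
  rw [den, ENNReal.ofReal_mul (by positivity), ENNReal.ofReal_mul (h0 _ _), rho,
    ENNReal.ofReal_inv_of_pos (card_pos h a), ENNReal.ofReal_natCast, mul_comm (ENNReal.ofReal _)]

/-- the part of the integral that is seen by the chart `a` -/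
theorem sum_ov (h : A.Ok) (hG : A.IsMet G) (hχ : A.PoU χ K) {φ : α → E4 → ℝ≥0∞} (hφ : A.CompF φ)
    (a : α) (hm : AEMeasurable (φ a) (volume.restrict (A.U a))) :
    ∑ b, ∫⁻ y in A.ov b a, ENNReal.ofReal (A.den χ G b y) * φ b y =
      (Nat.card (A.Γ a) : ℝ≥0∞)⁻¹ * ∫⁻ x in A.U a, rho G a x * φ a x := by
  have hU := (h.isOpen a).measurableSet
  have e1 : ∀ b, ∫⁻ y in A.ov b a, ENNReal.ofReal (A.den χ G b y) * φ b y =
      (Nat.card (A.Γ a) : ℝ≥0∞)⁻¹ *
        ∫⁻ x in A.U a, rho G a x * (ENNReal.ofReal (χ b (A.c a x)) * φ a x) := by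
    intro b
    have e2 := chg_ov h hG a b (φ := fun d x => ENNReal.ofReal (χ b (A.c d x)) * φ d x)
      ((compF_comp (χ b)).map₂ hφ fun s t => ENNReal.ofReal s * t)
    have e3 : ∫⁻ x in A.ov a b, rho G a x * (ENNReal.ofReal (χ b (A.c a x)) * φ a x) =
        ∫⁻ x in A.U a, rho G a x * (ENNReal.ofReal (χ b (A.c a x)) * φ a x) := by
      rw [← lintegral_indicator (isOpen_ov h a b).measurableSet, ← lintegral_indicator hU]
      refine lintegral_congr fun x => ?_
      by_cases hx : x ∈ A.ov a b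
      · rw [indicator_of_mem hx, indicator_of_mem hx.1]
      · rw [indicator_of_notMem hx]
        by_cases hx' : x ∈ A.U a
        · have : χ b (A.c a x) = 0 := by
            by_contra hne
            exact hx ⟨hx', image_mono (hχ.sub b) (hχ.supp b a x hx' hne)⟩
          simp [indicator_of_mem hx', this]
        · rw [indicator_of_notMem hx']
    simp only [ofReal_den h hχ.nonneg, mul_assoc]
    rw [lintegral_const_mul' _ _ (ENNReal.inv_ne_top.2 (card_ne h b)), ← e3,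
      ← ENNReal.mul_right_inj (card_ne h a) (ENNReal.natCast_ne_top _), mul_left_comm, ← e2,
      ENNReal.inv_mul_cancel_left (card_ne h b) (ENNReal.natCast_ne_top _),
      ENNReal.mul_inv_cancel_left (card_ne h a) (ENNReal.natCast_ne_top _)]
  simp only [e1]
  have mρ : AEMeasurable (rho G a) (volume.restrict (A.U a)) :=
    ((sm_sqrt_det (hG.riem a)).continuousOn.aemeasurable hU).ennreal_ofReal
  rw [← Finset.mul_sum, ← lintegral_finsetSum' _
    (f := fun b x => rho G a x * (ENNReal.ofReal (χ b (A.c a x)) * φ a x)) fun b _ =>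
    mρ.mul (((hχ.sm b a).continuousOn.aemeasurable hU).ennreal_ofReal.mul hm)]
  congr 1
  refine setLIntegral_congr_fun hU fun x hx => ?_
  rw [← Finset.mul_sum, ← Finset.sum_mul,
    ← ENNReal.ofReal_sum_of_nonneg fun b _ => hχ.nonneg b _, hχ.sum a x hx]
  simp

theorem chart_le (h : A.Ok) (hG : A.IsMet G) (hχ : A.PoU χ K) {φ : α → E4 → ℝ≥0∞}
    (hφ : A.CompF φ) (a : α) (hm : AEMeasurable (φ a) (volume.restrict (A.U a))) :
    (Nat.card (A.Γ a) : ℝ≥0∞)⁻¹ * ∫⁻ x in A.U a, rho G a x * φ a x ≤ A.lint χ G φ := by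
  rw [← sum_ov h hG hχ hφ a hm]
  exact Finset.sum_le_sum fun b _ => lintegral_mono_set fun _ hx => hx.1

/-- **one-chart formula** -/
theorem lint_chart (h : A.Ok) (hG : A.IsMet G) (hχ : A.PoU χ K) {φ : α → E4 → ℝ≥0∞}
    (hφ : A.CompF φ) (a : α) (hm : AEMeasurable (φ a) (volume.restrict (A.U a)))
    (hs : ∀ b, ∀ y ∈ A.U b, φ b y ≠ 0 → A.c b y ∈ A.c a '' A.U a) :
    A.lint χ G φ = (Nat.card (A.Γ a) : ℝ≥0∞)⁻¹ * ∫⁻ x in A.U a, rho G a x * φ a x := by
  rw [← sum_ov h hG hχ hφ a hm]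
  refine Finset.sum_congr rfl fun b _ => ?_
  rw [← lintegral_indicator (isOpen_ov h b a).measurableSet,
    ← lintegral_indicator (h.isOpen b).measurableSet]
  refine lintegral_congr fun y => ?_
  by_cases hy : y ∈ A.ov b a
  · rw [indicator_of_mem hy, indicator_of_mem hy.1]
  · rw [indicator_of_notMem hy]
    by_cases hy' : y ∈ A.U b
    · have : φ b y = 0 := by
        by_contra hne
        exact hy ⟨hy', hs b y hy' hne⟩
      simp [indicator_of_mem hy', this]
    · rw [indicator_of_notMem hy']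

theorem inj_le (h : A.Ok) (hG : A.IsMet G) (hχ : A.PoU χ K) {φ : α → E4 → ℝ≥0∞}
    (hφ : A.CompF φ) {B : Set E4} (hB : IsOpen B) (hBU : B ⊆ A.U a) (hi : InjOn (A.c a) B)
    (hm : AEMeasurable (φ a) (volume.restrict (A.U a))) :
    ∫⁻ x in B, rho G a x * φ a x ≤ A.lint χ G φ := by
  refine le_trans ?_ (chart_le h hG hχ hφ a hm)
  rw [← ENNReal.inv_mul_cancel_left (card_ne h a) (ENNReal.natCast_ne_top _)
    (b := ∫⁻ x in B, rho G a x * φ a x), chg_inj h hG hB hBU hi hφ]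
  exact mul_le_mul_right (lintegral_mono_set fun _ hx => hx.1) _

theorem lint_inj (h : A.Ok) (hG : A.IsMet G) (hχ : A.PoU χ K) {φ : α → E4 → ℝ≥0∞}
    (hφ : A.CompF φ) {B : Set E4} (hB : IsOpen B) (hBU : B ⊆ A.U a) (hi : InjOn (A.c a) B)
    (hm : AEMeasurable (φ a) (volume.restrict (A.U a)))
    (hs : ∀ b, ∀ y ∈ A.U b, φ b y ≠ 0 → A.c b y ∈ A.c a '' B) :
    A.lint χ G φ = ∫⁻ x in B, rho G a x * φ a x := by
  rw [lint_chart h hG hχ hφ a hm fun b y hy e => image_mono hBU (hs b y hy e),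
    ← ENNReal.inv_mul_cancel_left (card_ne h a) (ENNReal.natCast_ne_top _)
    (b := ∫⁻ x in B, rho G a x * φ a x), chg_inj h hG hB hBU hi hφ,
    ← lintegral_indicator (isOpen_pre h hB hBU a).measurableSet,
    ← lintegral_indicator (h.isOpen a).measurableSet]
  congr 1
  refine lintegral_congr fun y => ?_
  by_cases hy : y ∈ {y ∈ A.U a | A.c a y ∈ A.c a '' B}
  · rw [indicator_of_mem hy, indicator_of_mem hy.1]
  · rw [indicator_of_notMem hy]
    by_cases hy' : y ∈ A.U a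
    · have : φ a y = 0 := by
        by_contra hne
        exact hy ⟨hy', hs a y hy' hne⟩
      simp [indicator_of_mem hy', this]
    · rw [indicator_of_notMem hy']

end Crest.Agent.N207.I.Atl

end
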