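import Crest.Agent.N207.I.Car1

/-!
# Row 207, block I (helper98): `core v`, `glob L` are atlases, `T.χ` is a partition of unity
-/

set_option autoImplicit false
set_option linter.unusedSectionVars false

open scoped ContDiff Topology
open Set Filter Metric

noncomputable section

namespace Crest.Agent.N207.I

namespace TD

variable {M : Type*} {T : TD M}

/-! ### the bumps on `base v` -/

/-- support of the bump of the chart `s` of `base v` -/
def bK (T : TD M) (v : T.V) : T.S → Set E4 :=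
  Sum.elim (fun a => {x | T.vx a = v ∧ ‖x‖ ≤ 3 / 2})
    fun w => {u | u ∈ (T.base v).U (Sum.inr w) ∧ T.Sup v w u}

theorem bK_sub (v : T.V) (s : T.S) : T.bK v s ⊆ (T.base v).U s := by
  cases s with
  | inl a => exact fun x hx => mem_base_inl.2 ⟨hx.1, by linarith [hx.2]⟩
  | inr w => exact fun x hx => hx.1

theorem sup_ev {v w : T.V} {u : E4} (h : ¬ T.Sup v w u) : ∀ᶠ z in 𝓝 u, ¬ T.Sup v w z := by
  by_cases hw : w = v
  · have h1 : ‖u‖ < 3 / 2 := by
      by_contra h2
      exact h ⟨fun _ => not_lt.1 h2, fun h3 => absurd hw h3⟩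
    filter_upwards [continuous_norm.continuousAt.eventually (gt_mem_nhds h1)] with z hz h3
    exact absurd (h3.1 hw) (not_le.2 hz)
  · have h1 : 3 / 4 * T.r < ‖u‖ := by
      by_contra h2
      exact h ⟨fun h3 => absurd h3 hw, fun _ => not_lt.1 h2⟩
    filter_upwards [continuous_norm.continuousAt.eventually (lt_mem_nhds h1)] with z hz h3
    exact absurd (h3.2 hw) (not_le.2 hz)

theorem Ok.th0_ne (h : T.Ok) {v : T.V} {s : T.S} {u : E4} (hu : u ∈ (T.base v).U s)
    (h0 : T.th0 v s u ≠ 0) : u ∈ T.bK v s := by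
  cases s with
  | inl a => exact ⟨(mem_base_inl.1 hu).1, bmp_ne h0⟩
  | inr w =>
    refine ⟨hu, fun hw => zet_ne (by simpa [th0, hw] using h0), fun hw => ?_⟩
    have h1 : ‖(2 / T.r) • u‖ ≤ 3 / 2 := bmp_ne (by simpa [th0, hw] using h0)
    have hr := h.r_pos
    rw [norm_smul, Real.norm_of_nonneg (by positivity), div_mul_eq_mul_div, div_le_iff₀ hr] at h1
    linarith

theorem th0_inv {v : T.V} {s : T.S} {γ : Iso4} (x : E4) : T.th0 v s (γ x) = T.th0 v s x := by
  cases s with
  | inl a => simp [th0, bmp]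
  | inr w => simp [th0, bmp, zet, norm_smul]

theorem th0_sm (v : T.V) (s : T.S) : ContDiff ℝ ∞ (T.th0 v s) := by
  cases s with
  | inl a => exact bmp_sm
  | inr w =>
    by_cases hw : w = v
    · have : T.th0 v (Sum.inr w) = zet := by ext x; simp [th0, hw]
      rw [this]; exact zet_sm
    · have : T.th0 v (Sum.inr w) = fun x => bmp ((2 / T.r) • x) := by ext x; simp [th0, hw]
      rw [this]; exact bmp_sm.comp (contDiff_const_smul _)

theorem th_nonneg (v : T.V) (s : T.S) (p : M) : 0 ≤ T.th v s p := by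
  refine Atl.ext_nonneg (fun x => ?_) p
  cases s with
  | inl a => exact bmp_nonneg x
  | inr w =>
    simp only [th0, Sum.elim_inr]
    split_ifs
    exacts [zet_nonneg _, bmp_nonneg _]

theorem Ok.th_apply (h : T.Ok) {v : T.V} {s : T.S} {x : E4} (hx : x ∈ (T.base v).U s) :
    T.th v s ((T.base v).c s x) = T.th0 v s x :=
  (h.base v).ext_apply (fun _ _ y _ => th0_inv y) hx

theorem Ok.th_ne (h : T.Ok) {v : T.V} {s : T.S} {p : M} (hp : T.th v s p ≠ 0) :
    p ∈ (T.base v).c s '' T.bK v s := by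
  obtain ⟨x, hx, e, e'⟩ := Atl.ext_spec hp
  exact ⟨x, h.th0_ne hx (e' ▸ hp), e⟩

theorem Ok.base_cl (h : T.Ok) (v : T.V) (s : T.S) :
    (T.base v).Cl ((T.base v).c s '' T.bK v s) := by
  have hb := h.base v
  cases s with
  | inl a =>
    refine hb.cl_cpt ?_ (bK_sub v _)
    refine (isCompact_closedBall (0 : E4) (3 / 2)).of_isClosed_subset
      (isClosed_const.inter (isClosed_le continuous_norm continuous_const)) fun x hx => ?_
    simpa using hx.2
  | inr w =>
    intro b y hy hn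
    cases b with
    | inr w' =>
      by_cases hw : w' = w
      · subst hw
        have h1 : ¬ T.Sup v w' y := fun h1 => hn ⟨y, ⟨hy, h1⟩, rfl⟩
        filter_upwards [sup_ev h1, (hb.isOpen _).mem_nhds hy] with z h2 h3
        rintro ⟨x, hx, e⟩
        obtain ⟨γ, -, rfl⟩ := (hb.fib _ x hx.1 z h3).1 e
        exact h2 (by simpa [Sup] using hx.2)
      · filter_upwards [(hb.isOpen _).mem_nhds hy] with z h3
        rintro ⟨x, hx, e⟩
        exact h.disj v w w' (Ne.symm hw) x hx.1 z h3 e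
    | inl a =>
      obtain ⟨rfl, -⟩ := mem_base_inl.1 hy
      have hr := h.r_pos
      set C : Set E4 := {u | (w = T.vx a ∨ T.kid (T.vx a) w) ∧
        (w = T.vx a → 3 / 2 ≤ ‖u‖ ∧ ‖u‖ ≤ 3) ∧
        (w ≠ T.vx a → T.r / 3 ≤ ‖u‖ ∧ ‖u‖ ≤ 3 / 4 * T.r)} with hC
      have hCK : C ⊆ T.bK (T.vx a) (Sum.inr w) := by
        rintro u ⟨h1, h2, h3⟩
        refine ⟨?_, fun e => (h2 e).1, fun e => (h3 e).2⟩
        by_cases hw : w = T.vx a
        · rw [hw, mem_base_out]; constructor <;> linarith [h2 hw]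
        · rw [mem_base_inn hw]
          refine ⟨h1.resolve_left hw, ?_, ?_⟩ <;> linarith [h3 hw]
      have hCc : IsCompact C := by
        refine (isCompact_closedBall (0 : E4) 3).of_isClosed_subset
          (isClosed_const.inter (IsClosed.inter ?_ ?_)) fun u hu => ?_
        · exact isClosed_imp isOpen_const ((isClosed_le continuous_const continuous_norm).inter
            (isClosed_le continuous_norm continuous_const))
        · exact isClosed_imp isOpen_const ((isClosed_le continuous_const continuous_norm).inter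
            (isClosed_le continuous_norm continuous_const))
        · rw [mem_closedBall_zero_iff]
          by_cases hw : w = T.vx a
          · exact (hu.2.1 hw).2
          · linarith [hu.2.2 hw, h.r_lt]
      have h1 := hb.cl_cpt hCc (hCK.trans (bK_sub _ _)) _ y hy fun h2 => hn (image_mono hCK h2)
      filter_upwards [h1, (hb.isOpen _).mem_nhds hy] with z h2 h3
      rintro ⟨x, hx, e⟩
      have h4 := h.not_far (mem_base_inl.1 h3).2 hx.1 e.symm
      refine h2 ⟨x, ⟨?_, fun hw => ⟨hx.2.1 hw, ?_⟩, fun hw => ⟨?_, hx.2.2 hw⟩⟩, e⟩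
      · by_cases hw : w = T.vx a
        exacts [Or.inl hw, Or.inr ((mem_base_inn hw).1 hx.1).1]
      · by_contra h5
        exact h4 ⟨fun _ => (not_le.1 h5).le, fun h6 => absurd hw h6⟩
      · by_contra h5
        exact h4 ⟨fun h6 => absurd h6 hw, fun _ => (not_le.1 h5).le⟩

theorem Ok.th_sm (h : T.Ok) (v : T.V) (s : T.S) : (T.base v).SmF (T.th v s) :=
  (h.base v).ext_sm (fun _ _ y _ => th0_inv y) (th0_sm v s).contDiffOn
    (fun _ hx h0 => h.th0_ne hx h0) (bK_sub v s) (h.base_cl v s)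

theorem Ok.bmp_in (h : T.Ok) {y : E4} (hy : ‖y‖ ≤ T.r / 2) : bmp ((2 / T.r) • y) = 1 := by
  have hr := h.r_pos
  refine bmp_one ?_
  rw [norm_smul, Real.norm_of_nonneg (by positivity), div_mul_eq_mul_div, div_le_one hr]
  linarith

theorem Ok.sum_ge (h : T.Ok) {v : T.V} {s : T.S} {x : E4} (hx : x ∈ (T.base v).U s) :
    1 ≤ ∑ s', T.th v s' ((T.base v).c s x) := by
  have key : ∀ s', ∀ y ∈ (T.base v).U s', (T.base v).c s' y = (T.base v).c s x →
      T.th0 v s' y = 1 → 1 ≤ ∑ s', T.th v s' ((T.base v).c s x) := fun s' y hy e e1 => by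
    have := Finset.single_le_sum (f := fun s' => T.th v s' ((T.base v).c s x))
      (fun s' _ => th_nonneg v s' _) (Finset.mem_univ s')
    rwa [← e, h.th_apply hy, e1, e] at this
  rcases h.cover v s x hx with ⟨b, hb, y, hy, e⟩ | ⟨y, h1, h2, e⟩ | ⟨w, hw, y, h1, h2, e⟩
  · rw [mem_ball_zero_iff] at hy
    exact key (Sum.inl b) y (mem_base_inl.2 ⟨hb, by linarith⟩) e (bmp_one hy.le)
  · exact key (Sum.inr v) y (mem_base_out.2 ⟨by linarith, h2⟩) (by rw [base_c_out]; exact e)
      (by simp [th0, zet_one h1])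
  · have hn := h.kid_ne hw
    exact key (Sum.inr w) y ((mem_base_inn hn).2 ⟨hw, h1, by linarith [h.r_pos]⟩)
      (by rw [base_c_inn hn]; exact e) (by simp [th0, hn, h.bmp_in h2])

theorem Ok.th_far (h : T.Ok) {v w : T.V} {u : E4} (hu : u ∈ (T.base v).U (Sum.inr w))
    (hf : T.Far v w u) (s : T.S) :
    T.th v s ((T.base v).c (Sum.inr w) u) = if s = Sum.inr w then 1 else 0 := by
  split_ifs with hs
  · subst hs
    rw [h.th_apply hu]
    by_cases hw : w = v
    · simp [th0, hw, zet_one (show 2 ≤ ‖u‖ by linarith [hf.1 hw])]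
    · simp [th0, hw, h.bmp_in (show ‖u‖ ≤ T.r / 2 by linarith [hf.2 hw, h.r_pos])]
  · by_contra h0
    obtain ⟨x, hx, e⟩ := h.th_ne h0
    have hx' := bK_sub v s hx
    cases s with
    | inl a =>
      obtain ⟨rfl, h2⟩ := mem_base_inl.1 hx'
      exact h.not_far h2 hu e hf
    | inr w' => exact h.disj v w' w (fun e => hs (by rw [e])) x hx' u hu e

theorem χ_inl (s : T.S) (v : T.V) (p : M) :
    T.χ s (Sum.inl (v, p)) = T.th v s p / ∑ s', T.th v s' p := rfl

theorem χ_inr (s : T.S) (w : T.V) (o : Set E4) :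
    T.χ s (Sum.inr (w, o)) = if s = Sum.inr w then 1 else 0 := rfl

theorem χ_nonneg (s : T.S) (p : T.Car) : 0 ≤ T.χ s p := by
  rcases p with ⟨v, p⟩ | ⟨w, o⟩
  · exact div_nonneg (th_nonneg _ _ _) (Finset.sum_nonneg fun _ _ => th_nonneg _ _ _)
  · rw [χ_inr]; split_ifs <;> norm_num

theorem Ok.χ_far0 (h : T.Ok) {v w : T.V} {u : E4} (hu : u ∈ (T.base v).U (Sum.inr w))
    (hf : T.Far v w u) (s : T.S) :
    T.χ s (Sum.inl (v, (T.base v).c (Sum.inr w) u)) = if s = Sum.inr w then 1 else 0 := by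
  simp [χ_inl, h.th_far hu hf]

variable {A : Atl T.Car T.S} {act : T.V → Prop} {lam : T.V → T.V → ℝ}

/-- on the far part of an end only the bump of the end survives -/
theorem Str.χ_far (hA : T.Str A act lam) (h : T.Ok) {w : T.V} {z : E4} (hz : z ∈ A.U (Sum.inr w))
    (hf : ∀ v, act v → lam w v • z ∈ (T.base v).U (Sum.inr w) → T.Far v w (lam w v • z))
    (s : T.S) : T.χ s (A.c (Sum.inr w) z) = if s = Sum.inr w then 1 else 0 := by
  rcases hA.cases w z hz with ⟨v, hv, h1⟩ | ⟨h1, -⟩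
  · rw [(hA.conv w v z hv h1).2]; exact h.χ_far0 h1 (hf v hv h1) s
  · rw [h1, χ_inr]

theorem Str.pou (hA : T.Str A act lam) (h : T.Ok) {K : T.S → Set E4}
    (Kb : ∀ a x, x ∈ K (Sum.inl a) ↔ act (T.vx a) ∧ ‖x‖ ≤ 3 / 2)
    (Ke : ∀ w x, x ∈ K (Sum.inr w) ↔ x ∈ A.U (Sum.inr w) ∧ ∀ v, act v →
      lam w v • x ∈ (T.base v).U (Sum.inr w) → T.Sup v w (lam w v • x)) : A.PoU T.χ K := by
  have hO := hA.ok h
  have hsub : ∀ s, K s ⊆ A.U s := by
    rintro (a | w) x hx
    · exact (hA.Ub a x).2 ⟨((Kb a x).1 hx).1, by linarith [((Kb a x).1 hx).2]⟩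
    · exact ((Ke w x).1 hx).1
  have hup : ∀ v, act v → ∀ s p, p ∈ (T.base v).c s '' T.bK v s →
      Sum.inl (v, p) ∈ A.c s '' K s := by
    rintro v hv s _ ⟨u, hu, rfl⟩
    have h0 := (hA.sc_pos s v).ne'
    have h1 : sc lam s v • (sc lam s v)⁻¹ • u ∈ (T.base v).U s := by
      rw [smul_inv_smul₀ h0]; exact bK_sub v s hu
    have h2 := hA.conv' hv h1
    refine ⟨(sc lam s v)⁻¹ • u, ?_, by rw [h2.2, smul_inv_smul₀ h0]⟩
    cases s with
    | inl a => exact (Kb a _).2 ⟨hu.1 ▸ hv, by simpa [sc] using hu.2⟩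
    | inr w =>
      refine (Ke w _).2 ⟨h2.1, fun v' hv' h3 => ?_⟩
      have h4 := (hA.conv w v' _ hv' h3).2
      rw [h2.2] at h4
      obtain ⟨rfl, -⟩ := Prod.mk.inj (Sum.inl.inj h4)
      have h5 : lam w v • (sc lam (Sum.inr w) v)⁻¹ • u = u := smul_inv_smul₀ h0 u
      rw [h5]; exact hu.2
  have hfar : ∀ w, ∀ y ∈ A.U (Sum.inr w), A.c (Sum.inr w) y = Sum.inr (w, T.orb w y) →
      y ∈ K (Sum.inr w) := fun w y hy e => (Ke w y).2 ⟨hy, fun v hv h1 => by
        rw [(hA.conv w v y hv h1).2] at e; cases e⟩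
  refine ⟨fun s b y hy => ContDiffAt.contDiffWithinAt ?_, χ_nonneg, fun b y hy => ?_, hsub,
    fun s b y hy h0 => ?_, fun s => ?_⟩
  · rcases hA.cases' hy with ⟨v, hv, h1⟩ | ⟨w, rfl, -, h1⟩
    · have h2 : ∀ s', ContDiffAt ℝ ∞ (fun z => T.th v s' ((T.base v).c b (sc lam b v • z))) y :=
        fun s' => ((h.th_sm v s' b).contDiffAt (((h.base v).isOpen b).mem_nhds h1)).comp y
          (f := fun z : E4 => sc lam b v • z) (contDiff_const_smul _).contDiffAt
      refine ((h2 s).div (ContDiffAt.sum (s := Finset.univ) fun s' _ => h2 s')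
        (by linarith [h.sum_ge h1])).congr_of_eventuallyEq ?_
      filter_upwards [hA.conv_ev h hv h1] with z hz
      rw [hz.2, χ_inl]; rfl
    · refine (contDiffAt_const (c := if s = Sum.inr w then (1 : ℝ) else 0)).congr_of_eventuallyEq ?_
      filter_upwards [h1, (hA.isOpen w).mem_nhds hy] with z h2 h3 using hA.χ_far h h3 h2 s
  · rcases hA.cases' hy with ⟨v, hv, h1⟩ | ⟨w, rfl, h1, -⟩
    · simp only [(hA.conv' hv h1).2, χ_inl]
      rw [← Finset.sum_div, div_self (by linarith [h.sum_ge h1])]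
    · simp [h1, χ_inr]
  · rcases hA.cases' hy with ⟨v, hv, h1⟩ | ⟨w, rfl, h1, -⟩
    · rw [(hA.conv' hv h1).2] at h0 ⊢
      exact hup v hv s _ (h.th_ne fun e => h0 (by rw [χ_inl, e, zero_div]))
    · have hs : s = Sum.inr w := by
        by_contra hs
        exact h0 (by rw [h1, χ_inr, if_neg hs])
      subst hs
      exact ⟨y, hfar w y hy h1, rfl⟩
  · cases s with
    | inl a =>
      refine hO.cl_cpt ?_ (hsub _)
      have : K (Sum.inl a) = {x | act (T.vx a)} ∩ closedBall 0 (3 / 2) := by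
        ext x; simp [Kb]
      rw [this]
      exact (isCompact_closedBall _ _).inter_left isClosed_const
    | inr w =>
      intro b y hy hn
      rcases hA.cases' hy with ⟨v, hv, h1⟩ | ⟨w', rfl, h1, -⟩
      · have h2 := h.base_cl v (Sum.inr w) b _ h1 fun h2 =>
          hn (by rw [(hA.conv' hv h1).2]; exact hup v hv _ _ h2)
        have hc : Continuous fun z : E4 => sc lam b v • z := continuous_const_smul _
        filter_upwards [hc.continuousAt.eventually h2, hA.conv_ev h hv h1] with z h3 h4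
        rintro ⟨x, hx, e⟩
        obtain ⟨h5, h6⟩ := (Ke w x).1 hx
        rw [h4.2] at e
        rcases hA.cases w x h5 with ⟨v', hv', h7⟩ | ⟨h7, -⟩
        · rw [(hA.conv w v' x hv' h7).2] at e
          obtain ⟨rfl, e'⟩ := Prod.mk.inj (Sum.inl.inj e)
          exact h3 ⟨_, ⟨h7, h6 _ hv h7⟩, e'⟩
        · rw [h7] at e; cases e
      · have hw : w ≠ w' := by
          rintro rfl
          exact hn ⟨y, hfar w y hy h1, rfl⟩
        filter_upwards [(hA.isOpen w').mem_nhds hy] with z hz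
        rintro ⟨x, hx, e⟩
        exact hA.disj h hw (hsub _ hx) hz e

end TD

end Crest.Agent.N207.I

end
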