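import Crest.Agent.N207.I.Fix
import Crest.Agent.N207.I.Car3
import Crest.Agent.N207.I.Lim1
import Crest.Agent.N207.A.Mk
import Crest.Agent.N207.AI.Nat

/-!
# Row 207, block I (helper24): families of charts shaped like a tree, the hypotheses of the gluing
-/

set_option autoImplicit false
open Set Filter Topology Function Metric
open scoped ContDiff Manifold
open Crest.GeometryTopology.CoordMetric
open Crest.Agent.R202.Tens

noncomputable section

namespace Crest.Agent.N207.I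

open Jt

/-- depth function of the balls -/
def rB (x : E4) : ℝ := ‖x‖ ^ 2 / 2

/-- depth function of the collars -/
def rO (x : E4) : ℝ := 2 + (‖x‖ ^ 2 - 1) * (‖x‖ ^ 2 - 16)

theorem rB_two {x : E4} : rB x < 2 ↔ ‖x‖ < 2 :=
  ⟨fun h => by unfold rB at h; nlinarith [norm_nonneg x], fun h => by
    unfold rB; nlinarith [norm_nonneg x]⟩

theorem rB_four {x : E4} (h : rB x ≤ 4) : ‖x‖ < 3 := by unfold rB at h; nlinarith [norm_nonneg x]

theorem rO_two {x : E4} (h1 : 1 < ‖x‖) (h2 : ‖x‖ < 4) : rO x < 2 := by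
  have : 0 < (‖x‖ ^ 2 - 1) * (16 - ‖x‖ ^ 2) := mul_pos (by nlinarith) (by nlinarith)
  unfold rO; nlinarith

theorem rO_four {x : E4} (h : rO x ≤ 4) : 9 / 10 < ‖x‖ ∧ ‖x‖ < 9 / 2 := by
  unfold rO at h
  have h0 := norm_nonneg x
  constructor <;> by_contra h1 <;> push Not at h1
  · have : ‖x‖ ^ 2 ≤ 81 / 100 := by nlinarith
    nlinarith [sq_nonneg ‖x‖]
  · have : 81 / 4 ≤ ‖x‖ ^ 2 := by nlinarith
    nlinarith

theorem dp_of {ρ : E4 → ℝ} (hs : ContDiff ℝ ∞ ρ) {R : ℝ} (h : ∀ x, ρ x ≤ 4 → ‖x‖ < R) : Dp ρ :=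
  ⟨hs, (isCompact_closedBall (0 : E4) R).of_isClosed_subset
    (isClosed_le hs.continuous continuous_const) fun x hx => by simpa using (h x hx).le⟩

theorem rO_sm : ContDiff ℝ ∞ rO := contDiff_const.add
  (((contDiff_norm_sq ℝ).sub contDiff_const).mul ((contDiff_norm_sq ℝ).sub contDiff_const))

/-- rescaled neck metrics are uniformly controlled -/
theorem mu_of_jet {ι : Type} {l : Filter ι} {H : ι → MetricField 4} {S : ι → Set E4} {c : ι → ℝ}
    (hc : ∀ i, 0 < c i) {K : Set E4} {ρ : ℝ} (hρ : 0 < ρ) (hK : ∀ x ∈ K, ρ ≤ ‖x‖)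
    (hS : ∀ᶠ i in l, ∀ x ∈ K, c i • x ∈ S i) (hR : ∀ᶠ i in l, IsRiemannianOn (H i) (S i))
    (jet : ∀ k : ℕ, ∃ C : ℝ, ∀ᶠ i in l, ∀ p q, ∀ x ∈ S i,
      ‖iteratedFDeriv ℝ k (TD.dv (H i) p q) x‖ ≤ C * (‖x‖ ^ k)⁻¹)
    (small : ∀ᶠ i in l, ∀ p q, ∀ x ∈ S i, |TD.dv (H i) p q x| ≤ 1 / 100) :
    MU l (fun i x => H i (c i • x)) fun _ => K := by
  refine mu_iff.2 ⟨fun p q => ub_of_dv (ub_iff.2 ⟨?_, fun k => ?_⟩), 1 / 2, one_half_pos, ?_⟩
  · filter_upwards [hS, hR] with i h1 h2 x hx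
    exact (((h2.contDiffOn p q).contDiffAt (h2.isOpen.mem_nhds (h1 x hx))).comp x
      (contDiff_const_smul (c i)).contDiffAt).sub contDiffAt_const
  · obtain ⟨C, hC⟩ := jet k
    refine ⟨|C| * (ρ ^ k)⁻¹, ?_⟩
    filter_upwards [hS, hC] with i h1 h2 x hx
    have h0 := hc i
    have hx0 : 0 < ‖x‖ := hρ.trans_le (hK x hx)
    refine (norm_iter_smul (TD.dv (H i) p q) h0 k x).trans ?_
    calc _ ≤ c i ^ k * (|C| * (‖c i • x‖ ^ k)⁻¹) := by
          gcongr
          exact (h2 p q _ (h1 x hx)).trans (by gcongr; exact le_abs_self C)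
      _ = |C| * (‖x‖ ^ k)⁻¹ := by
          rw [norm_smul, Real.norm_of_nonneg h0.le, mul_pow]; field_simp
      _ ≤ _ := by gcongr; exact hK x hx
  · filter_upwards [hS, hR, small] with i h1 h2 h3 x hx
    exact pos_of_small (fun p q => metric_symm h2 (h1 x hx) p q) fun p q => h3 p q _ (h1 x hx)

section

variable {M : Type*} [TopologicalSpace M] [ChartedSpace E4 M] [IsManifold 𝓘(ℝ, E4) ∞ M]

theorem pm_smul (m : Met 4 M) {Ψ : E4 → M} {c : ℝ} {y : E4}
    (h : MDifferentiableAt 𝓘(ℝ, E4) 𝓘(ℝ, E4) Ψ (c • y)) :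
    m.pm (fun x => Ψ (c • x)) y = c ^ 2 • m.pm Ψ (c • y) := by
  ext p q
  have e : fderiv ℝ (fun x : E4 => c • x) y = c • ContinuousLinearMap.id ℝ E4 :=
    ((hasFDerivAt_id y).const_smul c).fderiv
  rw [← Gs.bil_single (m.pm _ y), Gs.pm_comp_bil m (T := fun x => c • x) h (by fun_prop), e]
  simp only [smul_apply, ContinuousLinearMap.id_apply, map_smul, Gs.bil_single, smul_eq_mul,
    Matrix.smul_apply]
  ring

theorem par_smul {Ψ : E4 → M} {U V : Set E4} (h : Par Ψ U) {c : ℝ} (hc : c ≠ 0) (hV : IsOpen V)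
    (hm : ∀ x ∈ V, c • x ∈ U) : Par (fun x => Ψ (c • x)) V := by
  refine Gs.par_comp h hV (contDiff_const_smul c).contDiffOn hm fun y _ a b hab => ?_
  have e : fderiv ℝ (fun x : E4 => c • x) y = c • ContinuousLinearMap.id ℝ E4 :=
    ((hasFDerivAt_id y).const_smul c).fderiv
  rw [e] at hab
  exact smul_right_injective _ hc hab

/-- naturality of the pull-back metric -/
theorem matT_pm (m : Met 4 M) {Ψ Ψ' : E4 → M} {F : E4 → E4} {x : E4}
    (h : MDifferentiableAt 𝓘(ℝ, E4) 𝓘(ℝ, E4) Ψ' (F x)) (hF : DifferentiableAt ℝ F x)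
    (e : Ψ =ᶠ[𝓝 x] fun z => Ψ' (F z)) : matT (m.pm Ψ) x = pullT F (matT (m.pm Ψ')) x := by
  funext I
  rw [pullT, AI.evT_matT, ← Gs.pm_comp_bil m h hF, Gs.bil_single, matT, Gs.pm_congr m e]

end

/-- a change of charts that agrees with a deck transformation at a point is this transformation -/
theorem Atl.Ok.tr_eq_iso {X : Type*} {α : Type} {A : Atl X α} (h : A.Ok) {a : α} {x : E4}
    {F : E4 → E4} (hF : A.Tr a a x F) {γ : Iso4} (hγ : γ ∈ A.Γ a) (e : γ x = F x) :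
    F =ᶠ[𝓝 x] γ := by
  have := h.fin a
  have hc := hF.sm.self_of_nhds.continuousAt
  have h1 : ∀ δ : A.Γ a, ∀ᶠ z in 𝓝 x, δ.1 z = F z → δ.1 = γ := fun δ => by
    by_cases hδ : δ.1 = γ
    · exact Eventually.of_forall fun _ _ => hδ
    · have hne : δ.1 x ≠ F x := fun e' => hδ (by
        have := h.free a (γ⁻¹ * δ.1) (mul_mem (inv_mem hγ) δ.2) x hF.mem (by
          show γ.symm (δ.1 x) = x
          rw [e', ← e, γ.symm_apply_apply])
        exact (inv_mul_eq_one.1 this).symm)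
      exact ((δ.1.continuous.continuousAt.ne_iff_eventually_ne hc).1 hne).mono
        fun z hz e' => absurd e' hz
  filter_upwards [eventually_all.2 h1, hF.eq, (h.isOpen a).eventually_mem hF.mem,
    hc.eventually ((h.isOpen a).eventually_mem hF.mem')] with z a1 a2 a3 a4
  obtain ⟨δ, hδ, e'⟩ := (h.fib a z a3 _ a4).1 a2.symm
  rw [← e', show δ = γ from a1 ⟨δ, hδ⟩ e']

namespace TD

variable {M : Type*} (T : TD M)

/-- the tree with new charts: `Ψ w` is the chart of the whole neck, in the units of `w` -/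
@[reducible] def inst (φ : T.B → E4 → M) (Ψ : T.V → E4 → M) (L : T.V → ℝ) : TD M :=
  { T with φ := φ, co := Ψ, ci := fun w x => Ψ w (Real.exp (L w) • x) }

/-- the enlarged neck -/
def nk (L : T.V → ℝ) (w : T.V) : Set E4 :=
  {x | 9 / 10 < ‖x‖ ∧ ‖x‖ < if w = T.root then 9 / 2 else 9 / 8 * T.r * Real.exp (L w)}

/-- the enlarged domains of `base v` -/
def bO (v : T.V) : T.S → Set E4 :=
  Sum.elim (fun a => if T.vx a = v then ball 0 3 else ∅) fun w =>
    if w = v then {x | 9 / 10 < ‖x‖ ∧ ‖x‖ < 9 / 2}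
    else if T.kid v w then {x | 9 / 40 * T.r < ‖x‖ ∧ ‖x‖ < 9 / 8 * T.r} else ∅

/-- the depth functions of `base v` -/
def bρ (v : T.V) : T.S → E4 → ℝ :=
  Sum.elim (fun a => if T.vx a = v then rB else fun _ => 5) fun w =>
    if w = v then rO else if T.kid v w then fun x => rO ((4 / T.r) • x) else fun _ => 5

variable {T}

theorem bρ_dp (hr : 0 < T.r) (v : T.V) (s : T.S) : Dp (T.bρ v s) ∧ lc (T.bρ v s) 4 ⊆ T.bO v s ∧
    (T.base v).U s ⊆ lv (T.bρ v s) 2 ∧ ∀ x y, ‖x‖ = ‖y‖ → T.bρ v s x = T.bρ v s y := by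
  have h5 : Dp (fun _ : E4 => (5 : ℝ)) ∧ lc (fun _ : E4 => (5 : ℝ)) 4 ⊆ ∅ ∧
      ∅ ⊆ lv (fun _ : E4 => (5 : ℝ)) 2 ∧ ∀ x y : E4, ‖x‖ = ‖y‖ → (5 : ℝ) = 5 :=
    ⟨dp_of contDiff_const (R := 0) fun x hx => by norm_num at hx, fun x hx => by
      norm_num [lc] at hx, empty_subset _, fun _ _ _ => rfl⟩
  have hn : ∀ x : E4, ‖(4 / T.r) • x‖ = 4 / T.r * ‖x‖ := fun x => by
    rw [norm_smul, Real.norm_of_nonneg (by positivity)]
  have h4 : ∀ x : E4, rO ((4 / T.r) • x) ≤ 4 → 9 / 40 * T.r < ‖x‖ ∧ ‖x‖ < 9 / 8 * T.r :=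
    fun x hx => by
      obtain ⟨h1, h2⟩ := rO_four hx
      rw [hn, div_mul_eq_mul_div] at h1 h2
      rw [lt_div_iff₀ hr] at h1
      rw [div_lt_iff₀ hr] at h2
      constructor <;> linarith
  cases s with
  | inl a =>
    simp only [bρ, bO, base, bU, Sum.elim_inl]
    split_ifs
    · exact ⟨dp_of ((contDiff_norm_sq ℝ).div_const _) fun x => rB_four,
        fun x hx => by simpa using rB_four hx, fun x hx => rB_two.2 (by simpa using hx),
        fun x y e => by simp only [rB, e]⟩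
    · exact h5
  | inr w =>
    simp only [bρ, bO, base, Sum.elim_inr]
    split_ifs
    · exact ⟨dp_of rO_sm fun x hx => (rO_four hx).2, fun x hx => rO_four hx,
        fun x hx => rO_two hx.1 hx.2, fun x y e => by simp only [rO, e]⟩
    · refine ⟨dp_of (rO_sm.comp (contDiff_const_smul _)) fun x hx => (h4 x hx).2, h4,
        fun x hx => rO_two ?_ ?_, fun x y e => by simp only [rO, hn, e]⟩
      · rw [hn, div_mul_eq_mul_div, lt_div_iff₀ hr]; linarith [hx.1]
      · rw [hn, div_mul_eq_mul_div, div_lt_iff₀ hr]; linarith [hx.2]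
    · exact h5

theorem base_sub (hr : 0 < T.r) (v : T.V) (s : T.S) : (T.base v).U s ⊆ T.bO v s := fun x hx =>
  (bρ_dp hr v s).2.1 (show T.bρ v s x ≤ 4 by
    linarith [show T.bρ v s x < 2 from (bρ_dp hr v s).2.2.1 hx])

theorem nk_open (L : T.V → ℝ) (w : T.V) : IsOpen (T.nk L w) :=
  (isOpen_lt continuous_const continuous_norm).inter (isOpen_lt continuous_norm continuous_const)

theorem nk_out {L : T.V → ℝ} (hL : T.Long L) {w : T.V} {x : E4} (h1 : 9 / 10 < ‖x‖)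
    (h2 : ‖x‖ < 9 / 2) : x ∈ T.nk L w := by
  refine ⟨h1, ?_⟩
  split_ifs with hw
  · exact h2
  · linarith [hL w hw]

theorem nk_inn {L : T.V → ℝ} (hL : T.Long L) {w : T.V} (hw : w ≠ T.root) {x : E4}
    (h1 : 9 / 40 * T.r < ‖x‖) (h2 : ‖x‖ < 9 / 8 * T.r) : Real.exp (L w) • x ∈ T.nk L w := by
  have he := Real.exp_pos (L w)
  have := hL w hw
  simp only [nk, mem_ofPred_eq, if_neg hw, norm_smul, Real.norm_of_nonneg he.le]
  constructor <;> nlinarith

/-- the collars of `base v` are rescaled pieces of the necks -/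
theorem bO_inr {L : T.V → ℝ} (hL : T.Long L) {v w : T.V} {x : E4} (hx : x ∈ T.bO v (Sum.inr w)) :
    (if w = v then 1 else Real.exp (L w)) • x ∈ T.nk L w := by
  simp only [bO, Sum.elim_inr] at hx
  split_ifs at hx ⊢ with h1 h2
  · rw [one_smul]; exact nk_out hL hx.1 hx.2
  · exact nk_inn hL h2.1 hx.1 hx.2
  · exact hx.elim

theorem inst_c (φ : T.B → E4 → M) (Ψ : T.V → E4 → M) (L : T.V → ℝ) (v w : T.V) (x : E4) :
    ((T.inst φ Ψ L).base v).c (Sum.inr w) x = Ψ w ((if w = v then 1 else Real.exp (L w)) • x) := by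
  by_cases h : w = v
  · subst h; simp [base]
  · simp [base, h]

theorem bO_open (v : T.V) (s : T.S) : IsOpen (T.bO v s) := by
  have : ∀ a b : ℝ, IsOpen {x : E4 | a < ‖x‖ ∧ ‖x‖ < b} := fun a b =>
    (isOpen_lt continuous_const continuous_norm).inter (isOpen_lt continuous_norm continuous_const)
  cases s <;> simp only [bO, Sum.elim_inl, Sum.elim_inr] <;> split_ifs <;>
    first | exact isOpen_ball | exact isOpen_empty | exact this _ _

theorem eps_kid' (hd : ∀ w, w ≠ T.root → T.dep w = T.dep (T.par w) + 1) (L : T.V → ℝ) {w : T.V}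
    (hw : w ≠ T.root) : T.eps L w = T.eps L (T.par w) * Real.exp (-L w) := by
  rw [eps, eps, hd w hw, Finset.sum_range_succ', ← Real.exp_add]
  simp only [Function.iterate_succ, Function.comp_apply, Function.iterate_zero, id_eq]
  congr 1; ring

variable [TopologicalSpace M] [ChartedSpace E4 M] [IsManifold 𝓘(ℝ, E4) ∞ M] {ι : Type}

variable (T) in
/-- a family of charts shaped like the tree `T`; `g i` is in the units of the root -/
structure Pre (l : Filter ι) (g : ι → Met 4 M) (φ : ι → T.B → E4 → M) (Ψ : ι → T.V → E4 → M)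
    (L : ι → T.V → ℝ) : Prop where
  r_pos : 0 < T.r
  dep_par : ∀ w, w ≠ T.root → T.dep w = T.dep (T.par w) + 1
  long : ∀ᶠ i in l, T.Long (L i)
  parB : ∀ a, ∀ᶠ i in l, Par (φ i a) (ball 0 3) ∧ InjOn (φ i a) (ball 0 3)
  muB : ∀ a, MU l (fun i y => (T.eps (L i) (T.vx a) ^ 2)⁻¹ • (g i).pm (φ i a) y) fun _ => ball 0 3
  parN : ∀ w, ∀ᶠ i in l, Par (Ψ i w) (T.nk (L i) w)
  fib : ∀ w, ∀ᶠ i in l, ∀ x ∈ T.nk (L i) w, ∀ y ∈ T.nk (L i) w,
    Ψ i w x = Ψ i w y ↔ ∃ γ ∈ T.Γ w, γ x = y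
  jet : ∀ w (k : ℕ), ∃ C : ℝ, ∀ᶠ i in l, ∀ p q, ∀ x ∈ T.nk (L i) w, ‖iteratedFDeriv ℝ k
    (dv (fun y => (T.eps (L i) w ^ 2)⁻¹ • (g i).pm (Ψ i w) y) p q) x‖ ≤ C * (‖x‖ ^ k)⁻¹
  small : ∀ w, ∀ᶠ i in l, ∀ p q, ∀ x ∈ T.nk (L i) w,
    |dv (fun y => (T.eps (L i) w ^ 2)⁻¹ • (g i).pm (Ψ i w) y) p q x| ≤ 1 / 100
  disj : ∀ v w w', w ≠ w' → ∀ᶠ i in l, ∀ x ∈ T.bO v (Sum.inr w), ∀ y ∈ T.bO v (Sum.inr w'),
    ((T.inst (φ i) (Ψ i) (L i)).base v).c (Sum.inr w) x ≠
      ((T.inst (φ i) (Ψ i) (L i)).base v).c (Sum.inr w') y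

variable {l : Filter ι} {g : ι → Met 4 M} {φ : ι → T.B → E4 → M} {Ψ : ι → T.V → E4 → M}
  {L : ι → T.V → ℝ}

theorem Pre.par (h : T.Pre l g φ Ψ L) (v : T.V) (s : T.S) :
    ∀ᶠ i in l, Par (((T.inst (φ i) (Ψ i) (L i)).base v).c s) (T.bO v s) := by
  cases s with
  | inl a =>
    refine (h.parB a).mono fun i hi => Gs.par_mono hi.1 (bO_open _ _) ?_
    simp only [bO, Sum.elim_inl]
    split_ifs <;> simp
  | inr w =>
    filter_upwards [h.parN w, h.long] with i h1 h2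
    rw [funext (inst_c (φ i) (Ψ i) (L i) v w)]
    refine par_smul h1 ?_ (bO_open _ _) fun x hx => bO_inr h2 hx
    split_ifs
    exacts [one_ne_zero, (Real.exp_pos _).ne']

theorem Pre.fibN (h : T.Pre l g φ Ψ L) (v w : T.V) : ∀ᶠ i in l, ∀ x ∈ T.bO v (Sum.inr w),
    ∀ y ∈ T.bO v (Sum.inr w), ((T.inst (φ i) (Ψ i) (L i)).base v).c (Sum.inr w) x =
      ((T.inst (φ i) (Ψ i) (L i)).base v).c (Sum.inr w) y ↔ ∃ γ ∈ T.Γ w, γ x = y := by
  filter_upwards [h.fib w, h.long] with i h1 h2 x hx y hy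
  rw [inst_c, inst_c, h1 _ (bO_inr h2 hx) _ (bO_inr h2 hy)]
  refine exists_congr fun γ => and_congr_right fun _ => ?_
  rw [map_smul]
  refine (smul_right_injective _ ?_).eq_iff
  split_ifs
  exacts [one_ne_zero, (Real.exp_pos _).ne']

theorem Pre.injB (h : T.Pre l g φ Ψ L) (v : T.V) (a : T.B) :
    ∀ᶠ i in l, InjOn (φ i a) (T.bO v (Sum.inl a)) := by
  refine (h.parB a).mono fun i hi => hi.2.mono ?_
  simp only [bO, Sum.elim_inl]
  split_ifs <;> simp

/-- the metric in the units of `v` -/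
def un' (T : TD M) (g : Met 4 M) (L : T.V → ℝ) (v : T.V) : Met 4 M :=
  g.scale (T.eps L v ^ 2)⁻¹ (inv_pos.2 (pow_pos (eps_pos L v) 2))

variable [T3Space M] [ConnectedSpace M]

theorem Pre.mu (h : T.Pre l g φ Ψ L) (v : T.V) (s : T.S) :
    MU l (fun i => (T.un' (g i) (L i) v).pm (((T.inst (φ i) (Ψ i) (L i)).base v).c s))
      fun _ => T.bO v s := by
  have hr := h.r_pos
  have he : ∀ G : ι → MetricField 4, MU l G fun _ => ∅ := fun G =>
    mu_iff.2 ⟨fun _ _ => ub_iff.2 ⟨by simp, fun _ => ⟨0, by simp⟩⟩, 1, one_pos, by simp⟩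
  cases s with
  | inl a =>
    simp only [bO, Sum.elim_inl, un', Met.scale_pm]
    split_ifs with hv
    · subst hv; exact h.muB a
    · exact he _
  | inr w =>
    by_cases h0 : T.bO v (Sum.inr w) = ∅
    · rw [h0]; exact he _
    have h1 : w ≠ v → T.kid v w := fun hw => by
      by_contra hk
      exact h0 (by simp [bO, hw, hk])
    have hc : ∀ i, (0 : ℝ) < if w = v then 1 else Real.exp (L i w) := fun i => by
      split_ifs
      exacts [one_pos, Real.exp_pos _]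
    have h2 := mu_of_jet hc (K := T.bO v (Sum.inr w)) (ρ := min (9 / 10) (9 / 40 * T.r))
      (by positivity) (fun x hx => ?_) (h.long.mono fun i hi x hx => bO_inr hi hx)
      ((h.parN w).mono fun i hi => by
        have := Gs.par_riem (T.un' (g i) (L i) w) hi
        rwa [un', Met.scale_pm] at this) (h.jet w) (h.small w)
    · refine MB.congr h2 (ev_un.2 ?_)
      filter_upwards [h.parN w, h.long] with i a1 a2 x hx
      refine ⟨rfl, ?_⟩
      filter_upwards [(bO_open _ _).mem_nhds hx] with y hy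
      rw [funext (inst_c (φ i) (Ψ i) (L i) v w), un', Met.scale_pm]
      simp only
      rw [pm_smul _ (Gs.par_md a1 (bO_inr a2 hy)), smul_smul]
      congr 1
      split_ifs with hw
      · rw [hw]; simp
      · have := eps_pos (L i) v
        rw [eps_kid' h.dep_par _ (h1 hw).1, (h1 hw).2, Real.exp_neg]
        field_simp
    · simp only [bO, Sum.elim_inr] at hx
      split_ifs at hx
      exacts [(min_le_left _ _).trans hx.1.le, (min_le_right _ _).trans hx.1.le, hx.elim]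

theorem Pre.geo {𝒰 : Ultrafilter ι} (h : T.Pre 𝒰 g φ Ψ L) (v : T.V) :
    GeoH 𝒰 (fun i => T.un' (g i) (L i) v)
      (fun s i => ((T.inst (φ i) (Ψ i) (L i)).base v).c s) (T.bρ v) (fun s => s.isLeft)
      (T.bO v) := by
  have hd := bρ_dp h.r_pos v
  have hs : ∀ s, lv (T.bρ v s) 4 ⊆ T.bO v s := fun s x (hx : T.bρ v s x < 4) =>
    (hd s).2.1 hx.le
  refine ⟨fun s => (hd s).1, fun s => (hd s).2.1, h.par v,
    fun s => (h.mu v s).mono (.of_forall fun _ => hs s), fun s hs' => ?_, fun s => ?_,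
    fun s s' h1 h2 => ?_⟩
  · cases s with
    | inl a => exact (h.injB v a).mono fun i hi => hi.mono (hs _)
    | inr w => simp at hs'
  · cases s with
    | inl a => exact (h.injB v a).mono fun i hi z hz z' hz' e => by rw [hi (hs _ hz) (hs _ hz') e]
    | inr w =>
      refine (h.fibN v w).mono fun i hi z hz z' hz' e => ?_
      obtain ⟨γ, -, rfl⟩ := (hi z (hs _ hz) z' (hs _ hz')).1 e
      exact (hd _).2.2.2 _ _ (γ.norm_map z).symm
  · rcases s with a | w
    · simp at h1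
    rcases s' with a | w'
    · simp at h2
    by_cases hw : w = w'
    · subst hw
      exact ((h.fibN v w).prod_mk (h.fibN v w)).mono fun p hp z hz z' hz' e =>
        (hp.2 z (hs _ hz) z' (hs _ hz')).2 ((hp.1 z (hs _ hz) z' (hs _ hz')).1 e)
    · exact ((h.disj v w w' hw).prod_inl _).mono fun p hp z hz z' hz' e =>
        absurd e (hp z (hs _ hz) z' (hs _ hz'))

end TD

end Crest.Agent.N207.I

end
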