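import Crest.Agent.N207.I.Car4
import Crest.Agent.N207.I.Pre
import Crest.Agent.N207.Sk.Defs

/-!
# Row 207, block I (helper98): trees of necks at one index, `TD.Ok`
-/

set_option autoImplicit false
set_option linter.unusedSectionVars false

open scoped ContDiff Topology Manifold
open Set Filter Metric

noncomputable section

namespace Crest.Agent.N207

open Sk

section neck

variable {M : Type*} [TopologicalSpace M] [ChartedSpace E4 M] [IsManifold 𝓘(ℝ, E4) ∞ M] {N : Nk M}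

theorem Sk.isOpen_shell' (a b : ℝ) : IsOpen (shell a b) :=
  (isOpen_lt continuous_const continuous_norm).inter (isOpen_lt continuous_norm continuous_const)

theorem Sk.Nk.om_mono (N : Nk M) {r r' : ℝ} (h : r ≤ r') : N.Om r ⊆ N.Om r' :=
  union_subset_union_right _ (image_mono fun _ hx => ⟨hx.1, hx.2.trans_le h⟩)

theorem Sk.Nk.Top.nrm_eq (h : N.Top) {x y : E4} (hx : x ∈ shell N.a N.b) (hy : y ∈ shell N.a N.b)
    (e : N.Ψ x = N.Ψ y) : ‖x‖ = ‖y‖ := by
  obtain ⟨γ, -, rfl⟩ := (h.fib x hx y hy).1 e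
  simp

theorem Sk.Nk.Top.om_iff (h : N.Top) {x : E4} (hx : x ∈ shell N.a N.b) {r : ℝ} (hr : r ≤ N.b) :
    N.Ψ x ∈ N.Om r ↔ ‖x‖ < r := by
  refine ⟨?_, fun h1 => Or.inr ⟨x, ⟨hx.1, h1⟩, rfl⟩⟩
  rintro (h1 | ⟨y, hy, e⟩)
  · exact absurd h1 (h.disj x hx)
  · rw [← h.nrm_eq ⟨hy.1, hy.2.trans_le hr⟩ hx e]; exact hy.2

theorem Sk.Nk.om_diff (N : Nk M) {p : M} {r r' : ℝ} (h : p ∈ N.Om r') (h' : p ∉ N.Om r) :
    ∃ y : E4, N.a < ‖y‖ ∧ r ≤ ‖y‖ ∧ ‖y‖ < r' ∧ N.Ψ y = p := by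
  rcases h with h | ⟨y, hy, rfl⟩
  · exact absurd (Or.inl h) h'
  · exact ⟨y, hy.1, not_lt.1 fun h1 => h' (Or.inr ⟨y, ⟨hy.1, h1⟩, rfl⟩), hy.2, rfl⟩

end neck

namespace I

namespace TD

/-- the tree with the charts given by the necks `N` (child units) and the balls `φ` -/
@[reducible] def wth {M : Type*} (T0 : TD M) (N : T0.V → Nk M) (φ : T0.B → E4 → M)
    (L : T0.V → ℝ) : TD M := T0.inst φ (fun v => (N v).Ψ) L

variable {M : Type*} [TopologicalSpace M] [ChartedSpace E4 M] [IsManifold 𝓘(ℝ, E4) ∞ M]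

/-- the combinatorial part of `TD.Ok` -/
structure Cmb {M : Type*} (T0 : TD M) : Prop where
  dep_root : T0.dep T0.root = 0
  dep_par : ∀ w, w ≠ T0.root → T0.dep w = T0.dep (T0.par w) + 1
  r_pos : 0 < T0.r
  r_lt : T0.r < 1

/-- a tree of necks and ball charts -/
structure Cfg (T0 : TD M) (N : T0.V → Nk M) (φ : T0.B → E4 → M) (L : T0.V → ℝ) : Prop where
  cmb : T0.Cmb
  top : ∀ v, (N v).Top
  grp : ∀ v, (N v).Γ = T0.Γ v
  a_eq : ∀ v, (N v).a = 3 / 4
  b_root : (N T0.root).b = 6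
  b_kid : ∀ w, w ≠ T0.root → (N w).b = 2 * T0.r * Real.exp (L w)
  long : ∀ w, w ≠ T0.root → 64 ≤ T0.r * Real.exp (L w)
  par : ∀ a, Par (φ a) (ball 0 4)
  inj : ∀ a, InjOn (φ a) (ball 0 4)
  nest : ∀ v w, T0.kid v w → (N w).Om (N w).b ⊆ (N v).Om (7 / 8)
  sib : ∀ v w w', T0.kid v w → T0.kid v w' → w ≠ w' →
    Disjoint ((N w).Om (N w).b) ((N w').Om (N w').b)
  bo : ∀ a, ∀ x ∈ ball (0 : E4) 4, φ a x ∈ (N (T0.vx a)).Om 3
  bi : ∀ a w, T0.kid (T0.vx a) w → ∀ x ∈ ball (0 : E4) 4,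
    φ a x ∉ (N w).Om (2 / 5 * T0.r * Real.exp (L w))
  cov : ∀ v, ∀ p ∈ (N v).Om 2, (∀ w, T0.kid v w → p ∉ (N w).Om (T0.r / 2 * Real.exp (L w))) →
    ∃ b, T0.vx b = v ∧ p ∈ φ b '' ball 0 1

variable {T0 : TD M} {N : T0.V → Nk M} {φ : T0.B → E4 → M} {L : T0.V → ℝ}

theorem Cmb.kid_ne {M : Type*} {T0 : TD M} (h : T0.Cmb) {v w : T0.V} (hk : T0.kid v w) : w ≠ v := by
  rintro rfl
  have := h.dep_par w hk.1
  rw [hk.2] at this; omega

theorem nrm_exp' (t : ℝ) (x : E4) : ‖Real.exp t • x‖ = ‖x‖ * Real.exp t := by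
  rw [norm_smul, Real.norm_of_nonneg (Real.exp_pos _).le, mul_comm]

namespace Cfg

variable (h : T0.Cfg N φ L)
include h

theorem b_ge (v : T0.V) : 6 ≤ (N v).b := by
  by_cases hv : v = T0.root
  · rw [hv, h.b_root]
  · rw [h.b_kid v hv]; linarith [h.long v hv]

theorem out_mem (v : T0.V) {x : E4} (h1 : 3 / 4 < ‖x‖) (h2 : ‖x‖ < 6) :
    x ∈ shell (N v).a (N v).b := ⟨by rw [h.a_eq]; exact h1, h2.trans_le (h.b_ge v)⟩

theorem inn_mem {w : T0.V} (hw : w ≠ T0.root) {u : E4} (h1 : T0.r / 8 < ‖u‖) (h2 : ‖u‖ < 2 * T0.r) :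
    Real.exp (L w) • u ∈ shell (N w).a (N w).b := by
  have he := Real.exp_pos (L w)
  refine ⟨?_, ?_⟩ <;> rw [nrm_exp']
  · rw [h.a_eq]; nlinarith [h.long w hw]
  · rw [h.b_kid w hw]; nlinarith

/-- the neck of a vertex (beyond `7/8`) does not meet the inside of a child -/
theorem out_notMem {v w : T0.V} (hk : T0.kid v w) {x : E4} (hx : x ∈ shell (N v).a (N v).b)
    (h1 : 7 / 8 ≤ ‖x‖) : (N v).Ψ x ∉ (N w).Om (N w).b := fun h2 =>
  absurd (((h.top v).om_iff hx (by linarith [h.b_ge v])).1 (h.nest v w hk h2)) (not_lt.2 h1)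

theorem psi_mem (w : T0.V) {x : E4} (hx : x ∈ shell (N w).a (N w).b) :
    (N w).Ψ x ∈ (N w).Om (N w).b := Or.inr ⟨x, hx, rfl⟩

/-- a parent and a child -/
theorem ne_kid {v w : T0.V} (hk : T0.kid v w) {x y : E4} (hx : x ∈ shell (N v).a (N v).b)
    (h1 : 7 / 8 ≤ ‖x‖) (hy : y ∈ shell (N w).a (N w).b) : (N v).Ψ x ≠ (N w).Ψ y := fun e =>
  h.out_notMem hk hx h1 (e ▸ h.psi_mem w hy)

/-- two children -/
theorem ne_sib {v w w' : T0.V} (hk : T0.kid v w) (hk' : T0.kid v w') (hw : w ≠ w') {x y : E4}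
    (hx : x ∈ shell (N w).a (N w).b) (hy : y ∈ shell (N w').a (N w').b) :
    (N w).Ψ x ≠ (N w').Ψ y := fun e =>
  disjoint_left.1 (h.sib v w w' hk hk' hw) (h.psi_mem w hx) (e ▸ h.psi_mem w' hy)

/-- the charts of `base v` -/
theorem chart (v : T0.V) (s : T0.S) {x : E4} (hx : x ∈ ((T0.wth N φ L).base v).U s) :
    (∃ a, s = Sum.inl a ∧ T0.vx a = v ∧ ‖x‖ < 2 ∧ ((T0.wth N φ L).base v).c s = φ a) ∨
    (s = Sum.inr v ∧ 1 < ‖x‖ ∧ ‖x‖ < 4 ∧ ((T0.wth N φ L).base v).c s = (N v).Ψ) ∨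
    ∃ w, s = Sum.inr w ∧ T0.kid v w ∧ T0.r / 4 < ‖x‖ ∧ ‖x‖ < T0.r ∧
      ((T0.wth N φ L).base v).c s = fun u => (N w).Ψ (Real.exp (L w) • u) := by
  cases s with
  | inl a => exact Or.inl ⟨a, rfl, (mem_base_inl.1 hx).1, (mem_base_inl.1 hx).2, rfl⟩
  | inr w =>
    by_cases hw : w = v
    · subst hw
      exact Or.inr (Or.inl ⟨rfl, (mem_base_out.1 hx).1, (mem_base_out.1 hx).2,
        base_c_out (T := T0.wth N φ L) w⟩)
    · have := (mem_base_inn (T := T0.wth N φ L) hw).1 hx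
      exact Or.inr (Or.inr ⟨w, rfl, this.1, this.2.1, this.2.2, base_c_inn (T := T0.wth N φ L) hw⟩)

theorem base_par (v : T0.V) (s : T0.S) :
    Par (((T0.wth N φ L).base v).c s) (((T0.wth N φ L).base v).U s) := by
  have hr := h.cmb.r_pos
  have hO : IsOpen (((T0.wth N φ L).base v).U s) := by
    cases s with
    | inl a =>
      show IsOpen (if _ then _ else _)
      split_ifs
      exacts [isOpen_ball, isOpen_empty]
    | inr w =>
      show IsOpen (if _ then _ else if _ then _ else _)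
      split_ifs
      exacts [isOpen_shell' _ _, isOpen_shell' _ _, isOpen_empty]
  refine Gs.par_of_local hO fun x hx => ?_
  rcases h.chart v s hx with ⟨a, -, -, h1, e⟩ | ⟨-, h1, h2, e⟩ | ⟨w, -, hk, h1, h2, e⟩ <;> rw [e]
  · exact ⟨_, mem_ball_zero_iff.2 (by linarith), h.par a⟩
  · exact ⟨_, h.out_mem v (by linarith) (by linarith), (h.top v).par⟩
  · refine ⟨shell (T0.r / 8) (2 * T0.r), ⟨by linarith, by linarith⟩,
      Gs.par_comp (h.top w).par (isOpen_shell' _ _) (contDiff_const_smul _).contDiffOn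
        (fun y hy => h.inn_mem hk.1 hy.1 hy.2) fun y _ => ?_⟩
    rw [fderiv_fun_const_smul differentiableAt_fun_id, fderiv_fun_id]
    exact smul_right_injective _ (Real.exp_pos _).ne'

theorem base_ok [T2Space M] (v : T0.V) : ((T0.wth N φ L).base v).Ok := by
  have hr := h.cmb.r_pos
  refine Atl.ok_of_par (h.base_par v) (fun s => ?_) (fun s γ hγ x hx => ?_)
    (fun s γ hγ x hx e => ?_) fun s x hx y hy => ?_
  · cases s with
    | inl a => exact inferInstanceAs (Finite (⊥ : Subgroup Iso4))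
    | inr w => exact show Finite (T0.Γ w) from h.grp w ▸ (h.top w).grp.fin
  · rcases h.chart v s hx with ⟨a, rfl, h0, h1, -⟩ | ⟨rfl, h1, h2, -⟩ | ⟨w, rfl, hk, h1, h2, -⟩
    · exact mem_base_inl.2 ⟨h0, by simpa using h1⟩
    · exact mem_base_out.2 (by simpa using ⟨h1, h2⟩)
    · exact (mem_base_inn (T := T0.wth N φ L) (h.cmb.kid_ne hk)).2 ⟨hk, by simpa using ⟨h1, h2⟩⟩
  · rcases h.chart v s hx with ⟨a, rfl, -⟩ | ⟨rfl, h1, -⟩ | ⟨w, rfl, hk, h1, -⟩
    · exact Subgroup.mem_bot.1 hγ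
    · exact (h.top v).grp.free γ (h.grp v ▸ hγ) x (norm_pos_iff.1 (by linarith)) e
    · exact (h.top w).grp.free γ (h.grp w ▸ hγ) x (norm_pos_iff.1 (by linarith)) e
  · rcases h.chart v s hx with ⟨a, rfl, h0, h1, e⟩ | ⟨rfl, h1, h2, e⟩ | ⟨w, rfl, hk, h1, h2, e⟩ <;>
      rw [e]
    · have h2 := (mem_base_inl.1 hy).2
      refine ⟨fun e' => ⟨1, one_mem _, show x = y from h.inj a (mem_ball_zero_iff.2 (by linarith))
        (mem_ball_zero_iff.2 (by linarith)) e'⟩, ?_⟩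
      rintro ⟨γ, hγ, rfl⟩
      rw [Subgroup.mem_bot.1 hγ]; rfl
    · have h3 := mem_base_out.1 hy
      have := (h.top v).fib x (h.out_mem v (by linarith) (by linarith)) y
        (h.out_mem v (by linarith) (by linarith))
      rwa [h.grp] at this
    · have h3 := ((mem_base_inn (T := T0.wth N φ L) (h.cmb.kid_ne hk)).1 hy).2
      have h4 : T0.r / 4 < ‖y‖ := h3.1
      have h5 : ‖y‖ < T0.r := h3.2
      have := (h.top w).fib _ (h.inn_mem hk.1 (u := x) (by linarith) (by linarith)) _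
        (h.inn_mem hk.1 (u := y) (by linarith) (by linarith))
      rw [h.grp] at this
      refine this.trans (exists_congr fun γ => and_congr_right fun _ => ?_)
      rw [map_smul]
      exact (smul_right_injective _ (Real.exp_pos _).ne').eq_iff

/-- position of the points of `base v` -/
theorem pos (v : T0.V) (s : T0.S) {x : E4} (hx : x ∈ ((T0.wth N φ L).base v).U s) :
    ((T0.wth N φ L).base v).c s x ∈ (N v).Om 4 ∧ ∀ w, T0.kid v w → ∀ t : ℝ, t ≤ 2 * T0.r →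
      ((T0.wth N φ L).base v).c s x ∈ (N w).Om (t * Real.exp (L w)) →
        ∃ u : E4, T0.r / 4 < ‖u‖ ∧ ‖u‖ < t ∧
          (N w).Ψ (Real.exp (L w) • u) = ((T0.wth N φ L).base v).c s x := by
  have hr := h.cmb.r_pos
  have hb : ∀ w, T0.kid v w → ∀ t : ℝ, t ≤ 2 * T0.r → t * Real.exp (L w) ≤ (N w).b :=
    fun w hk t ht => by rw [h.b_kid w hk.1]; exact mul_le_mul_of_nonneg_right ht (Real.exp_pos _).le
  rcases h.chart v s hx with ⟨a, -, rfl, h1, e⟩ | ⟨-, h1, h2, e⟩ | ⟨w', -, hk', h1, h2, e⟩ <;> rw [e]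
  · have h2 : x ∈ ball (0 : E4) 4 := mem_ball_zero_iff.2 (by linarith)
    refine ⟨(N _).om_mono (by norm_num) (h.bo a x h2), fun w hk t ht h3 => ?_⟩
    obtain ⟨y, -, h4, h5, e'⟩ := (N w).om_diff h3 (h.bi a w hk x h2)
    have he := Real.exp_pos (L w)
    refine ⟨Real.exp (-L w) • y, lt_nrm_exp.2 (by nlinarith), nrm_exp_lt.2 h5, ?_⟩
    rw [smul_smul, ← Real.exp_add, add_neg_cancel, Real.exp_zero, one_smul, e']
  · have h3 := h.out_mem v (x := x) (by linarith) (by linarith)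
    exact ⟨Or.inr ⟨x, ⟨h3.1, h2⟩, rfl⟩, fun w hk t ht h4 =>
      absurd ((N w).om_mono (hb w hk t ht) h4) (h.out_notMem hk h3 (by linarith))⟩
  · have h3 := h.inn_mem hk'.1 (u := x) (by linarith) (by linarith)
    refine ⟨(N v).om_mono (by norm_num) (h.nest v w' hk' (h.psi_mem w' h3)), fun w hk t ht h4 => ?_⟩
    by_cases hw : w' = w
    · subst hw
      have h5 := ((h.top w').om_iff h3 (hb w' hk t ht)).1 h4
      rw [nrm_exp'] at h5
      exact ⟨x, h1, lt_of_mul_lt_mul_right h5 (Real.exp_pos _).le, rfl⟩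
    · exact absurd ((N w).om_mono (hb w hk t ht) h4)
        (disjoint_left.1 (h.sib v w' w hk' hk hw) (h.psi_mem w' h3))

theorem ok [T2Space M] : (T0.wth N φ L).Ok := by
  have hr := h.cmb.r_pos
  refine ⟨h.cmb.dep_root, h.cmb.dep_par, hr, h.cmb.r_lt, fun v => h.grp v ▸ (h.top v).grp.fin,
    fun v => h.grp v ▸ (h.top v).grp.ne, fun v γ hγ => (h.top v).grp.free γ (h.grp v ▸ hγ),
    h.base_ok, fun a x hx y h1 h2 e => ?_, fun a w hk x hx y h1 h2 e => ?_,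
    fun v w w' hw x hx y hy => ?_, fun v s x hx => ?_⟩
  · have h3 := h.bo a x (ball_subset_ball (by norm_num) hx)
    have e' : φ a x = (N (T0.vx a)).Ψ y := e
    rw [e'] at h3
    exact ((h.top _).om_iff (h.out_mem _ (by linarith) (by linarith)) (by linarith [h.b_ge (T0.vx a)])).1 h3
  · have h3 := h.bi a w hk x (ball_subset_ball (by norm_num) hx)
    have e' : φ a x = (N w).Ψ (Real.exp (L w) • y) := e
    have h1' : T0.r / 4 < ‖y‖ := h1
    have h2' : ‖y‖ < T0.r := h2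
    have he := Real.exp_pos (L w)
    rw [e', (h.top w).om_iff (h.inn_mem hk.1 (by linarith) (by linarith))
      (by rw [h.b_kid w hk.1]; nlinarith), nrm_exp'] at h3
    show T0.r / 3 < ‖y‖
    nlinarith
  · rcases h.chart v _ hx with ⟨a, e, -⟩ | ⟨e1, h1, h2, e⟩ | ⟨u, e1, hk, h1, h2, e⟩
    · cases e
    all_goals
      rcases h.chart v _ hy with ⟨a, e', -⟩ | ⟨e2, h3, h4, e'⟩ | ⟨u', e2, hk', h3, h4, e'⟩
    · cases e'
    · exact absurd ((Sum.inr.inj e1).trans (Sum.inr.inj e2).symm) hw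
    · rw [e, e']
      exact h.ne_kid hk' (h.out_mem v (by linarith) (by linarith)) (by linarith)
        (h.inn_mem hk'.1 (by linarith) (by linarith))
    · cases e'
    · rw [e, e']
      exact (h.ne_kid hk (h.out_mem v (by linarith) (by linarith)) (by linarith)
        (h.inn_mem hk.1 (by linarith) (by linarith))).symm
    · rw [e, e']
      exact h.ne_sib hk hk' (fun e3 => hw ((Sum.inr.inj e1).trans (e3.trans (Sum.inr.inj e2).symm)))
        (h.inn_mem hk.1 (by linarith) (by linarith)) (h.inn_mem hk'.1 (by linarith) (by linarith))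
  · obtain ⟨h1, h2⟩ := h.pos v s hx
    by_cases h3 : ((T0.wth N φ L).base v).c s x ∈ (N v).Om 2
    · by_cases h4 : ∀ w, T0.kid v w →
          ((T0.wth N φ L).base v).c s x ∉ (N w).Om (T0.r / 2 * Real.exp (L w))
      · obtain ⟨b, hb, y, hy, e⟩ := h.cov v _ h3 h4
        exact Or.inl ⟨b, hb, y, hy, e⟩
      · push Not at h4
        obtain ⟨w, hk, h4⟩ := h4
        obtain ⟨u, h5, h6, e⟩ := h2 w hk _ (by linarith) h4
        exact Or.inr (Or.inr ⟨w, hk, u, h5, h6.le, e⟩)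
    · obtain ⟨y, -, h4, h5, e⟩ := (N v).om_diff h1 h3
      exact Or.inr (Or.inl ⟨y, h4, h5, e⟩)

end Cfg

end TD

end I

end Crest.Agent.N207

end
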