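import Crest.Agent.N207.I.Cfg
import Crest.Agent.N207.K.Hd4

/-!
# Row 207, block I (helper98): the cores are connected; enlarged collars are disjoint
-/

set_option autoImplicit false
set_option linter.unusedSectionVars false

open scoped ContDiff Topology Manifold
open Set Filter Metric

noncomputable section

namespace Crest.Agent.N207.I

open Sk

theorem preconn_shell {a b : ℝ} (ha : 0 ≤ a) : IsPreconnected (shell a b) := by
  have h1 : IsPreconnected (Ioo a b ×ˢ sphere (0 : E4) 1) :=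
    isPreconnected_Ioo.prod (isPreconnected_sphere (by
      rw [← Module.finrank_eq_rank, finrank_euclideanSpace_fin]; norm_num) 0 1)
  have h2 := h1.image (fun p : ℝ × E4 => p.1 • p.2) (by fun_prop)
  convert h2 using 1
  ext x
  constructor
  · intro hx
    have h0 : 0 < ‖x‖ := ha.trans_lt hx.1
    refine ⟨(‖x‖, ‖x‖⁻¹ • x), ⟨hx, ?_⟩, smul_inv_smul₀ h0.ne' x⟩
    simp [norm_smul, h0.ne']
  · rintro ⟨⟨t, u⟩, ⟨ht, hu⟩, rfl⟩
    have h3 : ‖t • u‖ = t := by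
      rw [norm_smul, mem_sphere_zero_iff_norm.1 hu, mul_one, Real.norm_of_nonneg (ha.trans ht.1.le)]
    exact ⟨h3.symm ▸ ht.1, h3.symm ▸ ht.2⟩

/-- on a connected chart domain a clopen set is trivial -/
theorem Atl.clopen_chart {X : Type*} {α : Type} {A : Atl X α} {S : Set X} (h1 : A.Cl S)
    (h2 : A.Cl Sᶜ) {a : α} (hc : IsPreconnected (A.U a)) :
    (∀ x ∈ A.U a, A.c a x ∈ S) ∨ ∀ x ∈ A.U a, A.c a x ∉ S := by
  classical
  have hf : ContinuousOn (fun x => decide (A.c a x ∈ S)) (A.U a) := fun x hx => by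
    refine ContinuousAt.continuousWithinAt ?_
    by_cases h : A.c a x ∈ S
    · exact (continuousAt_const (y := true)).congr
        ((h2 a x hx (not_not.2 h)).mono fun z hz => by simpa using hz)
    · exact (continuousAt_const (y := false)).congr ((h1 a x hx h).mono fun z hz => by simpa using hz)
  by_contra h
  push Not at h
  obtain ⟨⟨x, hx, h3⟩, y, hy, h4⟩ := h
  have := hc.constant hf hx hy
  simp [h3, h4] at this

namespace TD.Cfg

variable {M : Type*} [TopologicalSpace M] [ChartedSpace E4 M] [IsManifold 𝓘(ℝ, E4) ∞ M]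
  {T0 : TD M} {N : T0.V → Nk M} {φ : T0.B → E4 → M} {L : T0.V → ℝ} (h : T0.Cfg N φ L)
include h

theorem long' : T0.Long L := fun w hw => by linarith [h.long w hw]

theorem nk_sub (w : T0.V) : T0.nk L w ⊆ shell (N w).a (N w).b := fun x hx => by
  refine ⟨by rw [h.a_eq]; linarith [hx.1], hx.2.trans_le ?_⟩
  split_ifs with hw
  · rw [hw, h.b_root]; norm_num
  · rw [h.b_kid w hw]; linarith [h.long w hw]

theorem glob_sub {w : T0.V} (hw : w ≠ T0.root) :
    (T0.glob L).U (Sum.inr w) ⊆ shell (N w).a (N w).b := fun x hx =>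
  ⟨by rw [h.a_eq]; linarith [hx.1], (hx.2 hw).trans_le (by
    rw [h.b_kid w hw]; linarith [h.long w hw])⟩

theorem parN (w : T0.V) : Par (N w).Ψ (T0.nk L w) :=
  Gs.par_mono (h.top w).par (nk_open L w) (h.nk_sub w)

theorem fibN (w : T0.V) : ∀ x ∈ T0.nk L w, ∀ y ∈ T0.nk L w,
    (N w).Ψ x = (N w).Ψ y ↔ ∃ γ ∈ T0.Γ w, γ x = y := fun x hx y hy => by
  rw [← h.grp]; exact (h.top w).fib x (h.nk_sub w hx) y (h.nk_sub w hy)

theorem disjO (v w w' : T0.V) (hw : w ≠ w') : ∀ x ∈ T0.bO v (Sum.inr w), ∀ y ∈ T0.bO v (Sum.inr w'),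
    ((T0.wth N φ L).base v).c (Sum.inr w) x ≠ ((T0.wth N φ L).base v).c (Sum.inr w') y := by
  intro x hx y hy
  have h1 := bO_inr h.long' hx
  have h2 := bO_inr h.long' hy
  have k : ∀ {w : T0.V} {x : E4}, x ∈ T0.bO v (Sum.inr w) → w ≠ v → T0.kid v w := fun hx hw => by
    by_contra hk
    simp [bO, hw, hk] at hx
  rw [inst_c, inst_c]
  by_cases e : w = v
  · subst e
    exact h.ne_kid (k hy hw.symm) (h.nk_sub _ h1) (by linarith [h1.1]) (h.nk_sub _ h2)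
  by_cases e' : w' = v
  · subst e'
    exact (h.ne_kid (k hx hw) (h.nk_sub _ h2) (by linarith [h2.1]) (h.nk_sub _ h1)).symm
  · exact h.ne_sib (k hx e) (k hy e') hw (h.nk_sub _ h1) (h.nk_sub _ h2)

/-- everything lies inside the root neck -/
theorem sub_root (v : T0.V) : (N v).Om (N v).b ⊆ (N T0.root).Om 6 := by
  induction hd : T0.dep v generalizing v with
  | zero =>
    by_cases hv : v = T0.root
    · rw [hv, h.b_root]
    · have := h.cmb.dep_par v hv; omega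
  | succ n ih =>
    have hv : v ≠ T0.root := fun e => by rw [e, h.cmb.dep_root] at hd; omega
    exact ((h.nest _ v ⟨hv, rfl⟩).trans ((N _).om_mono (by linarith [h.b_ge (T0.par v)]))).trans
      (ih _ (by have := h.cmb.dep_par v hv; omega))

theorem ball_sub (a : T0.B) {x : E4} (hx : x ∈ ball (0 : E4) 4) : φ a x ∈ (N T0.root).Om 6 :=
  h.sub_root _ ((N _).om_mono (by linarith [h.b_ge (T0.vx a)]) (h.bo a x hx))

theorem conn_aux [ConnectedSpace M] (v : T0.V) {S : Set M} (h1 : ((T0.wth N φ L).base v).Cl S)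
    (h2 : ((T0.wth N φ L).base v).Cl Sᶜ)
    (h0 : ∀ x ∈ ((T0.wth N φ L).base v).U (Sum.inr v),
      ((T0.wth N φ L).base v).c (Sum.inr v) x ∉ S) :
    ∀ s, ∀ x ∈ ((T0.wth N φ L).base v).U s, ((T0.wth N φ L).base v).c s x ∉ S := by
  set A := (T0.wth N φ L).base v with hA
  have hr := h.cmb.r_pos
  have hop : ∀ {S : Set M}, A.Cl Sᶜ → IsOpen {p | p ∈ S ∧ ∃ s, ∃ x ∈ A.U s, A.c s x = p} :=
    fun {S} hS => by
      rw [isOpen_iff_mem_nhds]
      rintro _ ⟨h3, s, x, hx, rfl⟩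
      refine mem_of_superset (Gs.par_nhds (h.base_par v s) hx (inter_mem
        ((h.base_par v s).isOpen.mem_nhds hx) (hS s x hx (not_not.2 h3)))) ?_
      rintro _ ⟨z, hz, rfl⟩
      exact ⟨not_not.1 hz.2, s, z, hz.1, rfl⟩
  have hb : ∀ w, T0.kid v w → T0.r * Real.exp (L w) ∈ Ioc (N w).a (N w).b := fun w hk => by
    rw [h.a_eq, h.b_kid w hk.1]; constructor <;> linarith [h.long w hk.1]
  have hin : ∀ w, T0.kid v w → ∀ u : E4, T0.r / 4 < ‖u‖ → ‖u‖ < T0.r → u ∈ A.U (Sum.inr w) ∧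
      A.c (Sum.inr w) u = (N w).Ψ (Real.exp (L w) • u) := fun w hk u h3 h4 =>
    ⟨(mem_base_inn (T := T0.wth N φ L) (h.cmb.kid_ne hk)).2 ⟨hk, h3, h4⟩,
      by rw [hA, base_c_inn (T := T0.wth N φ L) (h.cmb.kid_ne hk)]⟩
  let P : Set M → Set M := fun S => {p | p ∈ S ∧ ∃ s, ∃ x ∈ A.U s, A.c s x = p} ∪
    ⋃ w ∈ {w | T0.kid v w ∧ ∀ x ∈ A.U (Sum.inr w), A.c (Sum.inr w) x ∈ S},
      (N w).Om (T0.r * Real.exp (L w))
  have hP : ∀ {S : Set M}, A.Cl Sᶜ → IsOpen (P S) := fun hS =>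
    (hop hS).union (isOpen_biUnion fun w hw => (h.top w).opn _ (hb w hw.1))
  set Z : Set M := (N v).In ∪ (N v).Ψ '' {x | (N v).a < ‖x‖ ∧ ‖x‖ ≤ 1} with hZ
  have hZc : IsClosed Z := (h.top v).cls 1 ⟨by rw [h.a_eq]; norm_num, by linarith [h.b_ge v]⟩
  have hOZ : (N v).Om 1 ⊆ Z := union_subset_union_right _ (image_mono fun _ hx => ⟨hx.1, hx.2.le⟩)
  have hout : ∀ y : E4, 1 < ‖y‖ → ‖y‖ < 4 → y ∈ A.U (Sum.inr v) ∧ A.c (Sum.inr v) y = (N v).Ψ y :=
    fun y h3 h4 => ⟨mem_base_out.2 ⟨h3, h4⟩, by rw [hA, base_c_out (T := T0.wth N φ L)]⟩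
  have hcol : ∀ w, T0.kid v w → (∀ x ∈ A.U (Sum.inr w), A.c (Sum.inr w) x ∈ S) ∨
      ∀ x ∈ A.U (Sum.inr w), A.c (Sum.inr w) x ∈ Sᶜ := fun w hk => by
    refine Atl.clopen_chart h1 h2 ?_
    have : A.U (Sum.inr w) = shell (T0.r / 4) T0.r := by
      ext u
      exact ⟨fun hu => ((mem_base_inn (T := T0.wth N φ L) (h.cmb.kid_ne hk)).1 hu).2,
        fun hu => (hin w hk u hu.1 hu.2).1⟩
    rw [this]; exact preconn_shell (by positivity)
  have hmix : ∀ {S : Set M} {p : M}, (p ∈ S ∧ ∃ s, ∃ x ∈ A.U s, A.c s x = p) → ∀ w, T0.kid v w →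
      (∀ x ∈ A.U (Sum.inr w), A.c (Sum.inr w) x ∈ Sᶜ) → p ∉ (N w).Om (T0.r * Real.exp (L w)) := by
    rintro S _ ⟨h3, s, x, hx, rfl⟩ w hk h4 h5
    obtain ⟨u, h6, h7, e⟩ := (h.pos v s hx).2 w hk _ (by linarith) h5
    exact h4 u (hin w hk u h6 h7).1 (by rw [(hin w hk u h6 h7).2, e]; exact h3)
  have hne : ∀ t : ℝ, 0 ≤ t → ∃ u : E4, ‖u‖ = t := fun t ht => exists_norm_eq E4 ht
  have hdisj : Disjoint (P S) (P Sᶜ ∪ Zᶜ) := by
    rw [disjoint_left]
    rintro p (h3 | h3) ((h4 | h4) | h4)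
    · exact h4.1 h3.1
    · obtain ⟨w, hw, h5⟩ := mem_iUnion₂.1 h4
      exact hmix h3 w hw.1 hw.2 h5
    · obtain ⟨h5, s, x, hx, rfl⟩ := h3
      rcases (h.pos v s hx).1 with h6 | ⟨y, hy, e⟩
      · exact h4 (Or.inl h6)
      · have h7 : 1 < ‖y‖ := not_le.1 fun h7 => h4 (Or.inr ⟨y, ⟨hy.1, h7⟩, e⟩)
        exact h0 y (hout y h7 hy.2).1 (by rw [(hout y h7 hy.2).2, e]; exact h5)
    · obtain ⟨w, hw, h5⟩ := mem_iUnion₂.1 h3
      exact hmix h4 w hw.1 (by simpa using hw.2) h5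
    · obtain ⟨w, hw, h5⟩ := mem_iUnion₂.1 h3
      obtain ⟨w', hw', h6⟩ := mem_iUnion₂.1 h4
      by_cases e : w = w'
      · subst e
        obtain ⟨u, hu⟩ := hne (T0.r / 2) (by positivity)
        have h7 := (hin w hw.1 u (by linarith) (by linarith)).1
        exact hw'.2 u h7 (hw.2 u h7)
      · exact disjoint_left.1 (h.sib v w w' hw.1 hw'.1 e) ((N w).om_mono (hb w hw.1).2 h5)
          ((N w').om_mono (hb w' hw'.1).2 h6)
    · obtain ⟨w, hw, h5⟩ := mem_iUnion₂.1 h3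
      exact h4 (hOZ ((N v).om_mono (by norm_num)
        (h.nest v w hw.1 ((N w).om_mono (hb w hw.1).2 h5))))
  have hW : ∀ s, ∀ x ∈ A.U s, A.c s x ∈ P S ∪ (P Sᶜ ∪ Zᶜ) := fun s x hx => by
    by_cases h3 : A.c s x ∈ S
    · exact Or.inl (Or.inl ⟨h3, s, x, hx, rfl⟩)
    · exact Or.inr (Or.inl (Or.inl ⟨h3, s, x, hx, rfl⟩))
  have hcov : (univ : Set M) ⊆ P S ∪ (P Sᶜ ∪ Zᶜ) := fun p _ => by
    by_cases h3 : p ∈ Z
    swap
    · exact Or.inr (Or.inr h3)
    have h4 : p ∈ (N v).Om 2 :=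
      union_subset_union_right _ (image_mono (t := shell (N v).a 2) fun x hx =>
        ⟨hx.1, by linarith [hx.2]⟩) h3
    by_cases h5 : ∀ w, T0.kid v w → p ∉ (N w).Om (T0.r / 2 * Real.exp (L w))
    · obtain ⟨b, hb', y, hy, rfl⟩ := h.cov v p h4 h5
      exact hW (Sum.inl b) y (mem_base_inl.2 ⟨hb', by linarith [mem_ball_zero_iff.1 hy]⟩)
    · push Not at h5
      obtain ⟨w, hk, h5⟩ := h5
      have h6 := (N w).om_mono (show _ ≤ T0.r * Real.exp (L w) by linarith [h.long w hk.1]) h5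
      rcases hcol w hk with h7 | h7
      · exact Or.inl (Or.inr (mem_iUnion₂.2 ⟨w, ⟨hk, h7⟩, h6⟩))
      · exact Or.inr (Or.inl (Or.inr (mem_iUnion₂.2 ⟨w, ⟨hk, h7⟩, h6⟩)))
  intro s x hx h3
  have h4 : A.c s x ∈ P S := Or.inl ⟨h3, s, x, hx, rfl⟩
  rcases isPreconnected_univ.subset_or_subset (hP h2)
    ((hP (by rw [compl_compl]; exact h1)).union hZc.isOpen_compl) hdisj hcov with h5 | h5
  · obtain ⟨y, hy⟩ := hne 2 (by norm_num)
    have h6 := hout y (by linarith) (by linarith)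
    exact disjoint_left.1 hdisj (h5 (mem_univ _))
      (Or.inl (Or.inl ⟨h0 y h6.1, Sum.inr v, y, h6.1, rfl⟩))
  · exact disjoint_left.1 hdisj h4 (h5 (mem_univ _))

/-- the cores are connected -/
theorem conn [ConnectedSpace M] (v : T0.V) : ((T0.wth N φ L).base v).Conn := by
  intro S h1 h2
  have hc : IsPreconnected (((T0.wth N φ L).base v).U (Sum.inr v)) := by
    have : ((T0.wth N φ L).base v).U (Sum.inr v) = shell 1 4 := by ext x; exact mem_base_out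
    rw [this]; exact preconn_shell zero_le_one
  rcases Atl.clopen_chart h1 h2 hc with h3 | h3
  · exact Or.inl fun s x hx => not_not.1
      (h.conn_aux v h2 (by rw [compl_compl]; exact h1) (fun y hy => not_not.2 (h3 y hy)) s x hx)
  · exact Or.inr (h.conn_aux v h1 h2 h3)

end TD.Cfg

end Crest.Agent.N207.I

end
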