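import Crest.Agent.N207.I.Tree2
import Crest.Agent.N207.V.Gbv
import Crest.Agent.N207.Sk.Defs

/-!
# Row 207, block I (helper56): the neck dichotomy and the bubble tree of a sequence of time slices
-/

set_option autoImplicit false

open scoped ContDiff Topology Manifold
open Set Filter MeasureTheory

noncomputable section

namespace Crest.Agent.N207.I

open Sk

variable {M : Type*} [TopologicalSpace M] [ChartedSpace E4 M] [IsManifold 𝓘(ℝ, E4) ∞ M]
  [T3Space M] [ConnectedSpace M]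

theorem pd_d (g : Met 4 M) : PD g.d :=
  ⟨fun x => dist_self (α := Sl g) x, fun x y => dist_comm (α := Sl g) x y,
    fun x y z => dist_triangle (α := Sl g) x y z⟩

theorem cont_d (g : Met 4 M) (z : M) : Continuous (g.d z) :=
  (continuous_const.dist continuous_id : Continuous fun q : Sl g => dist (α := Sl g) z q)

theorem ball_eq (g : Met 4 M) (x : M) (r : ℝ) : g.ball x r = {y | g.d x y < r} := by
  ext y; simp only [Met.ball, mem_setOf_eq, (pd_d g).symm y x]

theorem isOpen_gball (g : Met 4 M) (x : M) (r : ℝ) : IsOpen {y | g.d x y < r} :=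
  isOpen_lt (cont_d g x) continuous_const

variable [MeasurableSpace M] [BorelSpace M]

theorem meas_gball (g : Met 4 M) (x : M) (r : ℝ) : MeasurableSet {y | g.d x y < r} :=
  (isOpen_gball g x r).measurableSet

/-- the energy measure -/
def enM (g : Met 4 M) : Measure M := g.vol.withDensity fun p => ENNReal.ofReal (g.rm 0 p)

variable [CompactSpace M]

theorem rm_int (g : Met 4 M) : Integrable (g.rm 0) g.vol :=
  V.integrable_cont g (V.sm_rm g 0).continuous

instance (g : Met 4 M) : IsFiniteMeasure (enM g) :=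
  isFiniteMeasure_withDensity_ofReal (rm_int g).2

theorem enM_real (g : Met 4 M) {A : Set M} (hA : MeasurableSet A) :
    (enM g).real A = ∫ p in A, g.rm 0 p ∂g.vol := by
  rw [measureReal_def, enM, withDensity_apply _ hA, integral_eq_lintegral_of_nonneg_ae (f := g.rm 0)
    (Eventually.of_forall fun p => V.nsq_nonneg g _ p) (rm_int g).1.restrict]

theorem enM_ball (g : Met 4 M) (x : M) (r : ℝ) : (enM g).real {y | g.d x y < r} = en g x r := by
  rw [enM_real g (meas_gball g x r), en, ball_eq]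

theorem en_mono (g : Met 4 M) {x y : M} {r r' : ℝ} (h : g.d x y + r ≤ r') :
    en g x r ≤ en g y r' := by
  rw [← enM_ball, ← enM_ball]
  refine measureReal_mono fun w (hw : g.d x w < r) => ?_
  have := (pd_d g).tri y x w
  rw [(pd_d g).symm y x] at this
  show g.d y w < r'
  linarith

theorem en_mono' (g : Met 4 M) (x : M) {r r' : ℝ} (h : r ≤ r') : en g x r ≤ en g x r' :=
  en_mono g (by rwa [(pd_d g).self, zero_add])

variable {F : Flow M}

theorem late_pos {t : ℝ} (ht : t ∈ late F) : t ∈ Ioo 0 F.T :=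
  ⟨lt_of_lt_of_le (half_pos F.hT) ht.1, ht.2⟩

theorem exists_en_bd (hB : Base F) : ∃ E, ∀ t ∈ late F, (enM (F.m t)).real univ ≤ E := by
  obtain ⟨E, -, h, -⟩ := hB.d.glob _ (half_pos F.hT)
  refine ⟨E, fun t ht => ?_⟩
  rw [enM_real _ MeasurableSet.univ, Measure.restrict_univ]
  exact h t ht

theorem exists_vol_lo (hB : Base F) : ∃ κ, 0 < κ ∧ ∀ t ∈ late F, ∀ x, ∀ r ∈ Ioc (0 : ℝ) 1,
    κ * r ^ 4 ≤ (F.m t).vol.real {y | (F.m t).d x y < r} := hB.c.lo _ (half_pos F.hT)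

theorem exists_vol_up (hB : Base F) : ∃ C, 0 < C ∧ ∀ t ∈ late F, ∀ x, ∀ r > 0,
    (F.m t).vol.real {y | (F.m t).d x y < r} ≤ C * r ^ 4 := hB.c.up _ (half_pos F.hT)

/-- at a fixed time small balls have small energy -/
theorem exists_r1 (hB : Base F) {t : ℝ} (ht : t ∈ late F) {ε : ℝ} (hε : 0 < ε) :
    ∃ r1, 0 < r1 ∧ ∀ x, en (F.m t) x r1 ≤ ε := by
  obtain ⟨C, hC, h⟩ := exists_vol_up hB
  obtain ⟨A, hA⟩ := (isCompact_range (V.sm_rm (F.m t) 0).continuous).isBounded.exists_norm_le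
  haveI := V.isFinite (F.m t)
  have hA' : 0 < |A| + 1 := by positivity
  have h1 : 0 < min 1 (ε / ((|A| + 1) * C)) := by positivity
  refine ⟨_, h1, fun x => ?_⟩
  have h2 := min_le_left 1 (ε / ((|A| + 1) * C))
  have h3 := min_le_right 1 (ε / ((|A| + 1) * C))
  generalize min 1 (ε / ((|A| + 1) * C)) = r at h1 h2 h3
  rw [le_div_iff₀ (by positivity)] at h3
  have h4 := norm_setIntegral_le_of_norm_le_const (μ := (F.m t).vol) (s := (F.m t).ball x r)
    (f := (F.m t).rm 0) (C := |A| + 1) (measure_lt_top _ _)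
    fun p _ => (hA _ ⟨p, rfl⟩).trans (by linarith [le_abs_self A])
  have h5 := h t ht x r h1
  rw [← ball_eq] at h5
  have h6 : r ^ 4 ≤ r := pow_le_of_le_one h1.le h2 (by norm_num)
  calc en (F.m t) x r ≤ (|A| + 1) * (F.m t).vol.real ((F.m t).ball x r) := (le_abs_self _).trans h4
    _ ≤ (|A| + 1) * (C * r) :=
        mul_le_mul_of_nonneg_left (h5.trans (mul_le_mul_of_nonneg_left h6 hC.le)) hA'.le
    _ ≤ ε := by linarith

/-- a good neck around `z` between the radii `a` and `b` -/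
def GN (g : Met 4 M) (z : M) (a b : ℝ) (m : ℕ) (η : ℝ) (Cs : ℕ → ℝ) (n0 : ℕ) : Prop :=
  ∃ N : Nk M, N.Top ∧ N.a = a ∧ N.b = b ∧ z ∈ N.In ∧ Good g N m η Cs 6 ∧ Nat.card N.Γ ≤ n0

omit [CompactSpace M] in
theorem rough_of_good {g : Met 4 M} {N : Nk M} {m : ℕ} {η V η' : ℝ} {Cs : ℕ → ℝ} (hN : N.Top)
    (h : Good g N m η Cs V) (hη : 0 ≤ η) (h2 : 2 * η ≤ η') : Rough g N 0 η' V := by
  refine ⟨fun x hx k hk i j => (h.jet x hx k (hk.trans (Nat.zero_le _)) i j).trans ?_, h.vol⟩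
  have h0 : 0 < ‖x‖ := hN.a_pos.trans hx.1
  have h1 : √(N.a / ‖x‖) ≤ 1 := Real.sqrt_le_one.2 ((div_le_one h0).2 hx.1.le)
  have h3 : √(‖x‖ / N.b) ≤ 1 := Real.sqrt_le_one.2 ((div_le_one (h0.trans hx.2)).2 hx.2.le)
  unfold wt
  nlinarith

/-- **The dichotomy**: away from the bad scales, either small energy or a good neck. -/
theorem dich (hC : CONE F) (hH : HDEC F) (hV : VOLN F) (m : ℕ) {η ε : ℝ} (hη : 0 < η)
    (hη' : η ≤ 1 / 200) (hε : 0 < ε) : ∃ (K K' r1 : ℝ) (n0 : ℕ) (Cs : ℕ → ℝ), 1 ≤ K ∧ 0 < r1 ∧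
      ∀ t ∈ late F, ∀ z, ∃ Bad : Finset ℝ, Bad.card ≤ n0 ∧ ∀ a b, 0 < a → a < b → b ≤ r1 →
        (∀ s ∈ Bad, s ∉ Icc a b) → en (F.m t) z b ≤ ε ∨ (ε ≤ en (F.m t) z a ∧
          (K' * a ≤ b → GN (F.m t) z (K * a) (b / K) m η Cs n0)) := by
  classical
  obtain ⟨η1, hη1, hH⟩ := hH
  obtain ⟨V, K1, r1, n1, hK1, hr1, hC⟩ := hC η1 ε hη1 hε
  obtain ⟨K2, r2, Cs, hK2, hr2, hH⟩ := hH V m η hη
  obtain ⟨n2, K3, r3, hr3, hV⟩ := hV.2 6
  refine ⟨K1 * K2, (K1 * K2) ^ 2 * (K2 + |K3|), min r1 (min r2 r3), n1 + 1 + n2, Cs, by nlinarith,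
    by positivity, fun t ht z => ?_⟩
  obtain ⟨Bad, hBad, hC⟩ := hC t ht z
  refine ⟨insert (sInf {r | 0 < r ∧ ε < en (F.m t) z r}) (Bad.image fun j => (2 : ℝ) ^ j),
    (Finset.card_insert_le _ _).trans (le_trans (Nat.succ_le_succ (Finset.card_image_le.trans hBad))
      (Nat.le_add_right _ _)), fun a b ha hab hb hs => ?_⟩
  refine (le_or_gt _ _).imp_right fun hlt => ?_
  have hb0 : 0 < b := ha.trans hab
  have hne : b ∈ {r | 0 < r ∧ ε < en (F.m t) z r} := ⟨hb0, hlt⟩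
  have h1 : sInf {r | 0 < r ∧ ε < en (F.m t) z r} < a := by
    by_contra h
    exact hs _ (Finset.mem_insert_self _ _)
      ⟨not_lt.1 h, csInf_le ⟨0, fun r hr => hr.1.le⟩ hne⟩
  obtain ⟨r, hr, hra⟩ := exists_lt_of_csInf_lt ⟨b, hne⟩ h1
  refine ⟨hr.2.le.trans (en_mono' _ _ hra.le), fun hK => ?_⟩
  have p1 : 0 < K1 := by linarith
  have p2 : 0 < K2 := by linarith
  have p3 := abs_nonneg K3
  have e1 : K1 * a / K1 = a := by field_simp
  have e2 : K1 * (b / K1) = b := by field_simp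
  have q1 : b / K1 ≤ b := div_le_self hb0.le (by linarith)
  have q2 : b / K1 / K2 ≤ b := (div_le_self (by positivity) (by linarith)).trans q1
  have q3 : K2 ^ 3 * (K1 * a) ≤ b / K1 := by
    rw [le_div_iff₀ p1]
    have : 0 ≤ (K1 * K2) ^ 2 * |K3| * a := by positivity
    nlinarith
  have q4 : K1 * a < b / K1 := by
    have : 1 < K2 ^ 3 := one_lt_pow₀ (by linarith) (by norm_num)
    nlinarith [mul_pos p1 ha]
  obtain ⟨N, hN, ea, eb, hz, hR⟩ := hC (K1 * a) (b / K1) (by positivity) q4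
    (q1.trans (hb.trans (min_le_left _ _))) (fun j hj => by
      rw [e1, e2]
      by_contra h
      push Not at h
      exact hs _ (Finset.mem_insert_of_mem (Finset.mem_image_of_mem _ hj)) h)
    (by rw [e1]; exact hr.2.le.trans (en_mono' _ _ hra.le))
  obtain ⟨N', hN', ea', eb', hIn, hG, -⟩ := hH t ht N hN hR
    (by rw [eb]; exact q1.trans (hb.trans ((min_le_right _ _).trans (min_le_left _ _))))
    (by rw [ea, eb]; exact q3)
  refine ⟨N', hN', by rw [ea', ea]; ring, by rw [eb', eb, div_div], hIn hz, hG,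
    (hV t ht N' hN' (rough_of_good hN' hG hη.le (by linarith)) ?_ ?_).trans (by omega)⟩
  · rw [eb', eb]; exact q2.trans (hb.trans ((min_le_right _ _).trans (min_le_right _ _)))
  · rw [ea', eb', ea, eb, le_div_iff₀ p2, le_div_iff₀ p1]
    have h2 : 0 ≤ (K1 * K2) ^ 2 * K2 * a := by positivity
    have h3 : (K1 * K2) ^ 2 * a * K3 ≤ (K1 * K2) ^ 2 * a * |K3| :=
      mul_le_mul_of_nonneg_left (le_abs_self _) (by positivity)
    nlinarith

/-- **The bubble tree of a sequence of time slices** (metric skeleton with good necks). -/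
theorem tree_geo (hB : Base F) (hC : CONE F) (hH : HDEC F) (hV : VOLN F) (m : ℕ) {η ε : ℝ}
    (hη : 0 < η) (hη' : η ≤ 1 / 200) (hε : 0 < ε) : ∃ (r1 : ℝ) (n0 : ℕ) (Cs : ℕ → ℝ), 0 < r1 ∧
    ∀ {ι : Type} (U : Ultrafilter ι) (t top : ι → ℝ) (Ω : ι → Set M) (x0 : ι → M) (B : ℝ),
      (∀ i, t i ∈ late F) → (∀ i, 0 < top i ∧ top i ≤ r1) → Tendsto top U (𝓝 0) →
      (∀ i, x0 i ∈ Ω i) → (∀ i, ∀ x ∈ Ω i, (F.m (t i)).d (x0 i) x ≤ B * top i) →
    ∃ (V : Type) (_ : Fintype V) (root : V) (par : V → V) (dep : V → ℕ) (lam : ℕ → ι → ℝ)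
      (ctr : V → ι → M) (C : ℝ), IsTree root par dep ∧ lam 0 = top ∧ Chain U lam ∧ 1 ≤ C ∧
      (∀ i, ctr root i = x0 i) ∧ (∀ v i, ctr v i ∈ Ω i) ∧
      (∀ᶠ i in U, ∀ v, (F.m (t i)).d (ctr v i) (ctr (par v) i) ≤ C * lam (dep (par v)) i) ∧
      (∀ᶠ i in U, ∀ v w, v ≠ w → dep v = dep w →
        lam (dep (par v)) i ≤ C * (F.m (t i)).d (ctr v i) (ctr w i)) ∧
      (∀ A, C ≤ A → ∀ᶠ i in U, ∀ v, v ≠ root → GN (F.m (t i)) (ctr v i) (A * lam (dep v) i)
        (lam (dep (par v)) i / A) m η Cs n0 ∧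
          ε ≤ en (F.m (t i)) (ctr v i) (A * lam (dep v) i)) ∧
      ∀ ρ, 0 < ρ → ∃ c, 0 < c ∧ ∀ R, ∀ᶠ i in U, ∀ v, ∀ x ∈ Ω i,
        (F.m (t i)).d x (ctr v i) ≤ R * lam (dep v) i →
        (∀ w, w ≠ root → par w = v → ρ * lam (dep v) i ≤ (F.m (t i)).d x (ctr w i)) →
        en (F.m (t i)) x (c * lam (dep v) i) ≤ ε := by
  obtain ⟨K, K', r1, n0, Cs, hK, hr1, hD⟩ := dich hC hH hV m hη hη' hε
  obtain ⟨E, hE⟩ := exists_en_bd hB
  refine ⟨r1, n0, Cs, hr1, fun {ι} U t top Ω x0 B ht htop hlim hx0 hΩ => ?_⟩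
  obtain ⟨V, hV, root, par, dep, lam, ctr, C, hT, h0, hc, hC1, h1, h2, h3, h4, h5, h6⟩ :=
    tree_met U (fun i => (htop i).1) hlim (fun i => pd_d (F.m (t i))) (fun i => enM (F.m (t i)))
      (fun i => meas_gball _) hε (fun i => hE _ (ht i)) one_pos one_pos Ω x0 hx0
      (fun i => (htop i).1) hΩ
      (fun i => (exists_r1 hB (ht i) hε).imp fun r hr => ⟨hr.1, fun x _ => by
        rw [enM_ball]; exact hr.2 x⟩)
      (fun i z a b => ε ≤ en (F.m (t i)) z a ∧
        (K' * a ≤ b → GN (F.m (t i)) z (K * a) (b / K) m η Cs n0)) (N0 := n0)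
      (fun i z _ => (hD _ (ht i) z).imp fun Bad hB => ⟨hB.1, fun a b ha hab hb hs => by
        rw [enM_ball, div_one]
        exact hB.2 a b ha hab (by linarith [(htop i).2]) hs⟩)
  have hK0 : 0 < K := by linarith
  have hCK : C ≤ C * K := le_mul_of_one_le_right (by linarith) hK
  refine ⟨V, hV, root, par, dep, lam, ctr, C * K, hT, h0, hc, by linarith, h1, h2, ?_, ?_,
    fun A hA => ?_, fun ρ hρ => (h6 ρ hρ).imp fun c hc => ⟨hc.1, fun R => by
      simpa only [enM_ball] using hc.2 R⟩⟩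
  · filter_upwards [h3] with i hi v
    exact (hi v).trans (mul_le_mul_of_nonneg_right hCK (hc.pos _ i).le)
  · filter_upwards [h4] with i hi v w h h'
    exact (hi v w h h').trans (mul_le_mul_of_nonneg_right hCK ((pd_d _).nonneg _ _))
  · have hA0 : 0 < A / K := div_pos (by linarith) hK0
    filter_upwards [h5 (A / K) ((le_div_iff₀ hK0).2 hA), eventually_all.2 fun v : V =>
      hc.ll (dep (par v)) (1 / ((|K'| + 1) * (A / K) ^ 2)) (by positivity)] with i hi hi' v hv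
    have h7 := hi' v
    rw [hT.dep_par v hv] at h7
    have h8 := (hi v hv).2 (by
      rw [le_div_iff₀ hA0]
      rw [one_div, inv_mul_eq_div, le_div_iff₀ (by positivity)] at h7
      have h9 : K' * ((A / K) ^ 2 * lam (dep v) i) ≤ (|K'| + 1) * ((A / K) ^ 2 * lam (dep v) i) :=
        mul_le_mul_of_nonneg_right (by linarith [le_abs_self K']) (by
          have := hc.pos (dep v) i; positivity)
      nlinarith)
    have e1 : K * (A / K * lam (dep v) i) = A * lam (dep v) i := by field_simp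
    have e2 : lam (dep (par v)) i / (A / K) / K = lam (dep (par v)) i / A := by
      have : 0 < A := by linarith
      field_simp
    rw [e1, e2] at h8
    refine ⟨h8, (hi v hv).1.trans (en_mono' _ _ ?_)⟩
    rw [← e1]
    exact le_mul_of_one_le_left (mul_pos hA0 (hc.pos _ i)).le hK

end Crest.Agent.N207.I

end
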