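import Crest.Agent.N207.I.Pre3
import Crest.Agent.N207.I.NkRot
import Crest.Agent.N207.A.Arr
import Crest.Agent.N207.V.Area
import Crest.Agent.N207.AI.Par2

/-!
# Row 207, block I (helper24): the density `√det |Ric|²`, multiplicity, small integrals
-/

set_option autoImplicit false
open Set Filter Topology Function Metric MeasureTheory
open scoped ContDiff Manifold ENNReal
open Crest.GeometryTopology.CoordMetric Crest.GeometryTopology.MetricFamily
open Crest.Agent.R202.Tens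

noncomputable section

namespace Crest.Agent.N207.I

open Jt

/-- the scale invariant density `√det G |Ric|²` -/
def rd (G : MetricField 4) (x : E4) : ℝ := √(G x).det * nsq G (ricT G) x

variable {G : MetricField 4} {U : Set E4} {x : E4}

theorem sqrt_det_smul {c : ℝ} (A : Matrix (Fin 4) (Fin 4) ℝ) : √(c • A).det = c ^ 2 * √A.det := by
  rw [Matrix.det_smul, Fintype.card_fin, show c ^ 4 = (c ^ 2) ^ 2 by ring,
    Real.sqrt_mul (sq_nonneg _), Real.sqrt_sq (sq_nonneg _)]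

theorem nsq_ric_smul {c : ℝ} (hc : c ≠ 0) (G : MetricField 4) (x : E4) :
    nsq (fun y => c • G y) (ricT fun y => c • G y) x = c⁻¹ ^ 2 * nsq G (ricT G) x := by
  have e : ricT (fun y => c • G y) = ricT G := by
    funext y I; exact ricci_csmul hc G y _ _
  rw [e, nsq, ip, minv_smul hc, Ar.ipA_scale]; rfl

theorem rd_smul {c : ℝ} (hc : c ≠ 0) (G : MetricField 4) (x : E4) :
    rd (fun y => c • G y) x = rd G x := by
  rw [rd, sqrt_det_smul, nsq_ric_smul hc, rd]; field_simp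

theorem scal_smul {c : ℝ} (hc : c ≠ 0) (G : MetricField 4) (x : E4) :
    scalarCurv (fun y => c • G y) x = c⁻¹ * scalarCurv G x := by
  simp only [scalarCurv, ricci_csmul hc, minv_smul hc, Matrix.smul_apply, smul_eq_mul,
    Finset.mul_sum, mul_assoc]

theorem rd_nonneg (h : (G x).PosDef) : 0 ≤ rd G x :=
  mul_nonneg (Real.sqrt_nonneg _) (Ar.ipA_nonneg h (ricT G x))

theorem ricci_of_rd (h : (G x).PosDef) (h0 : rd G x = 0) (p q : Fin 4) : ricci G x p q = 0 :=
  congrFun (Ar.eq_zero_of_ipA h (B := ricT G x) ((mul_eq_zero.1 h0).resolve_left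
    (Real.sqrt_pos.2 h.det_pos).ne')) ![p, q]

theorem rd_sc {u : ℝ} (hu : 0 < u) (h : IsRiemannianOn G U) (hx : u • x ∈ U) :
    rd (fun y => G (u • y)) x = u ^ 4 * rd G (u • x) := by
  have e : rot G u 1 = fun y => G (u • y) := by
    funext y; ext p q; simp [rot, AI.eb]
  have h1 := AI.nsq_covN_ric_pull (pull_rot hu 1 h) (y := x) hx 0
  rw [e] at h1
  rw [← rd_smul (pow_pos hu 2).ne', rd, sqrt_det_smul, rd]
  erw [h1]
  simp only [covN, sim_apply, LinearIsometryEquiv.coe_one, id_eq]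
  ring

theorem lintegral_sc {u : ℝ} (hu : 0 < u) {B : Set E4} (hB : MeasurableSet B) (f : E4 → ℝ≥0∞) :
    ∫⁻ y in B, ENNReal.ofReal (u ^ 4) * f (u • y) = ∫⁻ z in (fun y => u • y) '' B, f z := by
  rw [lintegral_image_eq_lintegral_abs_det_fderiv_mul volume hB
    (f := fun y => u • y) (f' := fun _ => u • ContinuousLinearMap.id ℝ E4)
    (fun y _ => ((hasFDerivAt_id y).const_smul u).hasFDerivWithinAt)
    (smul_right_injective _ hu.ne').injOn]
  have : (u • ContinuousLinearMap.id ℝ E4).det = u ^ 4 := by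
    simp [ContinuousLinearMap.det, LinearMap.det_smul]
  rw [this, abs_of_pos (pow_pos hu 4)]

/-- near the identity matrix -/
theorem rd_le (hs : ∀ a b, G x a b = G x b a) (h : ∀ a b, |TD.dv G a b x| ≤ 1 / 100) :
    √(G x).det ≤ 20 ∧ rd G x ≤ 80 * ∑ p, ∑ q, ricci G x p q ^ 2 := by
  have hp := pos_of_small hs h
  have h1 : √(G x).det ≤ 20 := by
    have := Matrix.det_le (abv := AbsoluteValue.abs) (A := G x) (x := 2) fun a b => by
      have h2 := h a b
      have h3 : |(1 : Matrix (Fin 4) (Fin 4) ℝ) a b| ≤ 1 := by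
        rw [Matrix.one_apply]; split_ifs <;> simp
      have h4 := abs_sub_abs_le_abs_sub (G x a b) ((1 : Matrix (Fin 4) (Fin 4) ℝ) a b)
      simp only [TD.dv] at h2
      simp only [AbsoluteValue.abs_apply]
      linarith
    simp only [AbsoluteValue.abs_apply, Fintype.card_fin, Nat.factorial, nsmul_eq_mul] at this
    exact Real.sqrt_le_iff.2 ⟨by norm_num, (le_abs_self _).trans (this.trans (by norm_num))⟩
  refine ⟨h1, ?_⟩
  have h2 := Ar.ipA_le_sum_sq (hp.posDef one_half_pos) (c := 2) zero_le_two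
    (fun v => by linarith [hp.2 v]) (ricT G x)
  have h3 : ∑ I : Fin 2 → Fin 4, ricT G x I ^ 2 = ∑ p, ∑ q, ricci G x p q ^ 2 := by
    simp only [AI.sum_cons (k := 1), AI.sum_cons (k := 0), Fintype.sum_unique]
    rfl
  rw [h3] at h2
  calc rd G x ≤ 20 * (2 ^ 2 * ∑ p, ∑ q, ricci G x p q ^ 2) :=
        mul_le_mul h1 h2 (Ar.ipA_nonneg (hp.posDef one_half_pos) (ricT G x)) (by norm_num)
    _ = _ := by ring

/-- functions with bounded gradient and small integral are small -/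
theorem tendsto_of_lintegral {ι : Type} {l : Filter ι} {f : ι → E4 → ℝ} {r : ℝ} (hr : 0 < r)
    (h : UB l f fun _ => ball x r) (h0 : ∀ᶠ i in l, 0 ≤ f i x)
    (hI : Tendsto (fun i => ∫⁻ y in ball x r, ENNReal.ofReal (f i y)) l (𝓝 0)) :
    Tendsto (fun i => f i x) l (𝓝 0) := by
  obtain ⟨C, hC⟩ := (ub_iff.1 h).2 1
  refine Metric.tendsto_nhds.2 fun ε hε => ?_
  set δ := min r (ε / (2 * (|C| + 1))) with hδ
  have hδ0 : 0 < δ := lt_min hr (by positivity)
  have hη : 0 < ENNReal.ofReal (ε / 2) * volume (ball x δ) :=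
    ENNReal.mul_pos (by simpa using hε) (measure_ball_pos _ _ hδ0).ne'
  filter_upwards [hC, (ub_iff.1 h).1, h0, hI.eventually (gt_mem_nhds hη)] with i h1 h2 h3 h4
  rw [Real.dist_eq, sub_zero, abs_of_nonneg h3]
  by_contra hn
  refine absurd h4 (not_lt.2 ?_)
  rw [← setLIntegral_const]
  refine (setLIntegral_mono' measurableSet_ball fun y hy => ENNReal.ofReal_le_ofReal ?_).trans
    (lintegral_mono_set (ball_subset_ball (min_le_left _ _)))
  have h5 := (convex_ball x r).norm_image_sub_le_of_norm_fderiv_le (C := |C| + 1)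
    (fun z hz => (h2 z hz).differentiableAt (by simp)) (fun z hz => by
      have := h1 z hz
      rw [← norm_iteratedFDeriv_fderiv, norm_iteratedFDeriv_zero] at this
      linarith [le_abs_self C]) (mem_ball_self hr) (ball_subset_ball (min_le_left _ _) hy)
  have h6 : ‖y - x‖ ≤ ε / (2 * (|C| + 1)) := (mem_ball_iff_norm.1 hy).le.trans (min_le_right _ _)
  have h7 : (|C| + 1) * ‖y - x‖ ≤ ε / 2 := by
    calc _ ≤ (|C| + 1) * (ε / (2 * (|C| + 1))) := by gcongr
      _ = _ := by field_simp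
  rw [Real.norm_eq_abs] at h5
  linarith [(abs_le.1 h5).1, not_lt.1 hn]

theorem me_rd {ι : Type} {l : Filter ι} {g g' : ι → MetricField 4} {x x' : ι → E4}
    (h : ME l g x g' x') : GE l (fun j => rd (g j)) x (fun j => rd (g' j)) x' :=
  h.sqrt_det.mul (h.nsq h.ricT)

/-- **the limit is Ricci flat** when `∫ |Ric|²` tends to zero -/
theorem ricci_of_int {ι : Type} {𝒰 : Ultrafilter ι} {H : ι → MetricField 4} {O : Set E4}
    (h : LocB 𝒰 H O) (hx : x ∈ O) {r : ℝ} (hr : 0 < r)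
    (hI : Tendsto (fun i => ∫⁻ y in ball x r, ENNReal.ofReal (rd (H i) y)) 𝒰 (𝓝 0)) (p q : Fin 4) :
    ricci (mlim 𝒰 H) x p q = 0 := by
  obtain ⟨O', hO', hK, hb, hp⟩ := h {x} isCompact_singleton (singleton_subset_iff.2 hx)
  obtain ⟨r', hr', hB⟩ := Metric.isOpen_iff.1 hO' x (hK rfl)
  have h1 : MU (𝒰 : Filter ι) H fun _ => ball x (min r r') := (mu_iff.2 ⟨hb, hp⟩).mono
    (.of_forall fun _ => (ball_subset_ball (min_le_right _ _)).trans hB)
  obtain ⟨c, hc, h2⟩ := (h.me hx).pos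
  have h3 := tendsto_of_lintegral (f := fun i => rd (H i)) (lt_min hr hr') (me_rd h1.me).left
    (h2.mono fun i hi => rd_nonneg (hi.1.posDef hc))
    (tendsto_of_tendsto_of_tendsto_of_le_of_le tendsto_const_nhds hI (fun _ => zero_le)
      fun i => lintegral_mono_set (ball_subset_ball (min_le_left _ _)))
  have h4 := h3.sub (me_rd (h.me hx)).val
  simp only [sub_sub_cancel, sub_zero] at h4
  obtain ⟨i, hi⟩ := h2.exists
  exact ricci_of_rd (hi.2.posDef hc) (tendsto_nhds_unique tendsto_const_nhds h4) p q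

variable {M : Type*} [TopologicalSpace M] [ChartedSpace E4 M] [IsManifold 𝓘(ℝ, E4) ∞ M]
  {Ψ : E4 → M}

theorem scal_pm (hP : Par Ψ U) (m : Met 4 M) {s : ℝ} (hs : 0 < s) (hx : x ∈ U) :
    scalarCurv (fun y => (s ^ 2)⁻¹ • m.pm Ψ y) x = s ^ 2 * m.scal (Ψ x) := by
  rw [scal_smul (by positivity), inv_inv, hP.par_scal m hx]

theorem rd_pm (hP : Par Ψ U) (m : Met 4 M) {c : ℝ} (hc : c ≠ 0) (hx : x ∈ U) :
    rd (fun y => c • m.pm Ψ y) x = V.pdens m Ψ x * m.rc 0 (Ψ x) := by
  rw [rd_smul hc, hP.par_rc m 0 hx]; rfl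

variable [T3Space M] [ConnectedSpace M] [MeasurableSpace M] [BorelSpace M] [CompactSpace M]

/-- the area formula with multiplicity at most `card Γ` -/
theorem lintegral_par_fib (hP : Par Ψ U) (m : Met 4 M) (Γ : Subgroup Iso4) [Finite Γ] {B : Set E4}
    (hB : B ⊆ U) (hBm : MeasurableSet B)
    (hf : ∀ x ∈ B, ∀ y ∈ B, Ψ x = Ψ y → ∃ γ ∈ Γ, γ x = y) (f : M → ℝ≥0∞) :
    ∫⁻ y in B, ENNReal.ofReal (V.pdens m Ψ y) * f (Ψ y) ≤
      Nat.card Γ * ∫⁻ z in Ψ '' B, f z ∂m.vol := by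
  have := Fintype.ofFinite Γ
  set o := embeddingReal E4
  have ho := measurableEmbedding_embeddingReal E4
  set D : Γ → Set E4 := fun γ => B ∩ ⋂ δ : Γ, {x | o (γ.1 x) ≤ o (δ.1 x)} with hD
  have hm : ∀ γ : Γ, Measurable fun x => o (γ.1 x) := fun γ =>
    ho.measurable.comp γ.1.continuous.measurable
  have h1 : B ⊆ ⋃ γ, D γ := fun x hx => by
    obtain ⟨γ, hγ⟩ := Finite.exists_min fun γ : Γ => o (γ.1 x)
    exact mem_iUnion.2 ⟨γ, hx, mem_iInter.2 hγ⟩
  refine (lintegral_mono_set h1).trans ((lintegral_iUnion_le _ _).trans ?_)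
  rw [tsum_fintype, Nat.card_eq_fintype_card, ← nsmul_eq_mul, ← Finset.card_univ]
  refine Finset.sum_le_card_nsmul _ _ _ fun γ _ => ?_
  rw [← V.lintegral_par hP m (inter_subset_left.trans hB)
    (hBm.inter (MeasurableSet.iInter fun δ => measurableSet_le (hm γ) (hm δ))) ?_ f]
  · exact lintegral_mono_set (image_mono inter_subset_left)
  · intro x hx y hy e
    obtain ⟨δ, hδ, rfl⟩ := hf x hx.1 y hy.1 e
    have a1 := mem_iInter.1 hx.2 (γ * ⟨δ, hδ⟩)
    have a2 := mem_iInter.1 hy.2 (γ * ⟨δ, hδ⟩⁻¹)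
    have a3 : (γ * ⟨δ, hδ⟩⁻¹ : Γ).1 (δ x) = γ.1 x := congrArg γ.1 (δ.symm_apply_apply x)
    rw [mem_ofPred_eq, a3] at a2
    exact γ.1.injective (ho.injective (le_antisymm a1 a2))

end Crest.Agent.N207.I

end
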