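import Crest.Agent.N207.I.Fin1
import Crest.Agent.N207.Sk.Sta

/-!
# Row 207, block I (helper24): the glued metrics converge to Ricci flat limits; the bound on `EE`
-/

set_option autoImplicit false
open Set Filter Topology Function Metric MeasureTheory
open scoped ContDiff Manifold ENNReal
open Crest.GeometryTopology.CoordMetric Crest.GeometryTopology.MetricFamily
open Crest.Agent.R202.Tens

noncomputable section

namespace Crest.Agent.N207.I

open Jt

namespace TD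

variable {M : Type*} {T : TD M} {ι : Type}

theorem Ok.ev_ball (h : T.Ok) {l : Filter ι} {L : ι → T.V → ℝ}
    (ht : ∀ w, w ≠ T.root → Tendsto (fun i => L i w) l atTop) {v : T.V} {s : T.S} {x : E4}
    (hx : x ∈ (T.core v).U s) :
    ∃ r > 0, ∀ᶠ i in l, ∀ z ∈ ball x r, T.sg (L i) v s • z ∈ (T.glob (L i)).U s := by
  obtain ⟨r, hr, hb⟩ := Metric.isOpen_iff.1 ((h.core_ok v).isOpen s) x hx
  cases s with
  | inl a =>
    exact ⟨r, hr, .of_forall fun i z hz => by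
      simpa [sg, mem_glob_inl] using (mem_core_inl.1 (hb hz)).2⟩
  | inr w =>
    by_cases hw : w = v
    · subst hw
      refine ⟨r, hr, (h.ev_out ht w (‖x‖ + r)).mono fun i hi z hz => ?_⟩
      rw [sg_out, one_smul]
      exact (hi z (mem_core_out.1 (hb hz)) (norm_lt_of_mem_ball hz)).1
    · obtain ⟨hk, h0, -⟩ := (mem_core_inn hw).1 hx
      refine ⟨min r (‖x‖ / 2), by positivity, (h.ev_inn ht hk (half_pos h0)).mono
        fun i hi z hz => ?_⟩
      rw [sg_inn _ hw]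
      have h1 := norm_sub_norm_le x z
      have h2 := (mem_ball_iff_norm'.1 hz).trans_le (min_le_right _ _)
      exact (hi z (by linarith)
        ((mem_core_inn hw).1 (hb (ball_subset_ball (min_le_left _ _) hz))).2.2).1

/-- the limits are Ricci flat when `∫ |Ric|²` tends to zero in every chart -/
theorem Ok.lim_of_int (h : T.Ok) {𝒰 : Ultrafilter ι} {L : ι → T.V → ℝ} {γ : ℝ}
    {G : ι → T.S → MetricField 4} (hγ : 0 < γ) (hB : T.Bd γ 𝒰 L G)
    (hI : ∀ s, Tendsto (fun i => ∫⁻ x in (T.glob (L i)).U s, ENNReal.ofReal (rd (G i s) x)) 𝒰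
      (𝓝 0)) : T.Lim (T.glim 𝒰 L G) γ := by
  refine h.lim_glim hγ hB fun v s x hx p q => ?_
  obtain ⟨r, hr, hb⟩ := h.ev_ball hB.top hx
  refine ricci_of_int (h.locB hγ.le hB v s) hx hr (tendsto_of_tendsto_of_tendsto_of_le_of_le'
    tendsto_const_nhds (hI s) (.of_forall fun _ => zero_le) ?_) p q
  filter_upwards [hb, hB.met] with i h1 h2
  have hu := sg_pos (L i) v s
  have he : (T.eps (L i) (T.un s) ^ 2)⁻¹ ≠ 0 := (inv_pos.2 (pow_pos (eps_pos _ _) 2)).ne'
  refine le_trans (le_of_eq ?_) (lintegral_mono_set (s := (fun y => T.sg (L i) v s • y) '' ball x r)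
    (image_subset_iff.2 h1))
  rw [← lintegral_sc hu measurableSet_ball]
  refine setLIntegral_congr_fun measurableSet_ball fun y hy => ?_
  have e : rd (T.hm (L i) (G i) v s) y = T.sg (L i) v s ^ 4 * rd (G i s) (T.sg (L i) v s • y) :=
    (rd_smul he (fun z => G i s (T.sg (L i) v s • z)) y).trans (rd_sc hu (h2.2.riem s) (h1 y hy))
  simp only [e, ENNReal.ofReal_mul (pow_pos hu 4).le]

/-- the weight -/
def om (T : TD M) (s : T.S) (x : E4) : ℝ := if s = Sum.inr T.root then ‖x‖ ^ 2 else 1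

theorem one_le_om {L : T.V → ℝ} {s : T.S} {x : E4} (hx : x ∈ (T.glob L).U s) : 1 ≤ T.om s x := by
  unfold om
  split_ifs with hs
  · subst hs; exact one_le_pow₀ hx.1.le
  · rfl

theorem Ok.eps_le (h : T.Ok) {L : T.V → ℝ} (hL : T.Long L) (v : T.V) : T.eps L v ≤ 1 := by
  refine h.ind (P := fun v => T.eps L v ≤ 1) (h.eps_root L).le (fun w hw ih => ?_) v
  have h1 := Real.exp_pos (L w)
  have h2 : 1 ≤ Real.exp (L w) := by nlinarith [hL w hw, h.r_lt]
  rw [h.eps_kid L hw, Real.exp_neg]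
  exact mul_le_one₀ ih (by positivity) (inv_le_one_of_one_le₀ h2)

theorem Ok.rw_le (h : T.Ok) {L : T.V → ℝ} (hL : T.Long L) {s : T.S} {x : E4}
    (hx : x ∈ (T.glob L).U s) : Sk.rw T L s x ^ 2 ≤ T.om s x := by
  cases s with
  | inl a =>
    simp only [Sk.rw, om, Sum.elim_inl, mul_one, reduceCtorEq, if_false]
    exact pow_le_one₀ (eps_pos _ _).le (h.eps_le hL _)
  | inr w =>
    by_cases hw : w = T.root
    · subst hw; simp [Sk.rw, om, un, h.eps_root]
    · simp only [Sk.rw, om, un, Sum.elim_inr, id, Sum.inr.injEq, if_neg hw]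
      have h1 := eps_pos L (T.par w)
      refine pow_le_one₀ (mul_nonneg (eps_pos _ _).le (norm_nonneg _)) ?_
      rw [h.eps_kid L hw, mul_assoc, Real.exp_neg, inv_mul_eq_div]
      refine mul_le_one₀ (h.eps_le hL _) (by positivity) ?_
      rw [div_le_one (Real.exp_pos _)]
      nlinarith [hx.2 hw, h.r_lt, Real.exp_pos (L w)]

theorem Ok.ee_le (h : T.Ok) {L : T.V → ℝ} (hL : T.Long L) {G : T.S → MetricField 4}
    (hG : (T.glob L).IsMet G) : Sk.EE T L G ≤
      ∑ s, ∫⁻ x in (T.glob L).U s, ENNReal.ofReal (T.om s x * rd (G s) x) := by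
  have hP := h.glob_pou hL
  have hO := h.glob_ok hL
  refine Finset.sum_le_sum fun s _ => setLIntegral_mono' (hO.isOpen s).measurableSet fun x hx => ?_
  have h1 : T.χ s ((T.glob L).c s x) ≤ 1 := (hP.sum s x hx) ▸
    Finset.single_le_sum (f := fun a => T.χ a ((T.glob L).c s x)) (fun a _ => hP.nonneg a _)
      (Finset.mem_univ s)
  have h0 := hP.nonneg s ((T.glob L).c s x)
  have h2 : (Nat.card ((T.glob L).Γ s) : ℝ)⁻¹ ≤ 1 := by
    have := hO.fin s
    exact inv_le_one_of_one_le₀ (by exact_mod_cast Nat.card_pos)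
  have h3 : 0 ≤ nsq (G s) (ricT (G s)) x := Ar.ipA_nonneg ((hG.riem s).posDef x hx) (ricT (G s) x)
  have h4 : (T.glob L).den T.χ G s x ≤ √(G s x).det :=
    (mul_le_of_le_one_left (by positivity) h2).trans (mul_le_of_le_one_left (by positivity) h1)
  have h5 : 0 ≤ (T.glob L).den T.χ G s x := by unfold Atl.den; positivity
  rw [← ENNReal.ofReal_mul h5]
  refine ENNReal.ofReal_le_ofReal ?_
  calc _ ≤ √(G s x).det * (T.om s x * nsq (G s) (ricT (G s)) x) := by
        gcongr; exact h.rw_le hL hx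
    _ = _ := by rw [rd]; ring

variable [TopologicalSpace M] [ChartedSpace E4 M] [IsManifold 𝓘(ℝ, E4) ∞ M] [T3Space M]
  [ConnectedSpace M] [MeasurableSpace M] [BorelSpace M] [CompactSpace M]

theorem lint_rd_le {Ψ : E4 → M} {U B : Set E4} (hP : Par Ψ U) (m : Met 4 M) {c : ℝ} (hc : c ≠ 0)
    (Γ : Subgroup Iso4) [Finite Γ] (hB : B ⊆ U) (hBm : MeasurableSet B)
    (hf : ∀ x ∈ B, ∀ y ∈ B, Ψ x = Ψ y → ∃ γ ∈ Γ, γ x = y) :
    ∫⁻ y in B, ENNReal.ofReal (rd (fun y => c • m.pm Ψ y) y) ≤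
      Nat.card Γ * ∫⁻ z in Ψ '' B, ENNReal.ofReal (m.rc 0 z) ∂m.vol := by
  refine le_trans (le_of_eq ?_) (lintegral_par_fib hP m Γ hB hBm hf _)
  refine setLIntegral_congr_fun hBm fun y hy => ?_
  simp only [rd_pm hP m hc (hB hy), ENNReal.ofReal_mul (V.pdens_nonneg m Ψ y)]

variable (T) in
/-- the integral hypotheses -/
structure PreI (l : Filter ι) (m : ι → Met 4 M) (s : ι → T.V → ℝ) (φ : ι → T.B → E4 → M)
    (Ψ : ι → T.V → E4 → M) (X : ι → MetricField 4) (Ω : ι → Set M) (Y E : ι → ℝ) : Prop where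
  ball : ∀ᶠ i in l, ∀ a, φ i a '' ball 0 3 ⊆ Ω i
  neck : ∀ᶠ i in l, ∀ w, w ≠ T.root → Ψ i w '' T.nk (T.ls (s i)) w ⊆ Ω i
  mass : ∀ᶠ i in l, ∫⁻ p in Ω i, ENNReal.ofReal ((m i).rc 0 p) ∂(m i).vol ≤ ENNReal.ofReal (Y i)
  xric : ∀ᶠ i in l, ∫⁻ x in {x : E4 | 1 < ‖x‖},
    ENNReal.ofReal (‖x‖ ^ 2 * ∑ p, ∑ q, ricci (X i) x p q ^ 2) ≤ ENNReal.ofReal (E i ^ 2)
  nonneg : ∀ᶠ i in l, 0 ≤ Y i
  Y0 : Tendsto Y l (𝓝 0)
  E0 : Tendsto E l (𝓝 0)

variable {m : ι → Met 4 M} {s : ι → T.V → ℝ} {φ : ι → T.B → E4 → M} {Ψ : ι → T.V → E4 → M}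
  {X : ι → MetricField 4} {γ : ℝ} {Ω : ι → Set M} {Y E : ι → ℝ}

/-- the bound in every chart -/
theorem PreI.chart {l : Filter ι} (h : T.PreS l m s φ Ψ) (hX : T.PreX l m s Ψ X γ)
    (hI : T.PreI l m s φ Ψ X Ω Y E) (fin : ∀ v, Finite (T.Γ v)) {ψ : ι → T.B → E4 → M}
    (hψ : ∀ᶠ i in l, ∀ a, Par (ψ i a) (Metric.ball 0 2) ∧ InjOn (ψ i a) (Metric.ball 0 2) ∧
      ψ i a '' Metric.ball 0 2 ⊆ φ i a '' Metric.ball 0 3) :
    ∃ C : ℝ, 0 ≤ C ∧ ∀ᶠ i in l, ∀ t, ∫⁻ x in (T.glob (T.ls (s i))).U t, ENNReal.ofReal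
      (T.om t x * rd (T.gm (m i) (s i T.root) (ψ i) (Ψ i) (X i) t) x) ≤
        ENNReal.ofReal (C * (Y i + E i ^ 2)) := by
  set N : ℕ := 80 + ∑ w, Nat.card (T.Γ w) with hN
  refine ⟨N, Nat.cast_nonneg _, ?_⟩
  filter_upwards [hψ, hI.ball, hI.neck, hI.mass, hI.xric, hI.nonneg, eventually_all.2 h.parN,
    eventually_all.2 h.fib, hX.riem, hX.small] with i a1 a2 a3 a4 a5 a6 a7 a8 a9 a10 t
  have hc : (s i T.root ^ 2)⁻¹ ≠ 0 := (inv_pos.2 (pow_pos (h.s_pos i _) 2)).ne'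
  have key : ∀ (n : ℕ) (y : ℝ), n ≤ N → y ≤ Y i + E i ^ 2 →
      (n : ℝ≥0∞) * ENNReal.ofReal y ≤ ENNReal.ofReal (N * (Y i + E i ^ 2)) := fun n y h1 h2 => by
    rw [ENNReal.ofReal_mul (Nat.cast_nonneg _), ENNReal.ofReal_natCast]
    gcongr
  have hY : Y i ≤ Y i + E i ^ 2 := le_add_of_nonneg_right (sq_nonneg _)
  cases t with
  | inl a =>
    simp only [om, reduceCtorEq, if_false, one_mul]
    refine (lint_rd_le (a1 a).1 (m i) hc ⊥ subset_rfl measurableSet_ball fun x hx y hy e =>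
      ⟨1, one_mem _, (a1 a).2.1 hx hy e⟩).trans (le_trans ?_ (key 1 _ (by omega) hY))
    rw [Subgroup.card_bot]
    gcongr
    exact (lintegral_mono_set ((a1 a).2.2.trans (a2 a))).trans a4
  | inr w =>
    by_cases hw : w = T.root
    · subst hw
      rw [glob_root, gm_root]
      refine le_trans ?_ (key 80 (E i ^ 2) (by omega) (by linarith))
      refine le_trans ?_ (mul_le_mul_right a5 _)
      rw [← lintegral_const_mul' _ _ (by simp)]
      refine setLIntegral_mono' a9.isOpen.measurableSet fun x hx => ?_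
      rw [← ENNReal.ofReal_natCast, ← ENNReal.ofReal_mul (by norm_num)]
      refine ENNReal.ofReal_le_ofReal ?_
      have := (rd_le (fun a b => metric_symm a9 hx a b) fun a b => a10 a b x hx).2
      simp only [om, if_true]
      push_cast
      nlinarith [sq_nonneg ‖x‖]
    · have := fin w
      have hs : (T.glob (T.ls (s i))).U (Sum.inr w) ⊆ T.nk (T.ls (s i)) w :=
        fun x hx => glob_nk h.r_pos hw hx
      simp only [om, Sum.inr.injEq, if_neg hw, one_mul, gm_neck _ _ _ _ _ hw]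
      refine (lint_rd_le (a7 w) (m i) hc (T.Γ w) hs (glob_open w).measurableSet
        fun x hx y hy e => (a8 w x (hs hx) y (hs hy)).1 e).trans
        (le_trans ?_ (key (Nat.card (T.Γ w)) _ ?_ hY))
      · gcongr
        exact (lintegral_mono_set ((image_mono hs).trans (a3 w hw))).trans a4
      · have := Finset.single_le_sum (f := fun w => Nat.card (T.Γ w)) (fun _ _ => Nat.zero_le _)
          (Finset.mem_univ w)
        omega

/-- **FIN** -/
theorem PreS.fin {𝒰 : Ultrafilter ι} (h : T.PreS 𝒰 m s φ Ψ) (hX : T.PreX 𝒰 m s Ψ X γ)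
    (hI : T.PreI 𝒰 m s φ Ψ X Ω Y E) (hγ : 0 < γ) {C0 : ℝ}
    (hR : ∀ᶠ i in (𝒰 : Filter ι), ∀ p, |(m i).scal p| ≤ C0) :
    ∀ᶠ i0 in (𝒰 : Filter ι), (T.inst (φ i0) (Ψ i0) (T.ls (s i0))).Ok →
      ∃ (G : ι → T.S → MetricField 4) (g : T.V → T.S → MetricField 4) (C : ℝ), 0 ≤ C ∧
        (T.inst (φ i0) (Ψ i0) (T.ls (s i0))).Lim g γ ∧
        (T.inst (φ i0) (Ψ i0) (T.ls (s i0))).Seq g γ 𝒰 (fun i => T.ls (s i)) G ∧
        (T.inst (φ i0) (Ψ i0) (T.ls (s i0))).Bd γ 𝒰 (fun i => T.ls (s i)) G ∧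
        (∀ i, G i (Sum.inr T.root) = X i) ∧ ∀ᶠ i in (𝒰 : Filter ι),
          Sk.EE (T.inst (φ i0) (Ψ i0) (T.ls (s i0))) (T.ls (s i)) (G i) ≤
            ENNReal.ofReal (C * (Y i + E i ^ 2)) ∧
          ∀ t, t ≠ Sum.inr T.root → ∀ x ∈ (T.glob (T.ls (s i))).U t,
            |scalarCurv (G i t) x| ≤ C0 * s i T.root ^ 2 := by
  filter_upwards [h.bd hX] with i0 h0 hO
  obtain ⟨ψ, hψ, hB⟩ := h0 hO
  obtain ⟨C, hC, hb⟩ := PreI.chart h hX hI hO.fin hψ
  have h1 : Tendsto (fun i => ENNReal.ofReal (C * (Y i + E i ^ 2))) 𝒰 (𝓝 0) := by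
    simpa using ENNReal.tendsto_ofReal ((hI.Y0.add (hI.E0.pow 2)).const_mul C)
  refine ⟨_, _, Fintype.card T.S * C, by positivity, hO.lim_of_int hγ hB fun t => ?_,
    hO.seq_glim hγ.le hB, hB, fun i => gm_root _ _ _ _ _, ?_⟩
  · refine tendsto_of_tendsto_of_tendsto_of_le_of_le' tendsto_const_nhds h1
      (.of_forall fun _ => zero_le) ?_
    filter_upwards [hb, hB.met] with i a1 a2
    refine le_trans (setLIntegral_mono' (a2.2.riem t).isOpen.measurableSet fun x hx =>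
      ENNReal.ofReal_le_ofReal ?_) (a1 t)
    exact le_mul_of_one_le_left (rd_nonneg ((a2.2.riem t).posDef x hx)) (one_le_om (T := T) hx)
  · filter_upwards [hb, hB.met, hψ, eventually_all.2 h.parN, hR] with i a1 a2 a3 a4 a5
    refine ⟨(hO.ee_le a2.1 a2.2).trans ((Finset.sum_le_card_nsmul _ _ _ fun t _ => a1 t).trans ?_),
      fun t ht x hx => ?_⟩
    · rw [mul_assoc, ENNReal.ofReal_mul (Nat.cast_nonneg _), ENNReal.ofReal_natCast, nsmul_eq_mul]
      rfl
    · have hs := h.s_pos i T.root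
      have key : ∀ p, |s i T.root ^ 2 * (m i).scal p| ≤ C0 * s i T.root ^ 2 := fun p => by
        rw [abs_mul, abs_of_pos (pow_pos hs 2), mul_comm]
        gcongr; exact a5 p
      cases t with
      | inl a => exact (congrArg abs (scal_pm (a3 a).1 (m i) hs hx)).trans_le (key _)
      | inr w =>
        have hw : w ≠ T.root := fun e => ht (by rw [e])
        rw [gm_neck _ _ _ _ _ hw, scal_pm (a4 w) (m i) hs (glob_nk h.r_pos hw hx)]
        exact key _

end TD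

end Crest.Agent.N207.I

end
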