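import Mathlib

/-! # Block I: greedy choice of concentration points, nets -/

namespace Crest.Agent.N207.I

open MeasureTheory Set

/-- A pseudo-distance given as a bare function. -/
structure PD {M : Type*} (d : M → M → ℝ) : Prop where
  self : ∀ x, d x x = 0
  symm : ∀ x y, d x y = d y x
  tri : ∀ x y z, d x z ≤ d x y + d y z

theorem PD.nonneg {M : Type*} {d : M → M → ℝ} (h : PD d) (x y : M) : 0 ≤ d x y := by
  have := h.tri x y x
  rw [h.self, h.symm y x] at this
  linarith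

/-- pairwise separated balls -/
def Sep {M : Type*} (d : M → M → ℝ) (S : Finset (M × ℝ)) : Prop :=
  ∀ p ∈ S, ∀ q ∈ S, p ≠ q → p.2 + q.2 ≤ d p.1 q.1

variable {M : Type*} {d : M → M → ℝ}

/-- **Greedy choice** (small radii first). -/
theorem greedy (hd : PD d) {r1 : ℝ} (h1 : 0 < r1) (N : ℕ) (F : Set (M × ℝ))
    (hF : ∀ p ∈ F, r1 ≤ p.2) (hN : ∀ S : Finset (M × ℝ), ↑S ⊆ F → Sep d S → S.card ≤ N) :
    ∃ Z : Finset M, Z.card ≤ N ∧ (∀ z ∈ Z, ∃ r, (z, r) ∈ F) ∧
      ∀ p ∈ F, ∃ z ∈ Z, d p.1 z < 3 * p.2 := by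
  classical
  induction N generalizing F with
  | zero =>
    refine ⟨∅, le_rfl, by simp, fun p hp => ?_⟩
    have := hN {p} (by simpa using hp) (by intro a ha b hb hab; simp_all)
    simp at this
  | succ N ih =>
    rcases F.eq_empty_or_nonempty with rfl | hne
    · exact ⟨∅, by simp, by simp, by simp⟩
    have hbd : BddBelow (Prod.snd '' F) := ⟨r1, by rintro _ ⟨p, hp, rfl⟩; exact hF p hp⟩
    have hinf : r1 ≤ sInf (Prod.snd '' F) :=
      le_csInf (hne.image _) (by rintro _ ⟨p, hp, rfl⟩; exact hF p hp)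
    obtain ⟨_, ⟨p0, hp0, rfl⟩, hlt⟩ := exists_lt_of_csInf_lt (hne.image Prod.snd)
      (show sInf (Prod.snd '' F) < 2 * sInf (Prod.snd '' F) by linarith)
    have hmin : ∀ p ∈ F, p0.2 < 2 * p.2 := fun p hp => by
      have := csInf_le hbd ⟨p, hp, rfl⟩
      linarith
    obtain ⟨Z, hZ, hZF, hcov⟩ := ih {p ∈ F | p.2 + p0.2 ≤ d p.1 p0.1} (fun p hp => hF p hp.1)
      (fun S hS hsep => by
        have hn : p0 ∉ S := fun h => by
          have := (hS h).2
          rw [hd.self] at this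
          linarith [hF p0 hp0]
        have := hN (insert p0 S) (by
          rw [Finset.coe_insert]
          exact insert_subset hp0 fun p hp => (hS hp).1) (by
          intro a ha b hb hab
          rcases Finset.mem_insert.1 ha with rfl | ha' <;>
            rcases Finset.mem_insert.1 hb with rfl | hb'
          · exact absurd rfl hab
          · rw [hd.symm, add_comm]; exact (hS hb').2
          · exact (hS ha').2
          · exact hsep a ha' b hb' hab)
        rw [Finset.card_insert_of_notMem hn] at this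
        omega)
    refine ⟨insert p0.1 Z, (Finset.card_insert_le _ _).trans (by omega), fun z hz => ?_,
      fun p hp => ?_⟩
    · rcases Finset.mem_insert.1 hz with rfl | hz
      · exact ⟨p0.2, hp0⟩
      · obtain ⟨r, hr⟩ := hZF z hz
        exact ⟨r, hr.1⟩
    · by_cases h : p.2 + p0.2 ≤ d p.1 p0.1
      · obtain ⟨z, hz, hlt⟩ := hcov p ⟨hp, h⟩
        exact ⟨z, Finset.mem_insert_of_mem hz, hlt⟩
      · exact ⟨p0.1, Finset.mem_insert_self _ _, by linarith [not_le.1 h, hmin p hp]⟩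

/-- Packing bound from a measure. -/
theorem card_le_of_meas [MeasurableSpace M] (hd : PD d) (μ : Measure M)
    (hm : ∀ x r, MeasurableSet {y | d x y < r}) {W : Set M} (hW : μ W ≠ ⊤) {ε : ℝ}
    (S : Finset (M × ℝ)) (hS : Sep d S) (hsub : ∀ p ∈ S, {y | d p.1 y < p.2} ⊆ W)
    (hε : ∀ p ∈ S, ε ≤ μ.real {y | d p.1 y < p.2}) : S.card * ε ≤ μ.real W := by
  have hdis : (S : Set (M × ℝ)).PairwiseDisjoint fun p => {y | d p.1 y < p.2} := by
    intro p hp q hq hpq
    refine disjoint_left.2 fun y h1 h2 => ?_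
    have := hS p hp q hq hpq
    have h3 := hd.tri p.1 y q.1
    rw [hd.symm y] at h3
    simp only [mem_setOf_eq] at h1 h2
    linarith
  calc (S.card : ℝ) * ε = ∑ _p ∈ S, ε := by simp
    _ ≤ ∑ p ∈ S, μ.real {y | d p.1 y < p.2} := Finset.sum_le_sum hε
    _ = μ.real (⋃ p ∈ S, {y | d p.1 y < p.2}) :=
        (measureReal_biUnion_finset hdis (fun p _ => hm _ _)
          (fun p hp => ne_top_of_le_ne_top hW (measure_mono (hsub p hp)))).symm
    _ ≤ μ.real W := measureReal_mono (iUnion₂_subset hsub) hW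

/-- **Concentration points**: at most `E/ε` points catch every ball of energy `> ε` centred in `Ω`. -/
theorem exists_points [MeasurableSpace M] (hd : PD d) (μ : Measure M) [IsFiniteMeasure μ]
    (hm : ∀ x r, MeasurableSet {y | d x y < r}) {ε E r1 : ℝ} {N : ℕ} (hE : μ.real univ ≤ E)
    (hN : E < (N + 1) * ε) (h1 : 0 < r1) (Ω : Set M)
    (hr : ∀ x ∈ Ω, μ.real {y | d x y < r1} ≤ ε) {x0 : M} (hx0 : x0 ∈ Ω) :
    ∃ z : Fin (N + 1) → M, (∀ a, z a ∈ Ω) ∧ z 0 = x0 ∧
      ∀ x ∈ Ω, ∀ r, ε < μ.real {y | d x y < r} → ∃ a, d x (z a) < 3 * r := by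
  classical
  have hε : 0 < ε := by
    have : (0 : ℝ) ≤ μ.real univ := measureReal_nonneg
    by_contra h
    nlinarith [not_lt.1 h, (Nat.cast_nonneg N : (0 : ℝ) ≤ N)]
  obtain ⟨Z, hZ, hZF, hcov⟩ := greedy hd h1 N {p | p.1 ∈ Ω ∧ ε < μ.real {y | d p.1 y < p.2}}
    (fun p hp => by
      by_contra h
      have : μ.real {y | d p.1 y < p.2} ≤ μ.real {y | d p.1 y < r1} :=
        measureReal_mono (fun y (hy : d p.1 y < p.2) => hy.trans (not_le.1 h))
      linarith [hp.2, hr p.1 hp.1])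
    (fun S hS hsep => by
      have := card_le_of_meas hd μ hm (W := univ) (measure_ne_top _ _) S hsep
        (fun _ _ => subset_univ _) (fun p hp => (hS hp).2.le)
      have h2 : (S.card : ℝ) < N + 1 := lt_of_mul_lt_mul_right (by linarith) hε.le
      exact Nat.lt_succ_iff.1 (by exact_mod_cast h2))
  let e := Z.equivFin
  let w : Fin N → M := fun a => if h : a.val < Z.card then (e.symm ⟨a, h⟩ : M) else x0
  refine ⟨Fin.cons x0 w, fun a => ?_, rfl, fun x hx r hr => ?_⟩
  · refine Fin.cases hx0 (fun a => ?_) a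
    simp only [Fin.cons_succ, w]
    split_ifs with h
    · obtain ⟨r, hr⟩ := hZF _ (e.symm ⟨a, h⟩).2
      exact hr.1
    · exact hx0
  · obtain ⟨z, hz, hlt⟩ := hcov (x, r) ⟨hx, hr⟩
    refine ⟨Fin.succ ⟨e ⟨z, hz⟩, (e ⟨z, hz⟩).isLt.trans_le hZ⟩, ?_⟩
    rw [Fin.cons_succ]
    simpa [w] using hlt

/-- **Nets**: a set inside a ball of radius `R` has a `3r`-net of bounded cardinality. -/
theorem exists_net [MeasurableSpace M] (hd : PD d) (ν : Measure M) [IsFiniteMeasure ν]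
    (hm : ∀ x r, MeasurableSet {y | d x y < r}) {K : Set M} {z : M} {R r v V : ℝ} {N : ℕ}
    (hr : 0 < r) (hK : ∀ x ∈ K, d z x ≤ R) (hv : ∀ x ∈ K, v ≤ ν.real {y | d x y < r})
    (hV : ν.real {y | d z y < R + r} ≤ V) (hN : V < (N + 1) * v) :
    ∃ Y : Finset M, Y.card ≤ N ∧ ↑Y ⊆ K ∧ ∀ x ∈ K, ∃ y ∈ Y, d x y < 3 * r := by
  have hv0 : 0 < v := by
    have : (0 : ℝ) ≤ ν.real {y | d z y < R + r} := measureReal_nonneg
    by_contra h
    nlinarith [not_lt.1 h, (Nat.cast_nonneg N : (0 : ℝ) ≤ N)]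
  obtain ⟨Z, hZ, hZF, hcov⟩ := greedy hd hr N {p | p.1 ∈ K ∧ p.2 = r} (fun p hp => hp.2.ge)
    (fun S hS hsep => by
      have := card_le_of_meas hd ν hm (W := {y | d z y < R + r}) (measure_ne_top _ _) S hsep
        (fun p hp y (hy : d p.1 y < p.2) => by
          have h1 := hK _ (hS hp).1
          have h2 := hd.tri z p.1 y
          rw [(hS hp).2] at hy
          show d z y < R + r
          linarith)
        (fun p hp => by rw [(hS hp).2]; exact hv _ (hS hp).1)
      have h2 : (S.card : ℝ) < N + 1 := lt_of_mul_lt_mul_right (by linarith) hv0.le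
      exact Nat.lt_succ_iff.1 (by exact_mod_cast h2))
  refine ⟨Z, hZ, fun y hy => ?_, fun x hx => hcov (x, r) ⟨hx, rfl⟩⟩
  obtain ⟨_, h⟩ := hZF y hy
  exact h.1

/-- a finset of cardinality `n` is the range of a map on `Fin n` -/
theorem exists_enum {α : Type*} (Y : Finset α) {n : ℕ} (h : Y.card = n) :
    ∃ y : Fin n → α, (∀ k, y k ∈ Y) ∧ ∀ x ∈ Y, ∃ k, y k = x := by
  subst h
  exact ⟨fun k => (Y.equivFin.symm k : α), fun k => (Y.equivFin.symm k).2,
    fun x hx => ⟨Y.equivFin ⟨x, hx⟩, by simp⟩⟩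

/-- a finset of cardinality `≤ n`, padded by a default value -/
theorem exists_enum_pad {α : Type*} (Y : Finset α) {n : ℕ} (h : Y.card ≤ n) (x0 : α) :
    ∃ y : Fin n → α, (∀ k, y k ∈ Y ∨ y k = x0) ∧ ∀ x ∈ Y, ∃ k, y k = x := by
  refine ⟨fun k => if h : k.val < Y.card then (Y.equivFin.symm ⟨k, h⟩ : α) else x0, fun k => ?_,
    fun x hx => ⟨⟨Y.equivFin ⟨x, hx⟩, (Y.equivFin ⟨x, hx⟩).isLt.trans_le h⟩, by simp⟩⟩
  dsimp only
  split_ifs with h
  · exact Or.inl (Y.equivFin.symm _).2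
  · exact Or.inr rfl

end Crest.Agent.N207.I
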