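import Crest.Agent.N207.I.Cfg2
import Crest.Agent.N207.I.Greedy
import Crest.Agent.N207.GE.Dist

/-!
# Row 207, block I (helper98): metric geometry of a tree of necks at one index
-/

set_option autoImplicit false
set_option linter.unusedSectionVars false

open scoped ContDiff Topology Manifold
open Set Filter Metric

noncomputable section

namespace Crest.Agent.N207.I

open Sk

variable {M : Type*} [TopologicalSpace M] [ChartedSpace E4 M] [IsManifold 𝓘(ℝ, E4) ∞ M]

/-- normalised necks `N v` (unit `s v`) with centres `c v` -/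
structure TG {V : Type} (root : V) (par : V → V) (dep : V → ℕ) (r : ℝ) (N : V → Nk M) (s L : V → ℝ)
    (c : V → M) (d : M → M → ℝ) (K : ℝ) : Prop where
  pd : PD d
  dep_root : dep root = 0
  dep_par : ∀ w, w ≠ root → dep w = dep (par w) + 1
  r_pos : 0 < r
  r_le : r ≤ 1 / 100
  top : ∀ v, (N v).Top
  a_eq : ∀ v, (N v).a = 3 / 4
  b_root : (N root).b = 6
  b_kid : ∀ w, w ≠ root → (N w).b = 2 * r * Real.exp (L w)
  long : ∀ w, w ≠ root → 64 ≤ r * Real.exp (L w)
  s_pos : ∀ v, 0 < s v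
  s_par : ∀ w, w ≠ root → s (par w) = Real.exp (L w) * s w
  c_in : ∀ v, c v ∈ (N v).In
  lo : ∀ v p q, 9 / 10 * s v * ((N v).rad p - (N v).rad q) ≤ d q p
  up : ∀ v t, 0 ≤ t → t ≤ (N v).b → ∀ p ∈ (N v).Om t, d (c v) p ≤ s v * (2 * t + K)
  K_le : ∀ w, w ≠ root → K ≤ r * Real.exp (L w)
  ctr : ∀ w, w ≠ root → (N (par w)).rad (c w) ≤ 13 / 16
  sib : ∀ w w', w ≠ root → w' ≠ root → par w = par w' → w ≠ w' → 10 * r * s (par w) < d (c w) (c w')

/-- the core region -/
def creg {M : Type*} {V : Type} (root : V) (par : V → V) (r : ℝ) (N : V → Nk M) (L : V → ℝ) (v : V) :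
    Set M :=
  {p | p ∈ (N v).Om 2 ∧ ∀ w, w ≠ root ∧ par w = v → p ∉ (N w).Om (r / 2 * Real.exp (L w))}

namespace TG

variable {V : Type} {root : V} {par : V → V} {dep : V → ℕ} {r : ℝ} {N : V → Nk M} {s L : V → ℝ}
  {c : V → M} {d : M → M → ℝ} {K : ℝ} (h : TG root par dep r N s L c d K)
include h

theorem b_ge (v : V) : 6 ≤ (N v).b := by
  by_cases hv : v = root
  · rw [hv, h.b_root]
  · rw [h.b_kid v hv]; linarith [h.long v hv]

theorem mem_Om (v : V) {t : ℝ} (h1 : 3 / 4 < t) (h2 : t ≤ (N v).b) {p : M} :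
    p ∈ (N v).Om t ↔ (N v).rad p < t := (h.top v).mem_Om ⟨by rw [h.a_eq]; exact h1, h2⟩

theorem near {w : V} (hw : w ≠ root) {p : M} (hp : p ∈ (N w).Om (N w).b) :
    d (c w) p ≤ 5 * r * s (par w) := by
  have h1 := h.up w _ (by linarith [h.b_ge w]) le_rfl p hp
  have h2 := mul_le_mul_of_nonneg_left (h.K_le w hw) (h.s_pos w).le
  rw [h.b_kid w hw] at h1
  rw [h.s_par w hw]
  nlinarith

theorem nest {w : V} (hw : w ≠ root) : (N w).Om (N w).b ⊆ (N (par w)).Om (7 / 8) := fun p hp => by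
  rw [h.mem_Om _ (by norm_num) (by linarith [h.b_ge (par w)])]
  have h1 := (h.lo (par w) p (c w)).trans (h.near hw hp)
  have h2 := h.s_pos (par w)
  have h3 := h.ctr w hw
  have h4 := mul_le_mul_of_nonneg_right h.r_le h2.le
  by_contra h5
  have h6 := mul_le_mul_of_nonneg_left
    (show (1 : ℝ) / 16 ≤ (N (par w)).rad p - (N (par w)).rad (c w) by linarith) h2.le
  linarith

theorem sib' {w w' : V} (hw : w ≠ root) (hw' : w' ≠ root) (e : par w = par w') (hne : w ≠ w') :
    Disjoint ((N w).Om (N w).b) ((N w').Om (N w').b) := by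
  refine disjoint_left.2 fun p hp hp' => ?_
  have h1 := h.near hw hp
  have h2 := h.near hw' hp'
  have h3 := h.pd.tri (c w) p (c w')
  rw [h.pd.symm p] at h3
  rw [← e] at h2
  linarith [h.sib w w' hw hw' e hne]

theorem sub_root (v : V) (hv : v ≠ root) : (N v).Om (N v).b ⊆ (N root).Om (7 / 8) := by
  induction hd : dep v generalizing v with
  | zero => have := h.dep_par v hv; omega
  | succ n ih =>
    by_cases hp : par v = root
    · exact hp ▸ h.nest hv
    · exact ((h.nest hv).trans ((N _).om_mono (by linarith [h.b_ge (par v)]))).trans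
        (ih _ hp (by have := h.dep_par v hv; omega))

theorem creg_sub (v : V) : creg root par r N L v ⊆ (N root).Om 3 := fun p hp => by
  by_cases hv : v = root
  · subst hv; exact (N _).om_mono (by norm_num) hp.1
  · exact (N _).om_mono (by norm_num)
      (h.sub_root v hv ((N _).om_mono (by linarith [h.b_ge v]) hp.1))

theorem creg_up {v : V} {p : M} (hp : p ∈ creg root par r N L v) : d (c v) p ≤ s v * (4 + K) := by
  have := h.up v 2 (by norm_num) (by linarith [h.b_ge v]) p hp.1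
  linarith

theorem creg_rad {v w : V} (hw : w ≠ root) (e : par w = v) {p : M} (hp : p ∈ creg root par r N L v) :
    r / 2 * Real.exp (L w) ≤ (N w).rad p := by
  have h1 := hp.2 w ⟨hw, e⟩
  have h2 := h.long w hw
  rwa [h.mem_Om w (by linarith) (by rw [h.b_kid w hw]; linarith), not_lt] at h1

theorem creg_lo {v w : V} (hw : w ≠ root) (e : par w = v) {p : M} (hp : p ∈ creg root par r N L v) :
    2 / 5 * r * s v ≤ d p (c w) := by
  have h1 := h.lo w p (c w)
  rw [(h.top w).rad_In (h.c_in w), h.a_eq, h.pd.symm] at h1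
  have h2 := h.creg_rad hw e hp
  have h3 := h.long w hw
  have h4 := mul_le_mul_of_nonneg_left
    (show 4 / 9 * (r * Real.exp (L w)) ≤ (N w).rad p - 3 / 4 by linarith) (h.s_pos w).le
  rw [← e, h.s_par w hw]
  nlinarith

end TG

/-- **the configuration from the metric data** -/
theorem TG.cfg {T0 : TD M} {N : T0.V → Nk M} {s L : T0.V → ℝ} {c : T0.V → M} {d : M → M → ℝ} {K : ℝ}
    (h : TG T0.root T0.par T0.dep T0.r N s L c d K) (grp : ∀ v, (N v).Γ = T0.Γ v)
    {φ : T0.B → E4 → M} {y : T0.B → M} {σ : T0.V → ℝ} (hσ : ∀ v, σ v ≤ T0.r * s v / 50)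
    (par : ∀ a, Par (φ a) (ball 0 4)) (inj : ∀ a, InjOn (φ a) (ball 0 4))
    (hy : ∀ a, y a ∈ creg T0.root T0.par T0.r N L (T0.vx a))
    (h4 : ∀ a, ∀ x ∈ ball (0 : E4) 4, d (φ a x) (y a) < 4 * σ (T0.vx a))
    (h1 : ∀ a p, d p (y a) < σ (T0.vx a) → p ∈ φ a '' ball 0 1)
    (net : ∀ v, ∀ p ∈ creg T0.root T0.par T0.r N L v, ∃ a, T0.vx a = v ∧ d p (y a) < σ v) :
    T0.Cfg N φ L := by
  have hr := h.r_pos
  refine ⟨⟨h.dep_root, h.dep_par, hr, by linarith [h.r_le]⟩, h.top, grp, h.a_eq, h.b_root, h.b_kid,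
    h.long, par, inj, fun v w hk => hk.2 ▸ h.nest hk.1,
    fun v w w' hk hk' hw => h.sib' hk.1 hk'.1 (hk.2.trans hk'.2.symm) hw, fun a x hx => ?_,
    fun a w hk x hx => ?_, fun v p hp hp' => ?_⟩
  · have hb := h.b_ge (T0.vx a)
    have h2 := (h.mem_Om _ (by norm_num) (by linarith)).1 (hy a).1
    rw [h.mem_Om _ (by norm_num) (by linarith)]
    have h3 := h.lo (T0.vx a) (φ a x) (y a)
    rw [h.pd.symm] at h3
    have h5 := h.s_pos (T0.vx a)
    have h6 := mul_le_mul_of_nonneg_right h.r_le h5.le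
    by_contra h7
    have h8 := mul_le_mul_of_nonneg_left
      (show (1 : ℝ) ≤ (N (T0.vx a)).rad (φ a x) - (N (T0.vx a)).rad (y a) by linarith) h5.le
    linarith [h4 a x hx, hσ (T0.vx a)]
  · have h2 := h.creg_rad hk.1 hk.2 (hy a)
    have h3 := h.long w hk.1
    rw [h.mem_Om w (by linarith) (by rw [h.b_kid w hk.1]; linarith), not_lt]
    have h5 := (h.lo w (y a) (φ a x)).trans_lt (h4 a x hx)
    have h6 := hσ (T0.vx a)
    have h9 := h.s_par w hk.1
    rw [hk.2] at h9
    rw [h9] at h6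
    by_contra h7
    have h8 := mul_le_mul_of_nonneg_left (show 1 / 10 * (T0.r * Real.exp (L w)) ≤
      (N w).rad (y a) - (N w).rad (φ a x) by linarith) (h.s_pos w).le
    have h10 := mul_pos (mul_pos hr (Real.exp_pos (L w))) (h.s_pos w)
    nlinarith
  · obtain ⟨a, ha, h2⟩ := net v p ⟨hp, hp'⟩
    exact ⟨a, ha, h1 a p (ha ▸ h2)⟩

end Crest.Agent.N207.I

end
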