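import Crest.Agent.N207.I.Lim1
import Crest.Agent.N207.I.Car3

/-!
# Row 207, block I (helper56): the tree of limits exists as soon as the metrics are bounded
-/

set_option autoImplicit false

open scoped ContDiff Topology
open Set Filter Metric
open Crest.GeometryTopology.CoordMetric Crest.Agent.R202.Tens

noncomputable section

namespace Crest.Agent.N207.I

open Jt

namespace TD

variable {M : Type*} (T : TD M) {ι : Type}

/-- the scaling from the chart `s` of `core v` to the chart `s` of `glob L` -/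
def sg (L : T.V → ℝ) (v : T.V) : T.S → ℝ :=
  Sum.elim (fun _ => 1) fun w => if w = v then 1 else Real.exp (L w)

/-- a metric on `glob L` seen in the chart `s` of `core v`, in the units of `v` -/
def hm (L : T.V → ℝ) (G : T.S → MetricField 4) (v : T.V) (s : T.S) : MetricField 4 :=
  fun x => T.nrm L G s (T.sg L v s • x)

/-- the embedding of bounded parts of `core v` into `glob L` -/
def emb (L : T.V → ℝ) (v : T.V) : T.Car → T.Car :=
  Sum.map id fun p => (p.1, (fun y => T.sg L v (Sum.inr p.1) • y) '' p.2)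

/-- bounds on a family of metrics on the glued spaces -/
structure Bd (γ : ℝ) (l : Filter ι) (L : ι → T.V → ℝ) (G : ι → T.S → MetricField 4) : Prop where
  top : ∀ w, w ≠ T.root → Tendsto (fun i => L i w) l atTop
  met : ∀ᶠ i in l, T.Long (L i) ∧ (T.glob (L i)).IsMet (G i)
  pos : ∃ c > 0, ∀ᶠ i in l, ∀ a, ∀ x ∈ ball (0 : E4) 2, Pos c (T.nrm (L i) (G i) (Sum.inl a) x)
  ball : ∀ a p q, UB l (fun i x => T.nrm (L i) (G i) (Sum.inl a) x p q) fun _ => ball 0 2
  neck : ∀ w (k : ℕ), ∃ C : ℝ, ∀ᶠ i in l, ∀ p q, ∀ x ∈ (T.glob (L i)).U (Sum.inr w),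
    ‖iteratedFDeriv ℝ k (dv (T.nrm (L i) (G i) (Sum.inr w)) p q) x‖ ≤
      C * (‖x‖ ^ k)⁻¹ * T.wt γ (L i) w x
  small : ∀ᶠ i in l, ∀ w p q, ∀ x ∈ (T.glob (L i)).U (Sum.inr w),
    |dv (T.nrm (L i) (G i) (Sum.inr w)) p q x| ≤ 1 / 100

variable {T} {L : T.V → ℝ} {G : T.S → MetricField 4}

theorem sg_pos (L : T.V → ℝ) (v : T.V) (s : T.S) : 0 < T.sg L v s := by
  cases s with
  | inl a => exact one_pos
  | inr w => simp only [sg, Sum.elim_inr]; split_ifs; exacts [one_pos, Real.exp_pos _]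

theorem sg_out (L : T.V → ℝ) (v : T.V) : T.sg L v (Sum.inr v) = 1 := by simp [sg]

theorem sg_inn (L : T.V → ℝ) {v w : T.V} (h : w ≠ v) : T.sg L v (Sum.inr w) = Real.exp (L w) := by
  simp [sg, h]

theorem hm_inl (v : T.V) (a : T.B) : T.hm L G v (Sum.inl a) = T.nrm L G (Sum.inl a) := by
  funext x; simp [hm, sg]

theorem hm_out (v : T.V) : T.hm L G v (Sum.inr v) = T.nrm L G (Sum.inr v) := by
  funext x; simp [hm, sg]

theorem hm_inn {v w : T.V} (h : w ≠ v) :
    T.hm L G v (Sum.inr w) = fun x => T.nrm L G (Sum.inr w) (Real.exp (L w) • x) := by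
  funext x; simp [hm, sg, h]

theorem orb_smul (w : T.V) (c : ℝ) (x : E4) : (fun y => c • y) '' T.orb w x = T.orb w (c • x) := by
  ext y
  constructor
  · rintro ⟨_, ⟨γ, hγ, rfl⟩, rfl⟩; exact ⟨γ, hγ, map_smul _ _ _⟩
  · rintro ⟨γ, hγ, rfl⟩; exact ⟨γ x, ⟨γ, hγ, rfl⟩, (map_smul _ _ _).symm⟩

theorem Ok.eps_sg (h : T.Ok) (L : T.V → ℝ) {v : T.V} {s : T.S} {x : E4}
    (hx : x ∈ (T.core v).U s) : T.eps L (T.un s) * T.sg L v s = T.eps L v := by
  cases s with
  | inl a => simp [un, sg, (mem_core_inl.1 hx).1]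
  | inr w =>
    by_cases hw : w = v
    · subst hw; simp [un, sg]
    · obtain ⟨hk, -⟩ := (mem_core_inn hw).1 hx
      show T.eps L w * _ = _
      rw [sg_inn L hw, h.eps_kid L hk.1, hk.2, mul_assoc, ← Real.exp_add]
      simp

variable {γ : ℝ} {l : Filter ι} {L : ι → T.V → ℝ} {G : ι → T.S → MetricField 4}

theorem exp_big (ht : ∀ w, w ≠ T.root → Tendsto (fun i => L i w) l atTop) (w : T.V) {c : ℝ}
    (hc : 0 < c) (R : ℝ) : ∀ᶠ i in l, w ≠ T.root → R ≤ c * Real.exp (L i w) := by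
  by_cases hw : w = T.root
  · exact Eventually.of_forall fun _ h => absurd hw h
  · exact (((Real.tendsto_exp_atTop.comp (ht w hw)).const_mul_atTop hc).eventually_ge_atTop R).mono
      fun _ h _ => h

/-- points of an annulus lie in the neck -/
theorem Ok.ev_out (h : T.Ok) (ht : ∀ w, w ≠ T.root → Tendsto (fun i => L i w) l atTop) (w : T.V)
    (R : ℝ) : ∀ᶠ i in l, ∀ z : E4, 1 < ‖z‖ → ‖z‖ < R → z ∈ (T.glob (L i)).U (Sum.inr w) ∧
      (T.glob (L i)).c (Sum.inr w) z = T.emb (L i) w ((T.core w).c (Sum.inr w) z) := by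
  have hr := h.r_pos
  filter_upwards [exp_big ht w (c := T.r / 4) (by positivity) R] with i hi z h1 h2
  have he := Real.exp_pos (L i w)
  refine ⟨⟨h1, fun hw => by nlinarith [hi hw]⟩, ?_⟩
  rw [glob_eq_out fun hw => by linarith [hi hw], core_c_out]
  split_ifs <;> simp [emb, sg]

theorem Ok.ev_inn (h : T.Ok) (ht : ∀ w, w ≠ T.root → Tendsto (fun i => L i w) l atTop) {v w : T.V}
    (hk : T.kid v w) {ρ : ℝ} (hρ : 0 < ρ) : ∀ᶠ i in l, ∀ z : E4, ρ < ‖z‖ → ‖z‖ < T.r →
      Real.exp (L i w) • z ∈ (T.glob (L i)).U (Sum.inr w) ∧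
      (T.glob (L i)).c (Sum.inr w) (Real.exp (L i w) • z) =
        T.emb (L i) v ((T.core v).c (Sum.inr w) z) := by
  filter_upwards [exp_big ht w hρ 4] with i hi z h1 h2
  have he := Real.exp_pos (L i w)
  have hn : ‖Real.exp (L i w) • z‖ = Real.exp (L i w) * ‖z‖ := by
    rw [norm_smul, Real.norm_of_nonneg he.le]
  have h4 : 4 ≤ ‖Real.exp (L i w) • z‖ := by nlinarith [hi hk.1]
  have e : Real.exp (-L i w) • Real.exp (L i w) • z = z := by
    rw [smul_smul, ← Real.exp_add]; simp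
  refine ⟨⟨by linarith, fun _ => by nlinarith⟩, ?_⟩
  rw [glob_c_inr, if_neg (not_lt.2 h4), e, core_c_inn (h.kid_ne hk)]
  by_cases h5 : T.r / 4 < ‖z‖
  · rw [if_pos ⟨hk.1, h5⟩, if_pos h5, hk.2]; rfl
  · rw [if_neg fun h6 => h5 h6.2, if_neg h5]
    simp only [emb, Sum.map_inr, sg_inn _ (h.kid_ne hk), orb_smul]

theorem Ok.ev_emb (h : T.Ok) (ht : ∀ w, w ≠ T.root → Tendsto (fun i => L i w) l atTop) {v : T.V}
    {s : T.S} {x : E4} (hx : x ∈ (T.core v).U s) : ∀ᶠ i in l, ∀ᶠ z in 𝓝 x,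
      T.sg (L i) v s • z ∈ (T.glob (L i)).U s ∧
      (T.glob (L i)).c s (T.sg (L i) v s • z) = T.emb (L i) v ((T.core v).c s z) := by
  have hO := ((h.core_ok v).isOpen s).eventually_mem hx
  cases s with
  | inl a =>
    refine Eventually.of_forall fun i => hO.mono fun z hz => ?_
    simp only [sg, Sum.elim_inl, one_smul]
    exact ⟨mem_glob_inl.2 (mem_core_inl.1 hz).2, rfl⟩
  | inr w =>
    by_cases hw : w = v
    · subst hw
      filter_upwards [h.ev_out ht w (‖x‖ + 1)] with i hi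
      filter_upwards [hO, (continuous_norm.tendsto x).eventually (gt_mem_nhds (lt_add_one ‖x‖))]
        with z h1 h2
      rw [sg_out, one_smul]
      exact hi z (mem_core_out.1 h1) h2
    · obtain ⟨hk, h0, -⟩ := (mem_core_inn hw).1 hx
      filter_upwards [h.ev_inn ht hk (half_pos h0)] with i hi
      filter_upwards [hO, (continuous_norm.tendsto x).eventually (lt_mem_nhds (half_lt_self h0))]
        with z h1 h2
      rw [sg_inn _ hw]
      exact hi z h2 ((mem_core_inn hw).1 h1).2.2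

/-- the transformation law in the charts of `core v` -/
theorem Ok.ev_compat (h : T.Ok) (hB : T.Bd γ l L G) {v : T.V} {a b : T.S} {x : E4} {F : E4 → E4}
    (hF : (T.core v).Tr a b x F) : ∀ᶠ i in l,
      matT (T.hm (L i) (G i) v a) x = pullT F (matT (T.hm (L i) (G i) v b)) x := by
  filter_upwards [h.ev_emb hB.top hF.mem, h.ev_emb hB.top hF.mem', hB.met] with i ha hb hm
  have pa := sg_pos (L i) v a
  have pb := sg_pos (L i) v b
  have ea := h.eps_sg (L i) hF.mem
  have eb := h.eps_sg (L i) hF.mem'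
  generalize hsa : T.sg (L i) v a = sa at *
  generalize hsb : T.sg (L i) v b = sb at *
  have hFx := hF.sm.self_of_nhds
  have e0 : sa⁻¹ • sa • x = x := inv_smul_smul₀ pa.ne' x
  have ht : Tendsto (fun z : E4 => sa⁻¹ • z) (𝓝 (sa • x)) (𝓝 x) := by
    have := (continuous_const_smul sa⁻¹).tendsto (sa • x)
    rwa [e0] at this
  have hT : (T.glob (L i)).Tr a b (sa • x) fun z => sb • F (sa⁻¹ • z) := by
    refine ⟨ha.self_of_nhds.1, by rw [e0]; exact hb.self_of_nhds.1, ?_, ?_⟩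
    · filter_upwards [ht.eventually hF.sm] with z hz
      exact (hz.comp z (contDiff_const_smul _).contDiffAt).const_smul sb
    · filter_upwards [ht.eventually hF.eq, ht.eventually ha,
        ht.eventually (hFx.continuousAt.eventually hb)] with z h1 h2 h3
      rw [h3.2, h1, ← h2.2, smul_inv_smul₀ pa.ne']
  have hc := hm.2.compat a b _ _ hT
  have hd : HasFDerivAt (fun z => sb • F (sa⁻¹ • z)) ((sb * sa⁻¹) • fderiv ℝ F x) (sa • x) := by
    have h1 : HasFDerivAt F (fderiv ℝ F x) (sa⁻¹ • sa • x) := by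
      rw [e0]; exact (hFx.differentiableAt (by simp)).hasFDerivAt
    have h2 := (h1.comp (sa • x) ((hasFDerivAt_id (sa • x)).const_smul sa⁻¹)).const_smul sb
    refine HasFDerivAt.congr_fderiv h2 ?_
    ext z
    simp [mul_smul]
  funext I
  have hI := congrFun hc I
  have qa := eps_pos (L i) (T.un a)
  have qb := eps_pos (L i) (T.un b)
  have key : (T.eps (L i) (T.un a) ^ 2)⁻¹ * (sb * sa⁻¹) ^ 2 = (T.eps (L i) (T.un b) ^ 2)⁻¹ := by
    have : T.eps (L i) (T.un a) * sa = T.eps (L i) (T.un b) * sb := ea.trans eb.symm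
    field_simp
    rw [← mul_pow, ← mul_pow, this, mul_comm]
  simp only [matT, pullT, evT, hd.fderiv, e0, Fin.prod_univ_two, ContinuousLinearMap.smul_apply,
    PiLp.smul_apply, smul_eq_mul] at hI
  simp only [matT, pullT, evT, TD.hm, nrm, hsa, hsb, Matrix.smul_apply, smul_eq_mul,
    Fin.prod_univ_two, hI, Finset.mul_sum, ← key]
  exact Finset.sum_congr rfl fun J _ => by ring

theorem Ok.wt_le (h : T.Ok) (hγ : 0 ≤ γ) {L : T.V → ℝ} {w : T.V} {x : E4}
    (hx : x ∈ (T.glob L).U (Sum.inr w)) : 0 ≤ T.wt γ L w x ∧ T.wt γ L w x ≤ 2 := by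
  have h1 : ‖x‖ ^ (-γ) ≤ 1 := Real.rpow_le_one_of_one_le_of_nonpos hx.1.le (by linarith)
  have h0 : 0 ≤ ‖x‖ ^ (-γ) := by positivity
  unfold wt
  split_ifs with hw
  · constructor <;> linarith
  · have h2 : Real.exp (-L w) * ‖x‖ ≤ 1 := by
      have := nrm_exp_lt.2 (hx.2 hw)
      rw [norm_smul, Real.norm_of_nonneg (Real.exp_pos _).le] at this
      linarith [h.r_lt]
    have h3 := Real.rpow_le_one (by positivity) h2 hγ
    have h4 : 0 ≤ (Real.exp (-L w) * ‖x‖) ^ γ := by positivity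
    constructor <;> linarith

theorem Bd.sm (hB : T.Bd γ l L G) : ∀ᶠ i in l, ∀ s p q, ∀ x ∈ (T.glob (L i)).U s,
    ContDiffAt ℝ ∞ (dv (T.nrm (L i) (G i) s) p q) x :=
  hB.met.mono fun _ hi s p q _ hx => (contDiffAt_const.mul (((hi.2.riem s).contDiffOn p q).contDiffAt
    ((hi.2.riem s).isOpen.mem_nhds hx))).sub contDiffAt_const

theorem Bd.pos_neck (hB : T.Bd γ l L G) : ∀ᶠ i in l, ∀ w, ∀ x ∈ (T.glob (L i)).U (Sum.inr w),
    Pos (1 / 2) (T.nrm (L i) (G i) (Sum.inr w) x) := by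
  filter_upwards [hB.met, hB.small] with i h1 h2 w x hx
  refine pos_of_small (fun p q => ?_) fun p q => h2 w p q x hx
  have := ((h1.2.riem _).posDef x hx).isHermitian.apply p q
  simp only [star_trivial] at this
  simp only [nrm, Matrix.smul_apply, this]

/-- jets of the rescaled neck metric -/
theorem Bd.jet_inn (hB : T.Bd γ l L G) (w : T.V) (k : ℕ) : ∃ C : ℝ, 0 ≤ C ∧ ∀ᶠ i in l, ∀ p q,
    ∀ x : E4, Real.exp (L i w) • x ∈ (T.glob (L i)).U (Sum.inr w) →
      ‖iteratedFDeriv ℝ k (dv (fun y => T.nrm (L i) (G i) (Sum.inr w) (Real.exp (L i w) • y)) p q)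
        x‖ ≤ C * (‖x‖ ^ k)⁻¹ * |T.wt γ (L i) w (Real.exp (L i w) • x)| := by
  obtain ⟨C, hC⟩ := hB.neck w k
  refine ⟨|C|, abs_nonneg _, hC.mono fun i hi p q x hx => ?_⟩
  have he := Real.exp_pos (L i w)
  refine (norm_iter_smul (dv (T.nrm (L i) (G i) (Sum.inr w)) p q) he k x).trans ?_
  refine (mul_le_mul_of_nonneg_left ((hi p q _ hx).trans (le_abs_self _)) (by positivity)).trans
    (le_of_eq ?_)
  rw [abs_mul, abs_mul, abs_of_nonneg (a := (_ : ℝ)⁻¹) (by positivity), norm_smul,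
    Real.norm_of_nonneg he.le, mul_pow, mul_inv]
  field_simp

variable {U : Ultrafilter ι}

theorem Ok.locB (h : T.Ok) (hγ : 0 ≤ γ) (hB : T.Bd γ U L G) (v : T.V) (s : T.S) :
    LocB U (fun i => T.hm (L i) (G i) v s) ((T.core v).U s) := by
  intro K hK hKO
  cases s with
  | inl a =>
    simp only [hm_inl]
    obtain ⟨c, hc, hp⟩ := hB.pos
    exact ⟨ball 0 2, isOpen_ball, fun x hx => mem_ball_zero_iff.2 (mem_core_inl.1 (hKO hx)).2,
      hB.ball a, c, hc, hp.mono fun i hi => hi a⟩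
  | inr w =>
    by_cases hw : w = v
    · subst hw
      simp only [hm_out]
      obtain ⟨R, hR⟩ := hK.isBounded.exists_norm_le
      have h1 := h.ev_out hB.top w (R + 1)
      refine ⟨{z | 1 < ‖z‖ ∧ ‖z‖ < R + 1}, (isOpen_lt continuous_const continuous_norm).inter
        (isOpen_lt continuous_norm continuous_const),
        fun x hx => ⟨mem_core_out.1 (hKO hx), by linarith [hR x hx]⟩, fun p q =>
        ub_of_dv (ub_iff.2 ⟨?_, fun k => ?_⟩), 1 / 2, by norm_num, ?_⟩
      · filter_upwards [h1, hB.sm] with i h1 h2 z hz using h2 _ p q z (h1 z hz.1 hz.2).1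
      · obtain ⟨C, hC⟩ := hB.neck w k
        refine ⟨|C| * 1 * 2, ?_⟩
        filter_upwards [h1, hC] with i h1 h2 z hz
        have h3 := (h1 z hz.1 hz.2).1
        have h4 := h.wt_le hγ h3
        refine (h2 p q z h3).trans (mul_le_mul (mul_le_mul (le_abs_self _)
          (inv_le_one_of_one_le₀ (one_le_pow₀ hz.1.le)) (by positivity) (abs_nonneg _)) h4.2 h4.1
          (by positivity))
      · filter_upwards [h1, hB.pos_neck] with i h1 h2 z hz using h2 w z (h1 z hz.1 hz.2).1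
    · rcases K.eq_empty_or_nonempty with rfl | hne
      · exact ⟨∅, isOpen_empty, subset_rfl, fun p q => ub_iff.2 ⟨by simp, fun k => ⟨0, by simp⟩⟩,
          1, one_pos, by simp⟩
      simp only [hm_inn hw]
      obtain ⟨x0, hx0, hmin⟩ := hK.exists_isMinOn hne continuous_norm.continuousOn
      obtain ⟨hk, h0, -⟩ := (mem_core_inn hw).1 (hKO hx0)
      have h1 := h.ev_inn hB.top hk (half_pos h0)
      refine ⟨{z | ‖x0‖ / 2 < ‖z‖ ∧ ‖z‖ < T.r}, (isOpen_lt continuous_const continuous_norm).inter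
        (isOpen_lt continuous_norm continuous_const),
        fun x hx => ⟨(half_lt_self h0).trans_le (hmin hx), ((mem_core_inn hw).1 (hKO hx)).2.2⟩,
        fun p q => ub_of_dv (ub_iff.2 ⟨?_, fun k => ?_⟩), 1 / 2, by norm_num, ?_⟩
      · filter_upwards [h1, hB.sm] with i h1 h2 z hz
        exact (h2 _ p q _ (h1 z hz.1 hz.2).1).comp z (contDiff_const_smul _).contDiffAt
      · obtain ⟨C, hC0, hC⟩ := hB.jet_inn w k
        refine ⟨C * ((‖x0‖ / 2) ^ k)⁻¹ * 2, ?_⟩
        filter_upwards [h1, hC] with i h1 h2 z hz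
        have h3 := (h1 z hz.1 hz.2).1
        have h4 := h.wt_le hγ h3
        refine (h2 p q z h3).trans ?_
        rw [abs_of_nonneg h4.1]
        have := hz.1.le
        gcongr
        exacts [h4.1, h4.2]
      · filter_upwards [h1, hB.pos_neck] with i h1 h2 z hz using h2 w _ (h1 z hz.1 hz.2).1

/-- the limit metrics -/
def glim (T : TD M) (U : Ultrafilter ι) (L : ι → T.V → ℝ) (G : ι → T.S → MetricField 4) (v : T.V)
    (s : T.S) : MetricField 4 := mlim U fun i => T.hm (L i) (G i) v s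

theorem Ok.seq_glim (h : T.Ok) (hγ : 0 ≤ γ) (hB : T.Bd γ U L G) :
    T.Seq (T.glim U L G) γ U L G := by
  refine ⟨hB.top, hB.met, fun a p q K hK hKO => ?_, fun w p q K hK hKO => ?_,
    fun w hw p q K hK hKO => ?_, hB.neck, hB.small⟩
  · simpa only [glim, hm_inl] using (h.locB hγ hB (T.vx a) (Sum.inl a)).ue hK
      (fun x hx => mem_core_inl.2 ⟨rfl, mem_ball_zero_iff.1 (hKO hx)⟩) p q
  · simpa only [glim, hm_out] using (h.locB hγ hB w (Sum.inr w)).ue hK
      (fun x hx => mem_core_out.2 (hKO hx)) p q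
  · simpa only [glim, hm_inn (h.par_ne hw)] using (h.locB hγ hB (T.par w) (Sum.inr w)).ue hK
      (fun x hx => (mem_core_inn (h.par_ne hw)).2 ⟨⟨hw, rfl⟩, hKO hx⟩) p q

theorem Ok.lim_glim (h : T.Ok) (hγ : 0 < γ) (hB : T.Bd γ U L G)
    (hr : ∀ v s, ∀ x ∈ (T.core v).U s, ∀ p q, ricci (T.glim U L G v s) x p q = 0) :
    T.Lim (T.glim U L G) γ := by
  have hl := h.locB hγ.le hB
  refine ⟨fun v => ⟨fun s => (hl v s).riem ((h.core_ok v).isOpen s), fun a b x F hF =>
    (hl v a).compat (hl v b) hF.mem hF.mem' (h.ev_compat hB hF)⟩, hr, fun v k => ?_,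
    fun w hw k => ?_, fun v p q x hx => ?_, fun w hw p q x h0 hx => ?_⟩
  · obtain ⟨C, hC⟩ := hB.neck v k
    refine ⟨C, fun p q x hx => (hl v _).jet (mem_core_out.2 hx) p q k
      (b := fun i => C * (‖x‖ ^ k)⁻¹ * T.wt γ (L i) v x) ?_ ?_⟩
    · have e : C * ‖x‖ ^ (-γ - k) = C * (‖x‖ ^ k)⁻¹ * (‖x‖ ^ (-γ) + 0) := by
        rw [Real.rpow_sub (by linarith), Real.rpow_natCast]; ring
      rw [e]
      refine (tendsto_const_nhds.add ?_).const_mul _
      by_cases hv : v = T.root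
      · simp [hv]
      · simp only [if_neg hv]
        have := ((Real.tendsto_exp_neg_atTop_nhds_zero.comp (hB.top v hv)).mul_const ‖x‖).rpow_const
          (Or.inr hγ.le)
        rwa [zero_mul, Real.zero_rpow hγ.ne'] at this
    · filter_upwards [hC, h.ev_out hB.top v (‖x‖ + 1)] with i h1 h2
      rw [hm_out]
      exact h1 p q x (h2 x hx (lt_add_one _)).1
  · obtain ⟨C, -, hC⟩ := hB.jet_inn w k
    refine ⟨C, fun p q x h0 hx => (hl (T.par w) _).jet
      ((mem_core_inn (h.par_ne hw)).2 ⟨⟨hw, rfl⟩, h0, hx⟩) p q k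
      (b := fun i => C * (‖x‖ ^ k)⁻¹ * |T.wt γ (L i) w (Real.exp (L i w) • x)|) ?_ ?_⟩
    · have e : C * ‖x‖ ^ (γ - k) = C * (‖x‖ ^ k)⁻¹ * |0 + ‖x‖ ^ γ| := by
        rw [Real.rpow_sub h0, Real.rpow_natCast, zero_add, abs_of_nonneg (by positivity)]; ring
      rw [e]
      refine (Tendsto.abs ?_).const_mul _
      have e2 : ∀ i, T.wt γ (L i) w (Real.exp (L i w) • x) =
          (Real.exp (L i w) * ‖x‖) ^ (-γ) + ‖x‖ ^ γ := fun i => by
        rw [wt, if_neg hw, norm_smul, Real.norm_of_nonneg (Real.exp_pos _).le, ← mul_assoc,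
          ← Real.exp_add, neg_add_cancel, Real.exp_zero, one_mul]
      simp only [e2]
      exact ((tendsto_rpow_neg_atTop hγ).comp
        ((Real.tendsto_exp_atTop.comp (hB.top w hw)).atTop_mul_const h0)).add_const _
    · filter_upwards [hC, h.ev_inn hB.top ⟨hw, rfl⟩ (half_pos h0)] with i h1 h2
      rw [hm_inn (h.par_ne hw)]
      exact h1 p q x (h2 x (half_lt_self h0) hx).1
  · refine (hl v _).small (mem_core_out.2 hx) p q ?_
    filter_upwards [hB.small, h.ev_out hB.top v (‖x‖ + 1)] with i h1 h2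
    rw [hm_out]
    exact h1 v p q x (h2 x hx (lt_add_one _)).1
  · refine (hl (T.par w) _).small ((mem_core_inn (h.par_ne hw)).2 ⟨⟨hw, rfl⟩, h0, hx⟩) p q ?_
    filter_upwards [hB.small, h.ev_inn hB.top ⟨hw, rfl⟩ (half_pos h0)] with i h1 h2
    rw [hm_inn (h.par_ne hw)]
    exact h1 w p q _ (h2 x (half_lt_self h0) hx).1

/-- **The tree of limits.** -/
theorem Ok.exists_lim (h : T.Ok) (hγ : 0 < γ) (hB : T.Bd γ U L G)
    (hr : ∀ v s, ∀ x ∈ (T.core v).U s, ∀ p q,
      Tendsto (fun i => ricci (T.hm (L i) (G i) v s) x p q) U (𝓝 0)) :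
    ∃ g, T.Lim g γ ∧ T.Seq g γ U L G :=
  ⟨_, h.lim_glim hγ hB fun v s x hx p q => (h.locB hγ.le hB v s).ricci hx p q (hr v s x hx p q),
    h.seq_glim hγ.le hB⟩

end TD

end Crest.Agent.N207.I

end
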