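import Crest.Agent.N207.I.Pre2
import Crest.Agent.N207.I.Lim2

/-!
# Row 207, block I (helper24): unscaled form of `Pre`; the glued metrics satisfy `Bd`
-/

set_option autoImplicit false
open Set Filter Topology Function Metric
open scoped ContDiff Manifold
open Crest.GeometryTopology.CoordMetric
open Crest.Agent.R202.Tens

noncomputable section

namespace Crest.Agent.N207.I

open Jt

namespace TD

variable {M : Type*} (T : TD M)

/-- the neck lengths of a family of units -/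
def ls (s : T.V → ℝ) (w : T.V) : ℝ := Real.log (s (T.par w) / s w)

variable {T}

theorem eps_ls (h0 : T.dep T.root = 0) (hd : ∀ w, w ≠ T.root → T.dep w = T.dep (T.par w) + 1)
    {s : T.V → ℝ} (hs : ∀ v, 0 < s v) (v : T.V) : T.eps (T.ls s) v = s v / s T.root := by
  induction h : T.dep v generalizing v with
  | zero =>
    by_cases hv : v = T.root
    · rw [hv, div_self (hs _).ne']; simp [eps, h0]
    · have := hd v hv; omega
  | succ n ih =>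
    have hv : v ≠ T.root := fun e => by rw [e, h0] at h; omega
    have := hs v
    have := hs (T.par v)
    rw [eps_kid' hd _ hv, ih _ (by have := hd v hv; omega), Real.exp_neg, ls,
      Real.exp_log (by positivity)]
    field_simp

variable [TopologicalSpace M] [ChartedSpace E4 M] [IsManifold 𝓘(ℝ, E4) ∞ M] {ι : Type}

variable (T) in
/-- `Pre` for unscaled metrics `m i` and units `s i v` -/
structure PreS (l : Filter ι) (m : ι → Met 4 M) (s : ι → T.V → ℝ) (φ : ι → T.B → E4 → M)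
    (Ψ : ι → T.V → E4 → M) : Prop where
  s_pos : ∀ i v, 0 < s i v
  r_pos : 0 < T.r
  dep_root : T.dep T.root = 0
  dep_par : ∀ w, w ≠ T.root → T.dep w = T.dep (T.par w) + 1
  long : ∀ᶠ i in l, T.Long (T.ls (s i))
  parB : ∀ a, ∀ᶠ i in l, Par (φ i a) (ball 0 3) ∧ InjOn (φ i a) (ball 0 3)
  muB : ∀ a, MU l (fun i y => (s i (T.vx a) ^ 2)⁻¹ • (m i).pm (φ i a) y) fun _ => ball 0 3
  parN : ∀ w, ∀ᶠ i in l, Par (Ψ i w) (T.nk (T.ls (s i)) w)
  fib : ∀ w, ∀ᶠ i in l, ∀ x ∈ T.nk (T.ls (s i)) w, ∀ y ∈ T.nk (T.ls (s i)) w,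
    Ψ i w x = Ψ i w y ↔ ∃ γ ∈ T.Γ w, γ x = y
  jet : ∀ w (k : ℕ), ∃ C : ℝ, ∀ᶠ i in l, ∀ p q, ∀ x ∈ T.nk (T.ls (s i)) w, ‖iteratedFDeriv ℝ k
    (dv (fun y => (s i w ^ 2)⁻¹ • (m i).pm (Ψ i w) y) p q) x‖ ≤ C * (‖x‖ ^ k)⁻¹
  small : ∀ w, ∀ᶠ i in l, ∀ p q, ∀ x ∈ T.nk (T.ls (s i)) w,
    |dv (fun y => (s i w ^ 2)⁻¹ • (m i).pm (Ψ i w) y) p q x| ≤ 1 / 100
  disj : ∀ v w w', w ≠ w' → ∀ᶠ i in l, ∀ x ∈ T.bO v (Sum.inr w), ∀ y ∈ T.bO v (Sum.inr w'),
    ((T.inst (φ i) (Ψ i) (T.ls (s i))).base v).c (Sum.inr w) x ≠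
      ((T.inst (φ i) (Ψ i) (T.ls (s i))).base v).c (Sum.inr w') y

variable {l : Filter ι} {m : ι → Met 4 M} {s : ι → T.V → ℝ} {φ : ι → T.B → E4 → M}
  {Ψ : ι → T.V → E4 → M}

/-- the metric in the units of the root -/
def PreS.g (h : T.PreS l m s φ Ψ) (i : ι) : Met 4 M :=
  (m i).scale (s i T.root ^ 2)⁻¹ (inv_pos.2 (pow_pos (h.s_pos i _) 2))

theorem PreS.g_pm (h : T.PreS l m s φ Ψ) (i : ι) (Φ : E4 → M) :
    (h.g i).pm Φ = fun y => (s i T.root ^ 2)⁻¹ • (m i).pm Φ y := Met.scale_pm _ _ _ _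

theorem PreS.sc (h : T.PreS l m s φ Ψ) (i : ι) (v : T.V) (A : Matrix (Fin 4) (Fin 4) ℝ) :
    (T.eps (T.ls (s i)) v ^ 2)⁻¹ • (s i T.root ^ 2)⁻¹ • A = (s i v ^ 2)⁻¹ • A := by
  have := h.s_pos i v
  have := h.s_pos i T.root
  rw [smul_smul, eps_ls h.dep_root h.dep_par (h.s_pos i)]
  congr 1; field_simp

theorem PreS.pre (h : T.PreS l m s φ Ψ) : T.Pre l h.g φ Ψ fun i => T.ls (s i) := by
  refine ⟨h.r_pos, h.dep_par, h.long, h.parB, ?_, h.parN, h.fib, ?_, ?_, h.disj⟩ <;>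
    simp only [h.g_pm, h.sc]
  exacts [h.muB, h.jet, h.small]

variable (T) in
/-- the glued metric: ball charts `ψ`, neck charts `Ψ`, exterior metric `X` -/
def gm (m : Met 4 M) (s : ℝ) (ψ : T.B → E4 → M) (Ψ : T.V → E4 → M) (X : MetricField 4) :
    T.S → MetricField 4 :=
  Sum.elim (fun a y => (s ^ 2)⁻¹ • m.pm (ψ a) y) fun w =>
    if w = T.root then X else fun y => (s ^ 2)⁻¹ • m.pm (Ψ w) y

theorem gm_root (m : Met 4 M) (s : ℝ) (ψ : T.B → E4 → M) (Ψ : T.V → E4 → M) (X : MetricField 4) :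
    T.gm m s ψ Ψ X (Sum.inr T.root) = X := by simp [gm]

theorem gm_neck (m : Met 4 M) (s : ℝ) (ψ : T.B → E4 → M) (Ψ : T.V → E4 → M) (X : MetricField 4)
    {w : T.V} (hw : w ≠ T.root) :
    T.gm m s ψ Ψ X (Sum.inr w) = fun y => (s ^ 2)⁻¹ • m.pm (Ψ w) y := by simp [gm, hw]

variable (T) in
/-- the exterior metrics and the weighted estimates in the necks -/
structure PreX (l : Filter ι) (m : ι → Met 4 M) (s : ι → T.V → ℝ) (Ψ : ι → T.V → E4 → M)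
    (X : ι → MetricField 4) (γ : ℝ) : Prop where
  top : ∀ w, w ≠ T.root → Tendsto (fun i => T.ls (s i) w) l atTop
  neck : ∀ w, w ≠ T.root → ∀ k : ℕ, ∃ C : ℝ, ∀ᶠ i in l, ∀ p q, ∀ x : E4, 1 < ‖x‖ →
    ‖x‖ < T.r * Real.exp (T.ls (s i) w) → ‖iteratedFDeriv ℝ k
      (dv (fun y => (s i w ^ 2)⁻¹ • (m i).pm (Ψ i w) y) p q) x‖ ≤
        C * (‖x‖ ^ k)⁻¹ * T.wt γ (T.ls (s i)) w x
  riem : ∀ᶠ i in l, IsRiemannianOn (X i) {x | 1 < ‖x‖}
  inv : ∀ᶠ i in l, ∀ δ ∈ T.Γ T.root, ∀ x : E4, 1 < ‖x‖ → matT (X i) x = pullT δ (matT (X i)) x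
  eq : ∀ᶠ i in l, ∀ x : E4, 1 < ‖x‖ → ‖x‖ < 9 / 2 →
    X i x = (s i T.root ^ 2)⁻¹ • (m i).pm (Ψ i T.root) x
  jet : ∀ k : ℕ, ∃ C : ℝ, ∀ᶠ i in l, ∀ p q, ∀ x : E4, 1 < ‖x‖ →
    ‖iteratedFDeriv ℝ k (dv (X i) p q) x‖ ≤ C * (‖x‖ ^ k)⁻¹ * ‖x‖ ^ (-γ)
  small : ∀ᶠ i in l, ∀ p q, ∀ x : E4, 1 < ‖x‖ → |dv (X i) p q x| ≤ 1 / 100

omit [TopologicalSpace M] [ChartedSpace E4 M] [IsManifold 𝓘(ℝ, E4) ∞ M] in
theorem glob_nk (hr : 0 < T.r) {L : T.V → ℝ} {w : T.V} (hw : w ≠ T.root) {x : E4}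
    (hx : x ∈ (T.glob L).U (Sum.inr w)) : x ∈ T.nk L w := by
  refine ⟨by linarith [hx.1], ?_⟩
  rw [if_neg hw]
  have := mul_pos hr (Real.exp_pos (L w))
  linarith [hx.2 hw]

omit [TopologicalSpace M] [ChartedSpace E4 M] [IsManifold 𝓘(ℝ, E4) ∞ M] in
theorem glob_root (L : T.V → ℝ) : (T.glob L).U (Sum.inr T.root) = {x | 1 < ‖x‖} := by
  ext x; simp [mem_glob_inr]

variable [T3Space M] [ConnectedSpace M] {X : ι → MetricField 4} {γ : ℝ}

/-- **the glued metrics** -/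
theorem PreS.bd {𝒰 : Ultrafilter ι} (h : T.PreS 𝒰 m s φ Ψ) (hX : T.PreX 𝒰 m s Ψ X γ) :
    ∀ᶠ i0 in (𝒰 : Filter ι), (T.inst (φ i0) (Ψ i0) (T.ls (s i0))).Ok → ∃ ψ : ι → T.B → E4 → M,
      (∀ᶠ i in (𝒰 : Filter ι), ∀ a, Par (ψ i a) (ball 0 2) ∧ InjOn (ψ i a) (ball 0 2) ∧
        ψ i a '' ball 0 2 ⊆ φ i a '' ball 0 3) ∧
      (T.inst (φ i0) (Ψ i0) (T.ls (s i0))).Bd γ 𝒰 (fun i => T.ls (s i))
        fun i => T.gm (m i) (s i T.root) (ψ i) (Ψ i) (X i) := by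
  filter_upwards [h.pre.fix one_pos] with i0 ⟨F, f, h1, h2, h3⟩ hO
  simp only [h.g_pm, h.sc] at h2
  have e1 : ∀ i a, (T.inst (φ i0) (Ψ i0) (T.ls (s i0))).nrm (T.ls (s i))
      (T.gm (m i) (s i T.root) (fun a x => φ i a (f i a x)) (Ψ i) (X i)) (Sum.inl a) =
      fun y => (s i (T.vx a) ^ 2)⁻¹ • (m i).pm (fun x => φ i a (f i a x)) y := fun i a =>
    funext fun y => h.sc i _ _
  have e2 : ∀ i ψ w, w ≠ T.root → (T.inst (φ i0) (Ψ i0) (T.ls (s i0))).nrm (T.ls (s i))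
      (T.gm (m i) (s i T.root) ψ (Ψ i) (X i)) (Sum.inr w) =
      fun y => (s i w ^ 2)⁻¹ • (m i).pm (Ψ i w) y := fun i ψ w hw =>
    funext fun y => by rw [nrm, gm_neck (T := T) _ _ _ _ _ hw]; exact h.sc i _ _
  have e3 : ∀ i ψ, (T.inst (φ i0) (Ψ i0) (T.ls (s i0))).nrm (T.ls (s i))
      (T.gm (m i) (s i T.root) ψ (Ψ i) (X i)) (Sum.inr T.root) = X i := fun i ψ =>
    funext fun y => by
      rw [nrm, gm_root]
      simp [show (T.inst (φ i0) (Ψ i0) (T.ls (s i0))).eps (T.ls (s i))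
        ((T.inst (φ i0) (Ψ i0) (T.ls (s i0))).un (Sum.inr T.root)) = 1 from hO.eps_root _]
  refine ⟨fun i a x => φ i a (f i a x), h1.mono fun i hi a => ⟨(hi a).1, (hi a).2.1, ?_⟩,
    hX.top, ?_, ?_, fun a p q => ?_, fun w k => ?_, ?_⟩
  · rintro _ ⟨x, hx, rfl⟩
    refine ⟨_, ?_, rfl⟩
    have := norm_sub_norm_le (f i a x) x
    rw [mem_ball_zero_iff] at hx ⊢
    linarith [((hi a).2.2 x (mem_ball_zero_iff.2 hx)).2.1]
  · filter_upwards [h.long, h1, h3, eventually_all.2 h.parN, eventually_all.2 h.fib, hX.riem,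
      hX.inv, hX.eq] with i a1 a2 a3 a4 a5 a6 a7 a8
    refine ⟨a1, ?_⟩
    have := hO.isMet_glob a1 (h.g i) a3 (fun a => (a2 a).1) a4
      (Gn := fun w => T.gm (m i) (s i T.root) (fun a x => φ i a (f i a x)) (Ψ i) (X i) (Sum.inr w))
      (fun w => ?_) (fun w δ hδ x hx => ?_) fun w x hx hx' => ?_
    · convert this using 1
      funext t
      cases t with
      | inl a => exact (h.g_pm i _).symm
      | inr w => rfl
    · by_cases hw : w = T.root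
      · subst hw; rw [gm_root, glob_root]; exact a6
      · rw [gm_neck (T := T) _ _ _ _ _ hw, ← h.g_pm]
        exact Gs.par_riem _ (Gs.par_mono (a4 w) (glob_open w) fun x hx => glob_nk (T := T) h.r_pos hw hx)
    · by_cases hw : w = T.root
      · subst hw; rw [gm_root]; exact a7 δ hδ x hx.1
      · rw [gm_neck (T := T) _ _ _ _ _ hw, ← h.g_pm]
        refine pm_inv _ (a4 w) (fun z hz => ?_) (glob_nk (T := T) h.r_pos hw hx)
        have hz' : δ z ∈ T.nk (T.ls (s i)) w := by simpa only [nk, mem_ofPred_eq, δ.norm_map] using hz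
        exact ⟨hz', ((a5 w z hz _ hz').2 ⟨δ, hδ, rfl⟩).symm⟩
    · rw [h.g_pm]
      by_cases hw : w = T.root
      · subst hw; rw [gm_root]; exact a8 x hx.1 (by simpa using hx'.2)
      · rw [gm_neck (T := T) _ _ _ _ _ hw]
  · choose c hc hp using fun a => (mu_iff.1 (h2 a)).2
    obtain ⟨d, hd, hdc⟩ : ∃ d > 0, ∀ a, d ≤ c a := by
      rcases isEmpty_or_nonempty T.B with hB | hB
      · exact ⟨1, one_pos, fun a => hB.elim a⟩
      · obtain ⟨a, ha⟩ := Finite.exists_min c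
        exact ⟨c a, hc a, ha⟩
    refine ⟨d, hd, (eventually_all.2 hp).mono fun i hi a x hx => ?_⟩
    rw [e1]; exact (hi a x hx).mono (hdc a)
  · simp only [e1]; exact (mu_iff.1 (h2 a)).1 p q
  · by_cases hw : w = T.root
    · subst hw
      simp only [e3]
      refine (hX.jet k).imp fun C hC => hC.mono fun i hi p q x hx => ?_
      simpa [wt] using hi p q x hx.1
    · simp only [e2 _ _ w hw]
      exact (hX.neck w hw k).imp fun C hC => hC.mono fun i hi p q x hx => hi p q x hx.1 (hx.2 hw)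
  · filter_upwards [eventually_all.2 h.small, hX.small] with i a1 a2 w p q x hx
    by_cases hw : w = T.root
    · subst hw; rw [e3]; exact a2 p q x hx.1
    · rw [e2 _ _ w hw]; exact a1 w p q x (glob_nk (T := T) h.r_pos hw hx)

end TD

end Crest.Agent.N207.I

end
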