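import Crest.Agent.N207.I.NkRs
import Crest.Agent.N207.I.Pre3
import Crest.Agent.N207.Sk.Dyn2

/-!
# Row 207, block I (helper56): the exterior field of `Ext'`; the analytic fields of `PreS`, `PreX`
-/

set_option autoImplicit false

open scoped ContDiff Topology Manifold ENNReal
open Set Filter Metric MeasureTheory
open Crest.GeometryTopology.CoordMetric Crest.Agent.R202.Tens

noncomputable section

namespace Crest.Agent.N207.I

open Jt AI Sk

variable {Γ0 : Subgroup Iso4} {O : Iso4} {s : ℝ} {G : MetricField 4} {x : E4}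

theorem lintegral_sim (hs : 0 < s) (O : Iso4) (f : E4 → ℝ≥0∞) :
    ∫⁻ x, f (s • O x) = ENNReal.ofReal (s ^ 4)⁻¹ * ∫⁻ y, f y := by
  rw [O.measurePreserving.lintegral_comp_emb O.toHomeomorph.measurableEmbedding
    fun z => f (s • z)]
  have h := lintegral_map_equiv (μ := (volume : Measure E4)) f
    (Homeomorph.smul (Units.mk0 s hs.ne')).toMeasurableEquiv
  have e : Measure.map (Homeomorph.smul (Units.mk0 s hs.ne')).toMeasurableEquiv
      (volume : Measure E4) = ENNReal.ofReal (s ^ 4)⁻¹ • volume := by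
    have := Measure.map_addHaar_smul (volume : Measure E4) hs.ne'
    rw [finrank_euclideanSpace_fin, abs_of_nonneg (by positivity)] at this
    exact this
  rw [e, lintegral_smul_measure] at h
  exact h.symm

theorem setLIntegral_sim (hs : 0 < s) (O : Iso4) (f : E4 → ℝ≥0∞) {W : Set E4}
    (hW : MeasurableSet W) : ∫⁻ x in {x | s • O x ∈ W}, f (s • O x) =
      ENNReal.ofReal (s ^ 4)⁻¹ * ∫⁻ y in W, f y := by
  have h : MeasurableSet {x | s • O x ∈ W} := hW.preimage (sim s O).continuous.measurable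
  rw [← lintegral_indicator hW, ← lintegral_sim hs O, ← lintegral_indicator h]
  rfl

theorem sum_sq_ricci_rot (hs : 0 < s) {W : Set E4} (h : IsRiemannianOn G W) (hx : s • O x ∈ W) :
    ∑ p, ∑ q, ricci (rot G s O) x p q ^ 2 ≤
      (64 * s ^ 2) ^ 2 * ∑ a, ∑ b, ricci G (s • O x) a b ^ 2 := by
  have h0 : 0 ≤ ∑ a, ∑ b, ricci G (s • O x) a b ^ 2 := by positivity
  have h1 : ∀ a b, |ricci G (s • O x) a b| ≤ √(∑ a, ∑ b, ricci G (s • O x) a b ^ 2) := fun a b =>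
    Real.abs_le_sqrt ((Finset.single_le_sum (f := fun b => ricci G (s • O x) a b ^ 2)
      (fun _ _ => sq_nonneg _) (Finset.mem_univ b)).trans
      (Finset.single_le_sum (f := fun a => ∑ b, ricci G (s • O x) a b ^ 2)
        (fun _ _ => by positivity) (Finset.mem_univ a)))
  calc _ ≤ ∑ _p : Fin 4, ∑ _q : Fin 4,
        (s ^ 2 * (16 * √(∑ a, ∑ b, ricci G (s • O x) a b ^ 2))) ^ 2 :=
        Finset.sum_le_sum fun p _ => Finset.sum_le_sum fun q _ =>
          sq_le_sq' (neg_le_of_abs_le (abs_ricci_rot hs h hx h1 p q))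
            (le_of_abs_le (abs_ricci_rot hs h hx h1 p q))
    _ = _ := by
        simp only [mul_pow, Real.sq_sqrt h0, Finset.sum_const, Finset.card_univ, Fintype.card_fin,
          nsmul_eq_mul]
        push_cast
        ring

theorem rot_flat (hs : 0 < s) (O : Iso4) (h : ∃ R' : ℝ, ∀ x : E4, R' ≤ ‖x‖ → G x = 1) :
    ∃ R' : ℝ, ∀ x : E4, R' ≤ ‖x‖ → rot G s O x = 1 := by
  obtain ⟨R, hR⟩ := h
  refine ⟨R / s, fun x hx => ?_⟩
  ext p q
  have h1 := congrFun (dv_rot G s O p q) x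
  have h2 := hR (s • O x) (by rw [norm_sim hs, mul_comm]; exact (div_le_iff₀ hs).1 hx)
  simp only [TD.dv, h2, sub_self, mul_zero, Finset.sum_const_zero] at h1
  exact sub_eq_zero.1 h1

variable {M : Type*} [TopologicalSpace M] [ChartedSpace E4 M] [IsManifold 𝓘(ℝ, E4) ∞ M]
  [T3Space M] [ConnectedSpace M] [MeasurableSpace M] [BorelSpace M] {g : Met 4 M} {N : Nk M}
  {m : ℕ} {η V ρ e y : ℝ} {Cs : ℕ → ℝ}

theorem xt_pos (h : Ext' g N G ρ e y η Cs V) : 0 < ρ := by linarith [h.top.a_pos, h.a_eq]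

theorem xt_riem (h : Ext' g N G ρ e y η Cs V) (hs : 0 < s) (O : Iso4) :
    IsRiemannianOn (rot G s O) {x | ρ / 32 / s < ‖x‖} := by
  convert riem_rot hs O h.riem using 2 with x
  simp only [mem_setOf_eq, norm_sim hs, div_lt_iff₀ hs, mul_comm s]

theorem xt_inv (h : Ext' g N G ρ e y η Cs V) (hs : 0 < s) (hc : Cj Γ0 O N.Γ) {γ : Iso4}
    (hγ : γ ∈ Γ0) (hx : ρ / 32 / s < ‖x‖) : matT (rot G s O) x = pullT γ (matT (rot G s O)) x :=
  inv_rot (h.inv _ ((hc γ).1 hγ) _ (ext_mem hs O hx))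

theorem xt_eq (h : Ext' g N G ρ e y η Cs V) (hs : 0 < s) (O : Iso4) (Γ0 : Subgroup Iso4)
    (hx : x ∈ shell (ρ / 32 / s) (ρ / 4 / s)) :
    rot G s O x = (s ^ 2)⁻¹ • g.pm (N.rs s O Γ0).Ψ x := by
  rw [← h.a_eq, ← h.b_eq] at hx
  rw [pm_rs g h.top hs O Γ0 hx, rot, rot, h.eq _ ((sim_mem_shell hs O).2 hx)]

theorem xt_jet (h : Ext' g N G ρ e y η Cs V) (hs : ρ / 32 ≤ s) (O : Iso4)
    (hx : ρ / 32 / s < ‖x‖) (k : ℕ) (p q : Fin 4) : ‖iteratedFDeriv ℝ k (TD.dv (rot G s O) p q) x‖ ≤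
      16 * |Cs k| * (‖x‖ ^ k)⁻¹ * ‖x‖ ^ (-(1 / 2) : ℝ) := by
  have hρ := xt_pos h
  have hs0 : 0 < s := lt_of_lt_of_le (by positivity) hs
  have h0 : 0 < ‖x‖ := lt_trans (by positivity) hx
  refine jall_rot hs0 h.riem (ext_mem hs0 O hx) (norm_pos_iff.1 h0) (h.all _ (ext_mem hs0 O hx)) ?_
    k p q
  rw [abs_of_nonneg (Real.sqrt_nonneg _), norm_sim hs0, Real.rpow_neg h0.le, ← Real.inv_rpow h0.le,
    ← Real.sqrt_eq_rpow]
  refine Real.sqrt_le_sqrt ?_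
  rw [div_le_iff₀ (by positivity), mul_left_comm, inv_mul_cancel₀ h0.ne', mul_one]
  exact hs

theorem xt_small (h : Ext' g N G ρ e y η Cs V) (hη : 0 ≤ η) (hs : 0 < s) (O : Iso4)
    (hx : ρ / 32 / s < ‖x‖) (p q : Fin 4) : |TD.dv (rot G s O) p q x| ≤ 16 * η := by
  have hρ := xt_pos h
  have h1 := ext_mem hs O hx
  have h2 : √(ρ / 32 / ‖s • O x‖) ≤ 1 :=
    Real.sqrt_le_one.2 ((div_le_one (lt_trans (by positivity) h1)).2 h1.le)
  have := mul_le_mul_of_nonneg_left h2 hη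
  linarith [small_rot hs h.riem h1 (h.jet _ h1) p q]

/-- the weighted Ricci energy of the rescaled exterior field -/
theorem xt_ric (h : Ext' g N G ρ e y η Cs V) (hs : 0 < s) (O : Iso4) {r : ℝ} (hr : ρ / 32 / s ≤ r) :
    ∫⁻ x in {x : E4 | r < ‖x‖}, ENNReal.ofReal (‖x‖ ^ 2 * ∑ p, ∑ q, ricci (rot G s O) x p q ^ 2) ≤
      ENNReal.ofReal ((64 * (ρ / s) * e) ^ 2) := by
  have hW : MeasurableSet {y : E4 | ρ / 32 < ‖y‖} :=
    (isOpen_lt continuous_const continuous_norm).measurableSet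
  have h1 := setLIntegral_sim hs O (fun y => ENNReal.ofReal (64 ^ 2 * s ^ 2 *
    (‖y‖ ^ 2 * ∑ a, ∑ b, ricci G y a b ^ 2))) hW
  rw [← ofReal_integral_eq_lintegral_ofReal (h.ric_int.const_mul _)
    (Eventually.of_forall fun y => by positivity), integral_const_mul,
    ← ENNReal.ofReal_mul (by positivity)] at h1
  refine le_trans (lintegral_mono_set (t := {x | s • O x ∈ {y : E4 | ρ / 32 < ‖y‖}})
    fun x hx => ext_mem hs O (hr.trans_lt hx)) (le_trans (setLIntegral_mono' (hW.preimage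
      (sim s O).continuous.measurable :) fun x hx => ENNReal.ofReal_le_ofReal ?_)
      (h1.trans_le (ENNReal.ofReal_le_ofReal ?_)))
  · refine (mul_le_mul_of_nonneg_left (sum_sq_ricci_rot hs h.riem hx) (sq_nonneg _)).trans
      (le_of_eq ?_)
    rw [norm_sim hs]
    ring
  · refine (mul_le_mul_of_nonneg_left (mul_le_mul_of_nonneg_left h.ric (by positivity))
      (by positivity)).trans (le_of_eq ?_)
    field_simp

/-- a rough neck in the unit `s` -/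
theorem xt_rough (h : Ext' g N G ρ e y η Cs V) (hη : 0 ≤ η) :
    Rough g N 0 η (32 ^ 4 * V) := by
  have hρ := xt_pos h
  refine ⟨fun x hx k hk i j => ?_, by rw [h.a_eq]; convert h.vol using 1; ring⟩
  obtain rfl : k = 0 := by omega
  have h1 : ρ / 32 < ‖x‖ := h.a_eq ▸ hx.1
  have h2 : √(ρ / 32 / ‖x‖) ≤ 1 :=
    Real.sqrt_le_one.2 ((div_le_one (lt_trans (by positivity) h1)).2 h1.le)
  have h3 := (h.jet x h1 0 (Nat.zero_le _) i j).trans (mul_le_of_le_one_right hη h2)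
  simpa only [J1, norm_iteratedFDeriv_zero, Sk.dv, h.eq x hx] using h3

namespace TD

variable {T : TD M} {ι : Type} {l : Filter ι} {g : ι → Met 4 M} {s : ι → T.V → ℝ}
  {N : ι → T.V → Nk M} {O : ι → T.V → Iso4} {X : ι → MetricField 4} {ρ e y : ι → ℝ}
  {η' V' : ℝ} {Cs' : ℕ → ℝ}

variable (T) in
/-- the analytic data: good necks, and the extension at the root -/
structure An (l : Filter ι) (g : ι → Met 4 M) (s : ι → T.V → ℝ) (N : ι → T.V → Nk M)
    (O : ι → T.V → Iso4) (X : ι → MetricField 4) (ρ e y : ι → ℝ) : Prop where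
  s_pos : ∀ i v, 0 < s i v
  r_pos : 0 < T.r
  r_le : T.r ≤ 1
  good : ∃ (m : ℕ) (η V : ℝ) (Cs : ℕ → ℝ), 0 ≤ η ∧ η ≤ 1 / 3200 ∧ ∀ᶠ i in l, ∀ w, w ≠ T.root →
    (N i w).Top ∧ Good (g i) (N i w) m η Cs V ∧ (N i w).a ≤ 9 / 10 * s i w ∧
      9 / 8 * T.r * Real.exp (T.ls (s i) w) * s i w ≤ (N i w).b
  ext : ∃ (η V : ℝ) (Cs : ℕ → ℝ), 0 ≤ η ∧ η ≤ 1 / 1600 ∧ ∀ᶠ i in l,
    Ext' (g i) (N i T.root) (X i) (ρ i) (e i) (y i) η Cs V ∧
      Cj (T.Γ T.root) (O i T.root) (N i T.root).Γ ∧ ρ i / 32 ≤ 9 / 10 * s i T.root ∧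
        9 / 2 * s i T.root ≤ ρ i / 4

omit [T3Space M] [ConnectedSpace M] [MeasurableSpace M] [BorelSpace M] in
theorem dv_ev {G G' : MetricField 4} {x : E4} (h : G =ᶠ[𝓝 x] G') (k : ℕ) (p q : Fin 4) :
    iteratedFDeriv ℝ k (dv G p q) x = iteratedFDeriv ℝ k (dv G' p q) x :=
  (EventuallyEq.iteratedFDeriv ℝ (h.mono fun z hz => by simp only [dv, hz]) k).eq_of_nhds

theorem An.root_mem {s ρ : ℝ} (hs : 0 < s) (h1 : ρ / 32 ≤ 9 / 10 * s) (h2 : 9 / 2 * s ≤ ρ / 4)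
    {x : E4} (hx : 9 / 10 < ‖x‖) (hx' : ‖x‖ < 9 / 2) : x ∈ shell (ρ / 32 / s) (ρ / 4 / s) :=
  ⟨((div_le_iff₀ hs).2 h1).trans_lt hx, hx'.trans_le ((le_div_iff₀ hs).2 h2)⟩

theorem An.kid_mem {s a b c : ℝ} (hs : 0 < s) (h1 : a ≤ 9 / 10 * s) (h2 : c * s ≤ b)
    {x : E4} (hx : 9 / 10 < ‖x‖) (hx' : ‖x‖ < c) : x ∈ shell (a / s) (b / s) :=
  ⟨((div_le_iff₀ hs).2 h1).trans_lt hx, hx'.trans_le ((le_div_iff₀ hs).2 h2)⟩

/-- the field `small` of `PreS` -/
theorem An.small (h : T.An l g s N O X ρ e y) (w : T.V) : ∀ᶠ i in l, ∀ p q,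
    ∀ x ∈ T.nk (T.ls (s i)) w, |dv (fun z => (s i w ^ 2)⁻¹ •
      (g i).pm ((N i w).rs (s i w) (O i w) (T.Γ w)).Ψ z) p q x| ≤ 1 / 100 := by
  by_cases hw : w = T.root
  · subst hw
    obtain ⟨η, V, Cs, h0, h1, h2⟩ := h.ext
    filter_upwards [h2] with i hi p q x hx
    have h3 := An.root_mem (h.s_pos i _) hi.2.2.1 hi.2.2.2 hx.1 (by simpa using hx.2)
    have h4 := xt_small hi.1 h0 (h.s_pos i _) (O i T.root) h3.1 p q
    simp only [dv, xt_eq hi.1 (h.s_pos i _) _ (T.Γ T.root) h3] at h4 ⊢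
    linarith
  · obtain ⟨m, η, V, Cs, h0, h1, h2⟩ := h.good
    filter_upwards [h2] with i hi p q x hx
    obtain ⟨a1, a2, a3, a4⟩ := hi w hw
    have h3 := An.kid_mem (h.s_pos i _) a3 a4 hx.1 (by simpa [hw] using hx.2)
    have h4 := good_small a1 a2 h0 (h.s_pos i _) (O i w) h3 p q
    simp only [dv, pm_rs _ a1 (h.s_pos i _) _ _ h3] at h4 ⊢
    linarith

/-- the field `jet` of `PreS` -/
theorem An.jet (h : T.An l g s N O X ρ e y) (w : T.V) (k : ℕ) : ∃ C : ℝ, ∀ᶠ i in l, ∀ p q,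
    ∀ x ∈ T.nk (T.ls (s i)) w, ‖iteratedFDeriv ℝ k (dv (fun z => (s i w ^ 2)⁻¹ •
      (g i).pm ((N i w).rs (s i w) (O i w) (T.Γ w)).Ψ z) p q) x‖ ≤ C * (‖x‖ ^ k)⁻¹ := by
  by_cases hw : w = T.root
  · subst hw
    obtain ⟨η, V, Cs, h0, h1, h2⟩ := h.ext
    refine ⟨16 * |Cs k|, ?_⟩
    filter_upwards [h2] with i hi p q x hx
    have hs := h.s_pos i T.root
    have hρ := xt_pos hi.1
    have h3 := An.root_mem hs hi.2.2.1 hi.2.2.2 hx.1 (by simpa using hx.2)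
    have h4 := ext_mem hs (O i T.root) h3.1
    rw [← dv_ev (mem_of_superset ((isOpen_shell _ _).mem_nhds h3) fun z hz =>
      xt_eq hi.1 hs (O i T.root) (T.Γ T.root) hz)]
    simpa using jall_rot (w' := 1) hs hi.1.riem h4 (norm_pos_iff.1 (by linarith [hx.1]))
      (hi.1.all _ h4) ((abs_of_nonneg (Real.sqrt_nonneg _)).trans_le
        (Real.sqrt_le_one.2 ((div_le_one (lt_trans (by positivity) h4)).2 h4.le))) k p q
  · obtain ⟨m, η, V, Cs, h0, h1, h2⟩ := h.good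
    refine ⟨16 * |Cs k| * 2, ?_⟩
    filter_upwards [h2] with i hi p q x hx
    obtain ⟨a1, a2, a3, a4⟩ := hi w hw
    have hs := h.s_pos i w
    have h3 := An.kid_mem hs a3 a4 hx.1 (by simpa [hw] using hx.2)
    have h4 := (sim_mem_shell hs (O i w)).2 h3
    rw [dv_ev (pm_rs_ev _ a1 hs _ _ h3), mul_right_comm]
    exact jall_rot hs (a1.par.riem _) h4 (norm_pos_iff.1 (by linarith [hx.1])) (a2.all _ h4)
      ((abs_of_nonneg (wt_nonneg _ _ _)).trans_le (wt_le_two a1.a_pos h4)) k p q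

/-- the structure `PreX` -/
theorem An.preX (h : T.An l g s N O X ρ e y)
    (ht : ∀ w, w ≠ T.root → Tendsto (fun i => T.ls (s i) w) l atTop) :
    T.PreX l g s (fun i w => ((N i w).rs (s i w) (O i w) (T.Γ w)).Ψ)
      (fun i => rot (X i) (s i T.root) (O i T.root)) (1 / 2) := by
  obtain ⟨m, η, V, Cs, h0, h1, h2⟩ := h.good
  obtain ⟨η', V', Cs', h0', h1', h2'⟩ := h.ext
  have h3 : ∀ᶠ i in l, ∀ x : E4, 1 < ‖x‖ → ρ i / 32 / s i T.root < ‖x‖ :=
    h2'.mono fun i hi x hx => ((div_le_iff₀ (h.s_pos i _)).2 hi.2.2.1).trans_lt (by linarith)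
  refine ⟨ht, fun w hw k => ⟨16 * |Cs k| * T.r⁻¹, ?_⟩, ?_, ?_, ?_, fun k => ⟨16 * |Cs' k|, ?_⟩, ?_⟩
  · filter_upwards [h2] with i hi p q x hx hx'
    obtain ⟨a1, a2, a3, a4⟩ := hi w hw
    have hs := h.s_pos i w
    have hp := mul_pos h.r_pos (Real.exp_pos (T.ls (s i) w))
    have h3 := An.kid_mem hs a3 a4 (x := x) (by linarith) (by linarith)
    rw [dv_ev (pm_rs_ev _ a1 hs _ _ h3), wt, if_neg hw]
    exact good_jet a1 a2 hs _ h.r_pos h.r_le (by linarith) (by nlinarith [mul_pos hp hs]) h3 k p q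
  · filter_upwards [h2', h3] with i hi h4
    have := xt_riem hi.1 (h.s_pos i T.root) (O i T.root)
    exact ⟨isOpen_lt continuous_const continuous_norm,
      fun p q => (this.contDiffOn p q).mono h4, fun x hx => this.posDef x (h4 x hx)⟩
  · filter_upwards [h2', h3] with i hi h4 δ hδ x hx
    exact xt_inv hi.1 (h.s_pos i _) hi.2.1 hδ (h4 x hx)
  · filter_upwards [h2'] with i hi x hx hx'
    exact xt_eq hi.1 (h.s_pos i _) _ _
      (An.root_mem (h.s_pos i _) hi.2.2.1 hi.2.2.2 (by linarith) hx')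
  · filter_upwards [h2', h3] with i hi h4 p q x hx
    exact xt_jet hi.1 (by linarith [hi.2.2.1, h.s_pos i T.root]) _ (h4 x hx) k p q
  · filter_upwards [h2', h3] with i hi h4 p q x hx
    linarith [xt_small hi.1 h0' (h.s_pos i _) (O i T.root) (h4 x hx) p q]

end TD

end Crest.Agent.N207.I

end
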