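import Crest.Agent.N207.I.Geo1
import Crest.Agent.N207.I.NkExt
import Crest.Agent.N207.I.Dich
import Crest.Agent.N207.Sk.Dyn2
import Crest.Agent.N207.T.Pers3

/-!
# Row 207, block I (helper98): normalised necks
-/

set_option autoImplicit false
set_option linter.unusedSectionVars false

open scoped ContDiff Topology Manifold
open Set Filter Metric MeasureTheory
open Crest.GeometryTopology.CoordMetric Crest.Agent.R202.Tens

noncomputable section

namespace Crest.Agent.N207.I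

open Sk

/-- the neck in the unit `s`, rotated by `O`, cut at the radius `b` -/
def _root_.Crest.Agent.N207.Sk.Nk.nn {M : Type*} (N : Nk M) (s : ℝ) (O : Iso4) (Γ0 : Subgroup Iso4)
    (b : ℝ) : Nk M := ⟨Γ0, fun x => N.Ψ (s • O x), N.In, 3 / 4, b⟩

variable {M : Type*} [TopologicalSpace M] [ChartedSpace E4 M] [IsManifold 𝓘(ℝ, E4) ∞ M]
  [T3Space M] [ConnectedSpace M] [MeasurableSpace M] [BorelSpace M]

/-- a neck before normalisation -/
structure Raw (g : Met 4 M) (N : Nk M) (z : M) (s b K : ℝ) : Prop where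
  top : N.Top
  s_pos : 0 < s
  a_eq : N.a = 3 / 4 * s
  b_gt : 3 / 4 < b
  b_le : s * b ≤ N.b
  z_in : z ∈ N.In
  jet : ∀ x ∈ shell N.a N.b, JG 0 (g.pm N.Ψ) x ‖x‖ (1 / 100)
  K_nn : 0 ≤ K
  up1 : ∀ x ∈ shell N.a N.b, g.d z (N.Ψ x) ≤ 2 * ‖x‖ + K * N.a
  up2 : ∀ z' ∈ N.In, g.d z z' ≤ K * N.a

namespace Raw

variable {g : Met 4 M} {N : Nk M} {z : M} {s b K : ℝ} (h : Raw g N z s b K)
  {O : Iso4} {Γ0 : Subgroup Iso4}
include h

theorem a_div : N.a / s = 3 / 4 := by rw [h.a_eq]; field_simp [h.s_pos.ne']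

theorem sub : shell (3 / 4) b ⊆ shell (N.a / s) (N.b / s) :=
  shell_mono h.a_div.le ((le_div_iff₀' h.s_pos).2 h.b_le)

theorem mem (O : Iso4) {x : E4} (hx : x ∈ shell (3 / 4) b) : s • O x ∈ shell N.a N.b :=
  (sim_mem_shell h.s_pos O).2 (h.sub hx)

theorem nn_eq (O : Iso4) (Γ0 : Subgroup Iso4) :
    N.nn s O Γ0 b = { N.rs s O Γ0 with b := b } := by
  simp only [Nk.nn, Nk.rs, h.a_div]

theorem nn_Om (O : Iso4) (Γ0 : Subgroup Iso4) (r : ℝ) : (N.nn s O Γ0 b).Om r = N.Om (s * r) := by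
  rw [h.nn_eq, ← rs_Om N h.s_pos O Γ0]; rfl

theorem nn_top (hc : Cj Γ0 O N.Γ) : (N.nn s O Γ0 b).Top := by
  have h1 := top_rs h.top h.s_pos hc
  have h2 : b ≤ (N.rs s O Γ0).b := (le_div_iff₀' h.s_pos).2 h.b_le
  have h3 : shell (N.rs s O Γ0).a b ⊆ shell (N.rs s O Γ0).a (N.rs s O Γ0).b := shell_mono le_rfl h2
  rw [h.nn_eq]
  exact ⟨h1.grp, h1.a_pos, h.a_div.trans_lt h.b_gt, Gs.par_mono h1.par (isOpen_shell _ _) h3,
    fun x hx y hy => h1.fib x (h3 hx) y (h3 hy), fun x hx => h1.disj x (h3 hx),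
    fun r hr => h1.opn r ⟨hr.1, hr.2.trans h2⟩, fun r hr => h1.cls r ⟨hr.1, hr.2.trans_le h2⟩, h1.ne⟩

theorem nn_lo [CompactSpace M] (hc : Cj Γ0 O N.Γ) (p q : M) :
    9 / 10 * s * ((N.nn s O Γ0 b).rad p - (N.nn s O Γ0 b).rad q) ≤ g.d q p := by
  have hs := h.s_pos
  refine (h.nn_top hc).rad_lip g (by positivity) (fun x hx v => ?_) p q
  have hy := h.mem O hx
  have h1 := Gs.pm_comp_bil g (T := sim s O) (y := x) (Gs.par_md h.top.par hy)
    (sim s O).differentiableAt v v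
  rw [ContinuousLinearMap.fderiv] at h1
  refine le_trans ?_ (((h.jet _ hy).near.le_bil (by norm_num) (sim s O v)).trans h1.ge)
  rw [sim_apply, norm_sim hs]
  nlinarith [sq_nonneg (s * ‖v‖)]

theorem nn_up (O : Iso4) (Γ0 : Subgroup Iso4) {t : ℝ} (h0 : 0 ≤ t) (ht : t ≤ b) {p : M}
    (hp : p ∈ (N.nn s O Γ0 b).Om t) : g.d z p ≤ s * (2 * t + K) := by
  have hs := h.s_pos
  have h1 := mul_nonneg h.K_nn hs.le
  have h2 := mul_nonneg hs.le h0
  rw [h.nn_Om] at hp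
  rcases hp with hp | ⟨x, hx, rfl⟩
  · have := h.up2 p hp
    rw [h.a_eq] at this; nlinarith
  · have := h.up1 x ⟨hx.1, hx.2.trans_le ((mul_le_mul_of_nonneg_left ht hs.le).trans h.b_le)⟩
    rw [h.a_eq] at this; nlinarith [hx.2]

end Raw

theorem jg_congr {m : ℕ} {G G' : MetricField 4} {x : E4} {s c : ℝ} (h : JG m G x s c)
    (e : G' =ᶠ[𝓝 x] G) : JG m G' x s c := fun k hk i j => by
  have : Sk.dv G' i j =ᶠ[𝓝 x] Sk.dv G i j := e.mono fun y hy => by simp only [Sk.dv, hy]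
  rw [J1, (this.iteratedFDeriv ℝ k).eq_of_nhds]; exact h k hk i j

section ext

variable {g : Met 4 M} {N : Nk M} {G : MetricField 4} {ρ e y η V : ℝ} {Cs : ℕ → ℝ}
  (h : Ext' g N G ρ e y η Cs V)
include h

theorem ext'_ev {x : E4} (hx : x ∈ shell N.a N.b) : g.pm N.Ψ =ᶠ[𝓝 x] G :=
  mem_of_superset ((isOpen_shell _ _).mem_nhds hx) fun z hz => (h.eq z hz).symm

theorem ext'_w {x : E4} (hx : x ∈ shell N.a N.b) : √(ρ / 32 / ‖x‖) ≤ 1 :=
  Real.sqrt_le_one.2 ((div_le_one (h.top.a_pos.trans hx.1)).2 (h.a_eq ▸ hx.1.le))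

theorem ext'_rough (hη : 0 ≤ η) : Rough g N 4 η (32 ^ 4 * V) := by
  refine ⟨fun x hx => jg_congr (fun k hk i j => (h.jet x (h.a_eq ▸ hx.1) k hk i j).trans
    (mul_le_of_le_one_right hη (ext'_w h hx))) (ext'_ev h hx), h.vol.trans (le_of_eq ?_)⟩
  rw [h.a_eq]; ring

end ext

variable {F : Flow M}

/-- rough necks are raw necks -/
theorem exists_raw [CompactSpace M] (hB : Base F) (V : ℝ) : ∃ K r1 : ℝ, 0 ≤ K ∧ 0 < r1 ∧
    ∀ t ∈ late F, ∀ (N : Nk M) (z : M) (s b : ℝ), N.Top →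
      Rough (F.m t) N 0 (1 / 100) V → N.b ≤ r1 → N.a = 3 / 4 * s → 2 ≤ b → s * b ≤ N.b → z ∈ N.In →
      Raw (F.m t) N z s b K := by
  obtain ⟨K, r1, hK, hr1, h⟩ := distN hB V
  refine ⟨K, r1, by linarith, hr1, fun t ht N z s b hN hR hb ha h2 hs hz => ?_⟩
  have hs0 : 0 < s := by linarith [hN.a_pos]
  obtain ⟨h3, -, h4⟩ := h t ht N _ hN hR (by norm_num) hb (by nlinarith) z hz
  exact ⟨hN, hs0, ha, by linarith, hs, hz, hR.jet, by linarith,
    fun x hx => by linarith [(h3 x hx).2, norm_nonneg x], h4⟩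

theorem Raw.mono {g : Met 4 M} {N : Nk M} {z : M} {s b K K' : ℝ}
    (h : Raw g N z s b K) (hK : K ≤ K') : Raw g N z s b K' :=
  have := mul_le_mul_of_nonneg_right hK h.top.a_pos.le
  ⟨h.top, h.s_pos, h.a_eq, h.b_gt, h.b_le, h.z_in, h.jet, h.K_nn.trans hK,
    fun x hx => by linarith [h.up1 x hx], fun z' hz' => by linarith [h.up2 z' hz']⟩

/-- the energy does not concentrate in the collar -/
theorem en_collar [CompactSpace M] (hB : Base F) : ∃ Q : ℝ, 0 < Q ∧ ∀ t ∈ late F, ∀ (N : Nk M) (z0 : M)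
    (s K W : ℝ) (O : Iso4) (Γ0 : Subgroup Iso4), Raw (F.m t) N z0 s 6 K →
      Cj Γ0 O N.Γ → Rough (F.m t) N 2 (1 / 100) W → ∀ z, 13 / 16 < (N.nn s O Γ0 6).rad z →
      (N.nn s O Γ0 6).rad z < 3 → ∀ θ, 0 < θ → θ ≤ 1 / 20 → en (F.m t) z (θ * s) ≤ Q * θ ^ 4 := by
  obtain ⟨C, hC, hcv⟩ := T.curv (M := M)
  obtain ⟨Cv, hCv, hv⟩ := exists_vol_up hB
  refine ⟨C * Cv, by positivity, fun t ht N z0 s K W O Γ0 h hc hR z h1 h2 θ h3 h4 => ?_⟩
  have hs := h.s_pos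
  have := V.isFinite (F.m t)
  have h5 := norm_setIntegral_le_of_norm_le_const (μ := (F.m t).vol) (s := (F.m t).ball z (θ * s))
    (f := (F.m t).rm 0) (C := C / s ^ 4) (measure_lt_top _ _) fun p hp => by
      have hp' : (F.m t).d p z < θ * s := hp
      have h6 := h.nn_lo hc z p
      have h7 := h.nn_lo hc p z
      rw [(pd_d _).symm] at h7
      obtain ⟨x, hx, rfl, -⟩ := (h.nn_top hc).exists_of_rad (p := p)
        (show 3 / 4 < _ by nlinarith) (show _ < 6 by nlinarith)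
      have hy := h.mem O hx
      have h8 : 3 / 4 * s < ‖s • O x‖ := h.a_eq ▸ hy.1
      rw [Real.norm_of_nonneg (show 0 ≤ (F.m t).rm 0 _ from V.nsq_nonneg _ _ _)]
      refine (hcv _ _ _ _ _ _ h.top.par hy (by linarith) (by norm_num) le_rfl (hR.jet _ hy)).trans ?_
      rw [div_le_div_iff₀ (by have : 0 < ‖s • O x‖ := by linarith
                              positivity) (by positivity)]
      have h9 : (3 / 4 * s) ^ 4 ≤ ‖s • O x‖ ^ 4 := pow_le_pow_left₀ (by positivity) h8.le 4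
      nlinarith [mul_le_mul_of_nonneg_left h9 hC.le, mul_pos hC (pow_pos hs 4)]
  have h6 := hv t ht z (θ * s) (by positivity)
  rw [← ball_eq] at h6
  calc en (F.m t) z (θ * s) ≤ C / s ^ 4 * (F.m t).vol.real ((F.m t).ball z (θ * s)) :=
        (le_abs_self _).trans h5
    _ ≤ C / s ^ 4 * (Cv * (θ * s) ^ 4) := mul_le_mul_of_nonneg_left h6 (by positivity)
    _ = C * Cv * θ ^ 4 := by field_simp

namespace TD

open Jt

/-- the outer radius of the normalised necks -/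
def bb {M : Type*} (T : TD M) (L : T.V → ℝ) (w : T.V) : ℝ :=
  if w = T.root then 6 else 2 * T.r * Real.exp (L w)

/-- the output of the geometric step -/
structure GOut (T : TD M) {ι : Type} (l : Filter ι) (m : ι → Met 4 M) (N0 : ι → Nk M)
    (X : ι → MetricField 4) (ρ e y : ι → ℝ) (s : ι → T.V → ℝ) (R : ι → T.V → Nk M)
    (O : ι → T.V → Iso4) (φ : ι → T.B → E4 → M) : Prop where
  s_root : ∀ i, s i T.root = ρ i / 24
  R_root : ∀ i, R i T.root = N0 i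
  an : T.An l m s R O X ρ e y
  top : ∀ w, w ≠ T.root → Tendsto (fun i => T.ls (s i) w) l atTop
  cmb : T.Cmb
  cfg : ∀ᶠ i in l, T.Cfg (fun w => (R i w).nn (s i w) (O i w) (T.Γ w) (T.bb (T.ls (s i)) w)) (φ i)
    (T.ls (s i))
  muB : ∀ a, MU l (fun i y => (s i (T.vx a) ^ 2)⁻¹ • (m i).pm (φ i a) y) fun _ => ball 0 3

theorem GOut.preS {T : TD M} {ι : Type} {l : Filter ι} {m : ι → Met 4 M} {N0 : ι → Nk M}
    {X : ι → MetricField 4} {ρ e y : ι → ℝ} {s : ι → T.V → ℝ} {R : ι → T.V → Nk M}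
    {O : ι → T.V → Iso4} {φ : ι → T.B → E4 → M} (h : T.GOut l m N0 X ρ e y s R O φ) :
    T.PreS l m s φ fun i w => ((R i w).rs (s i w) (O i w) (T.Γ w)).Ψ :=
  ⟨h.an.s_pos, h.cmb.r_pos, h.cmb.dep_root, h.cmb.dep_par, h.cfg.mono fun _ hi => hi.long',
    fun a => h.cfg.mono fun _ hi => ⟨Gs.par_mono (hi.par a) isOpen_ball
      (ball_subset_ball (by norm_num)), (hi.inj a).mono (ball_subset_ball (by norm_num))⟩,
    h.muB, fun w => h.cfg.mono fun _ hi => hi.parN w, fun w => h.cfg.mono fun _ hi => hi.fibN w,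
    h.an.jet, h.an.small, fun v w w' hw => h.cfg.mono fun _ hi => hi.disjO v w w' hw⟩

end TD

/-- the statement of the geometric step -/
def GEO (F : Flow M) : Prop :=
  ∀ (Cs : ℕ → ℝ) (V : ℝ), ∃ δ0 : ℝ, 0 < δ0 ∧ ∀ {ι : Type} (U : Ultrafilter ι) (t ρ e y : ι → ℝ)
    (N0 : ι → Nk M) (X : ι → MetricField 4),
    (∀ i, t i ∈ late F ∧ ρ i ≤ δ0 ∧
      Ext' (F.m (t i)) (N0 i) (X i) (ρ i) (e i) (y i) (1 / 3200) Cs V) → Tendsto ρ U (𝓝 0) →
    ∃ (T : TD M) (s : ι → T.V → ℝ) (R : ι → T.V → Nk M) (O : ι → T.V → Iso4)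
      (φ : ι → T.B → E4 → M), T.GOut U (fun i => F.m (t i)) N0 X ρ e y s R O φ

end Crest.Agent.N207.I

end
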