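import Crest.Agent.N207.I.BallRs
import Crest.Agent.N207.I.Dich

/-!
# Row 207, block I (helper56): finitely many normalised ball charts cover the regular regions
-/

set_option autoImplicit false

open scoped ContDiff Topology Manifold
open Set Filter Metric MeasureTheory

noncomputable section

namespace Crest.Agent.N207.I

open Jt Sk

variable {M : Type*} [TopologicalSpace M] [ChartedSpace E4 M] [IsManifold 𝓘(ℝ, E4) ∞ M]
  [T3Space M] [ConnectedSpace M] [MeasurableSpace M] [BorelSpace M] [CompactSpace M] {F : Flow M}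

/-- **Ball charts on regular regions `K v i` of scale `s i v`.** -/
theorem geo_balls (hB : Base F) (hL : LOCF F) : ∃ ε0 : ℝ, 0 < ε0 ∧
    ∀ {ι : Type} (U : Ultrafilter ι) (t : ι → ℝ) {V : Type} [Fintype V] (K : V → ι → Set M)
      (z : V → ι → M) (s : ι → V → ℝ) (R θ κ : ℝ), 0 ≤ R → 0 < θ → 0 < κ → (∀ i, t i ∈ late F) →
      (∀ i v, 0 < s i v) → (∀ v, Tendsto (fun i => s i v) U (𝓝 0)) →
      (∀ᶠ i in U, ∀ v, ∀ p ∈ K v i, (F.m (t i)).d (z v i) p ≤ R * s i v ∧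
        en (F.m (t i)) p (θ * s i v) ≤ ε0) →
      ∃ (A : Type) (_ : Fintype A) (vx : A → V) (y : A → ι → M) (φ : ι → A → E4 → M) (σ : ℝ),
        0 < σ ∧ σ ≤ κ ∧
        (∀ᶠ i in U, (∀ a, y a i ∈ K (vx a) i ∧ Par (φ i a) (ball 0 4) ∧ InjOn (φ i a) (ball 0 4) ∧
          (∀ x ∈ ball (0 : E4) 4, (F.m (t i)).d (φ i a x) (y a i) < 4 * (σ * s i (vx a))) ∧
          ∀ p, (F.m (t i)).d p (y a i) < σ * s i (vx a) → p ∈ φ i a '' ball 0 1) ∧
          ∀ v, ∀ p ∈ K v i, ∃ a, vx a = v ∧ (F.m (t i)).d p (y a i) < σ * s i v) ∧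
        ∀ a, MU U (fun i x => (s i (vx a) ^ 2)⁻¹ • (F.m (t i)).pm (φ i a) x) fun _ => ball 0 3 := by
  obtain ⟨ε0, r0, c, hε0, hr0, hc, hc8, hL⟩ := ball_charts hL
  obtain ⟨κ0, hκ0, hlo⟩ := exists_vol_lo hB
  obtain ⟨C0, -, hup⟩ := exists_vol_up hB
  refine ⟨ε0, hε0, fun {ι} U t V _ K z s R θ κ hR hθ hκ ht hs hs0 hK => ?_⟩
  have hm : 0 < min θ κ := lt_min hθ hκ
  have h1 := min_le_left θ κ
  have h2 := min_le_right θ κ
  generalize min θ κ = θ' at hm h1 h2
  haveI : ∀ i, IsFiniteMeasure (F.m (t i)).vol := fun i => N207.V.isFinite _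
  have hsm : ∀ a : ℝ, ∀ b : ℝ, 0 < b → ∀ᶠ i in U, ∀ v, a * s i v ≤ b := fun a b hb =>
    eventually_all.2 fun v => (((hs0 v).const_mul a).eventually
      (gt_mem_nhds (by simpa using hb))).mono fun _ h => le_of_lt h
  obtain ⟨A, hA, vx, y, hy⟩ := nets (U := U) (fun i => pd_d (F.m (t i))) (fun i => (F.m (t i)).vol)
    (fun i => meas_gball _) K z (fun v i => s i v) (fun v i => hs i v) (R := R)
    (c := c * θ' / 4 / 3) (C := C0) (by positivity) hκ0 4 (hK.mono fun i hi v p hp => (hi v p hp).1)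
    ((hsm (c * θ' / 4 / 3) 1 one_pos).mono fun i hi v p _ =>
      hlo _ (ht i) p _ ⟨by have := hs i v; positivity, hi v⟩)
    (Eventually.of_forall fun i v => hup _ (ht i) _ _ (by have := hs i v; positivity))
  have h3 := fun a : A => hL (U : Filter ι) t (fun i => θ' * s i (vx a)) (fun i => s i (vx a)) (y a)
    θ' hm (by
      filter_upwards [hy, hK, hsm θ' r0 hr0] with i a1 a2 a3
      exact ⟨ht i, mul_pos hm (hs i _), a3 _, (en_mono' _ _ (mul_le_mul_of_nonneg_right h1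
        (hs i _).le)).trans (a2 _ _ (a1.1 a)).2, rfl⟩)
  choose φ hφ hμ using h3
  refine ⟨A, hA, vx, y, fun i a => φ a i, c * θ' / 4, by positivity, by nlinarith, ?_, fun a =>
    (hμ a).mono (Eventually.of_forall fun _ => ball_subset_ball (by norm_num))⟩
  filter_upwards [hy, eventually_all.2 hφ] with i a1 a2
  have e : ∀ v, c * θ' / 4 * s i v = c * (θ' * s i v) / 4 := fun v => by ring
  refine ⟨fun a => ⟨a1.1 a, by simpa only [e] using a2 a⟩, fun v p hp => ?_⟩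
  obtain ⟨a, ha, h4⟩ := a1.2 v p hp
  exact ⟨a, ha, h4.trans_eq (by ring)⟩

end Crest.Agent.N207.I

end
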