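import Crest.Agent.N207.I.Geo2
import Crest.Agent.N207.I.GeoB
import Crest.Agent.N207.F.Locf

/-!
# Row 207, block I (helper98): the geometric step
-/

set_option autoImplicit false
set_option linter.unusedSectionVars false

open scoped ContDiff Topology Manifold
open Set Filter Metric MeasureTheory
open Crest.GeometryTopology.CoordMetric Crest.Agent.R202.Tens

noncomputable section

namespace Crest.Agent.N207.I

open Sk

variable {M : Type*} [TopologicalSpace M] [ChartedSpace E4 M] [IsManifold 𝓘(ℝ, E4) ∞ M]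
  [T3Space M] [ConnectedSpace M] [MeasurableSpace M] [BorelSpace M] [CompactSpace M]

namespace TD

/-- the unit of a vertex, relative to the scale of its depth -/
def unt {M : Type*} (T : TD M) (A : ℝ) (v : T.V) : ℝ := if v = T.root then 1 / 24 else 4 * A / 3

theorem un_lo {M : Type*} (T : TD M) {A : ℝ} (hA : 1 ≤ A) (v : T.V) : 1 / 24 ≤ T.unt A v := by
  unfold unt; split_ifs <;> linarith

theorem un_hi {M : Type*} (T : TD M) {A : ℝ} (hA : 1 ≤ A) (v : T.V) : T.unt A v ≤ 4 * A / 3 := by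
  unfold unt; split_ifs <;> linarith

theorem exp_ls {M : Type*} (T : TD M) {s : T.V → ℝ} (hs : ∀ v, 0 < s v) (w : T.V) :
    Real.exp (T.ls s w) * s w = s (T.par w) := by
  have := hs w
  have := hs (T.par w)
  rw [ls, Real.exp_log (by positivity)]
  field_simp

/-- the normalised necks -/
abbrev nns {M : Type*} (T : TD M) (R : T.V → Nk M) (s : T.V → ℝ) (O : T.V → Iso4) (w : T.V) : Nk M :=
  (R w).nn (s w) (O w) (T.Γ w) (T.bb (T.ls s) w)

theorem tg_idx {T : TD M} (hT : IsTree T.root T.par T.dep) {g : Met 4 M} {lam : ℕ → ℝ}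
    {s : T.V → ℝ} {R : T.V → Nk M} {O : T.V → Iso4} {c : T.V → M} {C K : ℝ} (hC : 1 ≤ C)
    (hr : T.r = 1 / (100 * (20 * C) ^ 2)) (hl : ∀ j, 0 < lam j)
    (hs : ∀ v, s v = T.unt (20 * C) v * lam (T.dep v))
    (raw : ∀ v, Raw g (R v) (c v) (s v) (T.bb (T.ls s) v) K) (cj : ∀ v, Cj (T.Γ v) (O v) (R v).Γ)
    (big : ∀ w, w ≠ T.root → max 64 K ≤ T.r * Real.exp (T.ls s w))
    (h3 : ∀ v, g.d (c v) (c (T.par v)) ≤ C * lam (T.dep (T.par v)))
    (h4 : ∀ v w, v ≠ w → T.dep v = T.dep w → lam (T.dep (T.par v)) ≤ C * g.d (c v) (c w))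
    (h0 : ∀ w, w ≠ T.root → T.par w = T.root → (T.nns R s O T.root).rad (c w) ≤ 13 / 16) :
    TG T.root T.par T.dep T.r (T.nns R s O) s (T.ls s) c g.d K := by
  have hC0 : 0 < C := by linarith
  refine ⟨pd_d g, hT.dep_root, fun w hw => (hT.dep_par w hw).symm, by rw [hr]; positivity,
    by rw [hr]; exact one_div_le_one_div_of_le (by norm_num) (by nlinarith),
    fun v => (raw v).nn_top (cj v), fun _ => rfl, if_pos rfl, fun w hw => if_neg hw,
    fun w hw => (le_max_left _ _).trans (big w hw), fun v => (raw v).s_pos,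
    fun w _ => (T.exp_ls (fun v => (raw v).s_pos) w).symm, fun v => (raw v).z_in,
    fun v => (raw v).nn_lo (cj v), fun v t h1 h2 p hp => (raw v).nn_up _ _ h1 h2 hp,
    fun w hw => (le_max_right _ _).trans (big w hw), fun w hw => ?_, fun w w' hw hw' e hne => ?_⟩
  · by_cases hp : T.par w = T.root
    · rw [hp]; exact h0 w hw hp
    · have h5 := (raw _).nn_lo (cj (T.par w)) (c w) (c (T.par w))
      rw [((raw _).nn_top (cj _)).rad_In (raw _).z_in, (pd_d g).symm] at h5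
      have h6 : 9 / 10 * s (T.par w) * ((T.nns R s O (T.par w)).rad (c w) - 3 / 4) ≤ _ :=
        h5.trans (h3 w)
      have h7 := mul_pos hC0 (hl (T.dep (T.par w)))
      by_contra h8
      have h9 := mul_le_mul_of_nonneg_left
        (show 1 / 16 ≤ (T.nns R s O (T.par w)).rad (c w) - 3 / 4 by linarith) h7.le
      generalize (T.nns R s O (T.par w)).rad (c w) = u at h6 h9
      rw [hs, unt, if_neg hp] at h6
      linarith
  · have h5 := h4 w w' hne (by rw [← hT.dep_par w hw, ← hT.dep_par w' hw', e])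
    have h6 := hl (T.dep (T.par w))
    have h7 := mul_le_mul_of_nonneg_right (T.un_hi (A := 20 * C) (by linarith) (T.par w)) h6.le
    rw [← hs] at h7
    have h8 : 10 * T.r * (4 * (20 * C) / 3 * lam (T.dep (T.par w))) =
        lam (T.dep (T.par w)) / C / 150 := by rw [hr]; field_simp; ring
    have h9 : lam (T.dep (T.par w)) / C ≤ g.d (c w) (c w') := (div_le_iff₀' hC0).2 h5
    have h10 := mul_le_mul_of_nonneg_left h7 (show 0 ≤ 10 * T.r by rw [hr]; positivity)
    linarith [div_pos h6 hC0]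

/-- the first half of the geometric step -/
structure GH (T : TD M) {ι : Type} (l : Filter ι) (m : ι → Met 4 M) (N0 : ι → Nk M)
    (X : ι → MetricField 4) (ρ e y : ι → ℝ) (s : ι → T.V → ℝ) (R : ι → T.V → Nk M)
    (O : ι → T.V → Iso4) (c : ι → T.V → M) (K θ ε : ℝ) : Prop where
  s_root : ∀ i, s i T.root = ρ i / 24
  R_root : ∀ i, R i T.root = N0 i
  an : T.An l m s R O X ρ e y
  top : ∀ w, w ≠ T.root → Tendsto (fun i => T.ls (s i) w) l atTop
  K_nn : 0 ≤ K
  θ_pos : 0 < θ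
  lim : ∀ v, Tendsto (fun i => s i v) l (𝓝 0)
  tg : ∀ᶠ i in l, TG T.root T.par T.dep T.r (T.nns (R i) (s i) (O i)) (s i) (T.ls (s i)) (c i)
    (m i).d K
  reg : ∀ᶠ i in l, ∀ v, ∀ p ∈ creg T.root T.par T.r (T.nns (R i) (s i) (O i)) (T.ls (s i)) v,
    en (m i) p (θ * s i v) ≤ ε

end TD

variable {F : Flow M}

theorem ext'_raw (hB : Base F) (V : ℝ) : ∃ K r1 : ℝ, 0 ≤ K ∧ 0 < r1 ∧ ∀ t ∈ late F,
    ∀ (N : Nk M) (X : MetricField 4) (ρ e y : ℝ) (Cs : ℕ → ℝ), ρ ≤ r1 →
      Ext' (F.m t) N X ρ e y (1 / 3200) Cs V → ∀ z ∈ N.In, Raw (F.m t) N z (ρ / 24) 6 K := by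
  obtain ⟨K, r1, hK, hr1, h⟩ := exists_raw hB (32 ^ 4 * V)
  refine ⟨K, r1, hK, hr1, fun t ht N X ρ e y Cs h1 hX z hz => ?_⟩
  have h2 := ext'_rough hX (by norm_num)
  have h3 := hX.a_eq ▸ hX.top.a_pos
  exact h t ht N z _ 6 hX.top ⟨fun x hx k hk i j => (h2.jet x hx k (hk.trans (by norm_num)) i j).trans
    (by norm_num), h2.vol⟩ (by rw [hX.b_eq]; linarith) (by rw [hX.a_eq]; ring) (by norm_num)
    (by rw [hX.b_eq]; linarith) hz

theorem geo_half (hB : Base F) (hC : CONE F) (hH : HDEC F) {ε : ℝ} (hε : 0 < ε) (Cs : ℕ → ℝ) (V : ℝ) :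
    ∃ δ0 : ℝ, 0 < δ0 ∧ ∀ {ι : Type} (U : Ultrafilter ι) (t ρ e y : ι → ℝ)
    (N0 : ι → Nk M) (X : ι → MetricField 4),
    (∀ i, t i ∈ late F ∧ ρ i ≤ δ0 ∧
      Ext' (F.m (t i)) (N0 i) (X i) (ρ i) (e i) (y i) (1 / 3200) Cs V) → Tendsto ρ U (𝓝 0) →
    ∃ (T : TD M) (s : ι → T.V → ℝ) (R : ι → T.V → Nk M) (O : ι → T.V → Iso4)
      (c : ι → T.V → M) (K θ : ℝ), T.GH U (fun i => F.m (t i)) N0 X ρ e y s R O c K θ ε := by
  classical
  obtain ⟨r1, n0, Cs', hr1, hT⟩ := tree_geo hB hC hH (voln hB) 0 (η := 1 / 3200) (by norm_num)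
    (by norm_num) hε
  obtain ⟨K0, r2, hK0, hr2, h0⟩ := ext'_raw hB V
  obtain ⟨K1, r3, -, hr3, h1⟩ := exists_raw hB 6
  obtain ⟨Q, hQ, hcol⟩ := en_collar hB
  refine ⟨min r1 (min r2 r3), by positivity, fun {ι} U t ρ e y N0 X hi hρ => ?_⟩
  have ht := fun i => (hi i).1
  have hX := fun i => (hi i).2.2
  have hρ0 : ∀ i, 0 < ρ i := fun i => by linarith [(hX i).a_eq ▸ (hX i).top.a_pos]
  have hr := fun i => le_min_iff.1 (hi i).2.1
  have raw0 := fun i => h0 _ (ht i) _ _ _ _ _ _ ((hr i).2.trans (min_le_left _ _)) (hX i)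
  choose x0 hx0 using fun i => (hX i).top.ne
  have hΩ : ∀ i O Γ0, ((N0 i).nn (ρ i / 24) O Γ0 6).Om 3 = (N0 i).Om (ρ i / 8) := fun i O Γ0 => by
    rw [(raw0 i _ (hx0 i)).nn_Om]; congr 1; ring
  obtain ⟨W, hW, root, par, dep, lam, ctr, C, hT, hl0, hc, hC1, c0, cΩ, h3, h4, h5, h6⟩ :=
    hT U t ρ (fun i => (N0 i).Om (ρ i / 8)) x0 ((6 + K0) / 24) ht (fun i => ⟨hρ0 i, (hr i).1⟩) hρ
      (fun i => (N0 i).In_sub _ (hx0 i)) fun i x hx => by
        linarith [(raw0 i _ (hx0 i)).nn_up 1 ⊥ (by norm_num) (by norm_num) (hΩ i 1 ⊥ ▸ hx)]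
  have hC0 : 0 < C := by linarith
  have hA : (1 : ℝ) ≤ 20 * C := by linarith
  have hR : ∀ i v, ∃ N : Nk M, (v = root → N = N0 i) ∧ (v ≠ root → GN (F.m (t i)) (ctr v i)
      (20 * C * lam (dep v) i) (lam (dep (par v)) i / (20 * C)) 0 (1 / 3200) Cs' n0 → N.Top ∧
        N.a = 20 * C * lam (dep v) i ∧ N.b = lam (dep (par v)) i / (20 * C) ∧ ctr v i ∈ N.In ∧
          Good (F.m (t i)) N 0 (1 / 3200) Cs' 6 ∧ Nat.card N.Γ ≤ n0) := fun i v => by
    by_cases h : v ≠ root ∧ GN (F.m (t i)) (ctr v i) (20 * C * lam (dep v) i)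
      (lam (dep (par v)) i / (20 * C)) 0 (1 / 3200) Cs' n0
    · obtain ⟨N, hN⟩ := h.2
      exact ⟨N, fun h' => absurd h' h.1, fun _ _ => hN⟩
    · exact ⟨N0 i, fun _ => rfl, fun a b => absurd ⟨a, b⟩ h⟩
  choose R hR0 hR using hR
  replace hR0 := fun i => hR0 i root rfl
  replace h5 := h5 (20 * C) (by linarith)
  replace hR := h5.mono fun i hi v hv => hR i v hv (hi v hv).1
  choose Γ O _ hcj using fun v => exists_cj U (fun i => (R i v).Γ) (n0 + ⌈V⌉₊) (by
    filter_upwards [hR] with i hi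
    by_cases hv : v = root
    · rw [hv, hR0]
      exact ⟨(hX i).top.grp, (Nat.cast_le.1 ((hX i).card.trans (Nat.le_ceil V))).trans le_add_self⟩
    · exact ⟨(hi v hv).1.grp, (hi v hv).2.2.2.2.2.trans le_self_add⟩)
  let T : TD M :=
    { V := W, root := root, par := par, dep := dep, B := Empty, vx := Empty.elim, Γ := Γ,
      r := 1 / (100 * (20 * C) ^ 2), φ := Empty.elim, co := fun _ _ => Classical.arbitrary M,
      ci := fun _ _ => Classical.arbitrary M }
  have hr0 : 0 < T.r := by simp only [T]; positivity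
  let s : ι → W → ℝ := fun i v => T.unt (20 * C) v * lam (dep v) i
  have hu : ∀ v, 0 < T.unt (20 * C) v := fun v => lt_of_lt_of_le (by norm_num) (T.un_lo hA v)
  have hs : ∀ i v, 0 < s i v := fun i v => mul_pos (hu v) (hc.pos _ i)
  have hs1 : ∀ i v, s i v ≤ 4 * (20 * C) / 3 * lam (dep v) i := fun i v =>
    mul_le_mul_of_nonneg_right (T.un_hi hA v) (hc.pos _ i).le
  have hs2 : ∀ i v, 1 / 24 * lam (dep v) i ≤ s i v := fun i v =>
    mul_le_mul_of_nonneg_right (T.un_lo hA v) (hc.pos _ i).le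
  have hs0 : ∀ i, s i root = ρ i / 24 := fun i => by
    have : T.unt (20 * C) root = 1 / 24 := if_pos rfl
    simp only [s, this, hT.dep_root, hl0]; ring
  have hsk : ∀ i v, v ≠ root → 20 * C * lam (dep v) i = 3 / 4 * s i v := fun i v hv => by
    have : T.unt (20 * C) v = 4 * (20 * C) / 3 := if_neg hv
    simp only [s, this]; ring
  have htop : ∀ w, w ≠ root → Tendsto (fun i => T.ls (s i) w) U atTop := fun w hw =>
    Ll.tendsto_log (U := U) (s := fun i => s i w) (t := fun i => s i (par w)) (fun δ hδ => by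
      filter_upwards [hc.ll (dep (par w)) (δ / (24 * (4 * (20 * C) / 3))) (by positivity)] with i hi
      rw [hT.dep_par w hw] at hi
      have a1 := mul_le_mul_of_nonneg_left hi (show 0 ≤ 4 * (20 * C) / 3 by positivity)
      have a2 : 4 * (20 * C) / 3 * (δ / (24 * (4 * (20 * C) / 3)) * lam (dep (par w)) i) =
        δ * (1 / 24 * lam (dep (par w)) i) := by field_simp
      linarith [hs1 i w, mul_le_mul_of_nonneg_left (hs2 i (par w)) hδ.le])
      (Eventually.of_forall fun i => hs i w)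
  have hlρ : ∀ᶠ i in U, ∀ v, lam (dep v) i ≤ ρ i := eventually_all.2 fun v => by
    rcases Nat.eq_zero_or_pos (dep v) with h | h
    · exact Eventually.of_forall fun i => by rw [h, hl0]
    · simpa only [hl0, one_mul] using hc.ll' h 1 one_pos
  have big : ∀ᶠ i in U, ∀ w, w ≠ root → max 64 (max K0 K1) ≤ T.r * Real.exp (T.ls (s i) w) :=
    eventually_all.2 fun w => TD.exp_big (T := T) htop w hr0 _
  have hb : ∀ i w, 2 * T.r * Real.exp (T.ls (s i) w) * s i w ≤ lam (dep (par w)) i / (20 * C) :=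
    fun i w => by
      rw [mul_assoc, T.exp_ls (hs i)]
      have a1 := mul_le_mul_of_nonneg_left (hs1 i (par w)) (show 0 ≤ 2 * T.r by positivity)
      have a2 : 2 * T.r * (4 * (20 * C) / 3 * lam (dep (par w)) i) =
        2 / 75 * (lam (dep (par w)) i / (20 * C)) := by simp only [T]; field_simp; ring
      linarith [div_pos (hc.pos (dep (par w)) i) (show 0 < 20 * C by positivity)]
  have raw : ∀ᶠ i in U, ∀ v, Raw (F.m (t i)) (R i v) (ctr v i) (s i v) (T.bb (T.ls (s i)) v)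
      (max K0 K1) := by
    filter_upwards [hR, hlρ, big] with i a1 a2 a3 v
    by_cases hv : v = root
    · rw [hv, hR0, hs0, c0, show T.bb (T.ls (s i)) root = 6 from if_pos rfl]
      exact (raw0 i _ (hx0 i)).mono (le_max_left _ _)
    · obtain ⟨b1, b2, b3, b4, b5, -⟩ := a1 v hv
      rw [show T.bb (T.ls (s i)) v = 2 * T.r * Real.exp (T.ls (s i) v) from if_neg hv]
      refine (h1 _ (ht i) _ _ _ _ b1 (rough_of_good b1 b5 (by norm_num) (by norm_num)) ?_
        (b2.trans (hsk i v hv)) (by linarith [(le_max_left _ _).trans (a3 v hv)])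
        (by rw [b3, mul_comm]; exact hb i v) b4).mono (le_max_right _ _)
      rw [b3]
      exact (div_le_self (hc.pos _ i).le hA).trans ((a2 _).trans ((hr i).2.trans (min_le_right _ _)))
  obtain ⟨θ0, hθ0, hθ1, hθ2⟩ : ∃ θ0 : ℝ, 0 < θ0 ∧ θ0 ≤ 1 / 20 ∧ Q * θ0 ^ 4 < ε := by
    have a1 : 0 < min (1 / 20) (ε / (2 * Q)) := by positivity
    refine ⟨_, a1, min_le_left _ _, ?_⟩
    have a2 := pow_le_of_le_one a1.le ((min_le_left _ _).trans (by norm_num)) (four_ne_zero)
    have a3 := mul_le_mul_of_nonneg_left (a2.trans (min_le_right _ _)) hQ.le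
    have a4 : Q * (ε / (2 * Q)) = ε / 2 := by field_simp
    linarith
  have tg : ∀ᶠ i in U, TG root par dep T.r (T.nns (R i) (s i) fun v => O v i) (s i) (T.ls (s i))
      (fun v => ctr v i) (F.m (t i)).d (max K0 K1) := by
    filter_upwards [raw, eventually_all.2 hcj, big, h3, h4, h5,
      hc.ll 0 (θ0 / (24 * (20 * C))) (by positivity)] with i a1 a2 a3 a4 a5 a6 a7
    refine TD.tg_idx (T := T) hT (lam := fun j => lam j i) hC1 rfl (fun j => hc.pos j i)
      (fun _ => rfl) a1 a2 a3 a4 a5 fun w hw hp => ?_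
    have b1 := a2 root
    have b2 := raw0 i _ (hx0 i)
    have b3 := ext'_rough (hX i) (by norm_num)
    rw [hR0] at b1
    change ((R i root).nn (s i root) (O root i) (Γ root) (T.bb (T.ls (s i)) root)).rad _ ≤ _
    rw [hR0, hs0, show T.bb (T.ls (s i)) root = 6 from if_pos rfl]
    by_contra b4
    have b5 := hcol _ (ht i) _ _ _ _ _ _ _ b2 b1 ⟨fun x hx k hk p q =>
      (b3.jet x hx k (hk.trans (by norm_num)) p q).trans (by norm_num), b3.vol⟩ _ (not_le.1 b4)
      (((b2.nn_top b1).mem_Om ⟨by norm_num [Nk.nn], by norm_num [Nk.nn]⟩).1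
        ((hΩ i _ _).ge (cΩ w i))) θ0 hθ0 hθ1
    have b6 : dep w = 0 + 1 := by rw [← hT.dep_par w hw, show par w = root from hp, hT.dep_root]
    have b7 := mul_le_mul_of_nonneg_left a7 (show 0 ≤ 20 * C by positivity)
    have b8 : 20 * C * (θ0 / (24 * (20 * C)) * lam 0 i) = θ0 * (ρ i / 24) := by
      rw [hl0]; field_simp
    have b9 := (a6 w hw).2.trans (en_mono' _ _ (b6 ▸ b7.trans b8.le))
    linarith
  obtain ⟨c, hc0, h6⟩ := h6 (2 / 5 * T.r / 24) (by positivity)
  refine ⟨T, s, R, fun i v => O v i, fun i v => ctr v i, max K0 K1, c / (4 * (20 * C) / 3), hs0, hR0,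
    ⟨hs, hr0, tg.exists.elim fun _ h => h.r_le.trans (by norm_num),
      ⟨0, 1 / 3200, 6, Cs', by norm_num, le_rfl, hR.mono fun i hi w hw => ?_⟩,
      ⟨1 / 3200, V, Cs, by norm_num, by norm_num, (hcj root).mono fun i hi => ?_⟩⟩,
    htop, hK0.trans (le_max_left _ _), by positivity, fun v => ?_, tg, ?_⟩
  · obtain ⟨b1, b2, b3, -, b5, -⟩ := hi w hw
    have := mul_pos (mul_pos hr0 (Real.exp_pos (T.ls (s i) w))) (hs i w)
    exact ⟨b1, b5, by linarith [hsk i w hw, hs i w], by linarith [hb i w]⟩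
  · exact ⟨(hR0 i).symm ▸ hX i, hi, by linarith [hs0 i, hρ0 i], by linarith [hs0 i, hρ0 i]⟩
  · refine squeeze_zero' (Eventually.of_forall fun i => (hs i v).le) (hlρ.mono fun i hi =>
      (hs1 i v).trans (mul_le_mul_of_nonneg_left (hi v) (by positivity))) ?_
    simpa using hρ.const_mul (4 * (20 * C) / 3)
  · filter_upwards [tg, h6 (4 * (20 * C) / 3 * (4 + max K0 K1))] with i a1 a2 v p hp
    have b1 := a1.creg_sub v hp
    change p ∈ ((R i root).nn (s i root) (O root i) (Γ root) (T.bb (T.ls (s i)) root)).Om 3 at b1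
    rw [hR0, hs0, show T.bb (T.ls (s i)) root = 6 from if_pos rfl, hΩ] at b1
    have b2 := mul_le_mul_of_nonneg_right (hs1 i v)
      (show 0 ≤ 4 + max K0 K1 by linarith [le_max_left K0 K1])
    refine (en_mono' _ _ ?_).trans (a2 v p b1 (by linarith [a1.creg_up hp, a1.pd.symm p (ctr v i)])
      fun w hw e => ?_)
    · have b3 := mul_le_mul_of_nonneg_left (hs1 i v) (show 0 ≤ c / (4 * (20 * C) / 3) by positivity)
      have b4 : c / (4 * (20 * C) / 3) * (4 * (20 * C) / 3 * lam (dep v) i) = c * lam (dep v) i := by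
        field_simp
      exact b3.trans b4.le
    · have b3 := mul_le_mul_of_nonneg_left (hs2 i v) (show 0 ≤ 2 / 5 * T.r by positivity)
      linarith [a1.creg_lo hw e hp]

/-- **The geometric step.** -/
theorem geo (hB : Base F) (hC : CONE F) (hH : HDEC F) : GEO F := fun Cs V => by
  classical
  obtain ⟨ε, hε, hb⟩ := geo_balls hB (N207.F.locf hB)
  obtain ⟨δ0, hδ0, h⟩ := geo_half hB hC hH hε Cs V
  refine ⟨δ0, hδ0, fun {ι} U t ρ e y N0 X hi hρ => ?_⟩
  obtain ⟨T, s, R, O, c, K, θ, h⟩ := h U t ρ e y N0 X hi hρ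
  obtain ⟨A, hA, vx, z, φ, σ, -, hσ, h1, h2⟩ := hb U t
    (fun v i => creg T.root T.par T.r (T.nns (R i) (s i) (O i)) (T.ls (s i)) v) (fun v i => c i v) s
    (4 + K) θ (T.r / 50) (by linarith [h.K_nn]) h.θ_pos (by linarith [h.an.r_pos])
    (fun i => (hi i).1) h.an.s_pos h.lim
    ((h.tg.and h.reg).mono fun i a v p hp => ⟨(a.1.creg_up hp).trans_eq (mul_comm _ _), a.2 v p hp⟩)
  let T' : TD M :=
    { T with B := A, fB := hA, dB := inferInstance, vx := vx, φ := fun _ _ => Classical.arbitrary M }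
  have cfg : ∀ᶠ i in U, T'.Cfg (T'.nns (R i) (s i) (O i)) (φ i) (T'.ls (s i)) := by
    filter_upwards [h.tg, h1] with i a1 a2
    exact TG.cfg (T0 := T') a1 (fun _ => rfl) (y := fun a => z a i) (σ := fun v => σ * s i v)
      (fun v => by linarith [mul_le_mul_of_nonneg_right hσ (h.an.s_pos i v).le])
      (fun a => (a2.1 a).2.1) (fun a => (a2.1 a).2.2.1) (fun a => (a2.1 a).1)
      (fun a => (a2.1 a).2.2.2.1) (fun a => (a2.1 a).2.2.2.2) a2.2
  exact ⟨T', s, R, O, φ, h.s_root, h.R_root, ⟨h.an.s_pos, h.an.r_pos, h.an.r_le, h.an.good, h.an.ext⟩,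
    h.top, cfg.exists.elim fun _ a => a.cmb, cfg, h2⟩

end Crest.Agent.N207.I

end
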