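import Crest.Agent.N207.I.Glue1

/-!
# Row 207, block I (helper24): gluing almost-identities chart by chart

A finite family of charts `c a i : E → M` (balls `B a`: injective; collars `¬ B a`: the
identifications do not depend on `i`).  Along `𝒰 × 𝒰 ∋ (i0, i)` there is `F : M → M` that equals
`c a i ∘ (c a i0)⁻¹` on the collars and is an almost-identity in every ball chart.
-/

set_option autoImplicit false
open Set Filter Topology Function Metric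
open scoped ContDiff

noncomputable section

namespace Crest.Agent.N207.Jt

variable {ι α E : Type} {M : Type*} [NormedAddCommGroup E] [NormedSpace ℝ E]
  [TopologicalSpace M]

/-- hypotheses of the gluing theorem -/
structure GlH (𝒰 : Ultrafilter ι) (c : α → ι → E → M) (ρ : α → E → ℝ) (B : α → Prop) : Prop where
  dp : ∀ a, Dp (ρ a)
  cont : ∀ a, ∀ᶠ i in (𝒰 : Filter ι), ContinuousOn (c a i) (lv (ρ a) 4)
  inj : ∀ a, B a → ∀ᶠ i in (𝒰 : Filter ι), InjOn (c a i) (lv (ρ a) 4)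
  desc : ∀ a, ∀ᶠ i in (𝒰 : Filter ι), ∀ z ∈ lv (ρ a) 4, ∀ z' ∈ lv (ρ a) 4,
    c a i z = c a i z' → ρ a z = ρ a z'
  sat : ∀ a b, ¬ B a → ¬ B b → ∀ᶠ p in (𝒰 : Filter ι) ×ˢ (𝒰 : Filter ι),
    ∀ z ∈ lv (ρ a) 4, ∀ z' ∈ lv (ρ b) 4, c a p.1 z = c b p.1 z' → c a p.2 z = c b p.2 z'
  loc : ∀ a b, B a ∨ B b → Loc (𝒰 : Filter ι) (c a) (c b) (lv (ρ a) 4) (lv (ρ b) 4)
  loc0 : ∀ a b, B a ∨ B b → ∀ᶠ i in (𝒰 : Filter ι),
    Loc (pure i) (c a) (c b) (lv (ρ a) 4) (lv (ρ b) 4)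

variable {𝒰 : Ultrafilter ι} {c : α → ι → E → M} {ρ : α → E → ℝ} {B : α → Prop}

/-- `F` read in the chart `a` -/
def rd (c : α → ι → E → M) (ρ : α → E → ℝ) (F : ι × ι → M → M) (a : α) (p : ι × ι) (x : E) : E :=
  invFunOn (c a p.2) (lv (ρ a) 4) (F p (c a p.1 x))

/-- `F` is an almost-identity on `W` -/
def Gd (𝒰 : Ultrafilter ι) (c : α → ι → E → M) (ρ : α → E → ℝ) (B : α → Prop)
    (F : ι × ι → M → M) (W : ι → Set M) : Prop :=
  ∀ a, B a → (∀ᶠ p in (𝒰 : Filter ι) ×ˢ (𝒰 : Filter ι), ∀ x, ρ a x < 7 / 2 → c a p.1 x ∈ W p.1 →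
      ∀ᶠ w in 𝓝 x, F p (c a p.1 w) ∈ c a p.2 '' lv (ρ a) 4) ∧
    UE ((𝒰 : Filter ι) ×ˢ (𝒰 : Filter ι)) (rd c ρ F a) (fun _ z => z)
      (fun p => {x | ρ a x < 7 / 2 ∧ c a p.1 x ∈ W p.1}) ∧
    ∀ᶠ i in (𝒰 : Filter ι), UB (pure i ×ˢ (𝒰 : Filter ι)) (rd c ρ F a)
      fun p => {x | ρ a x < 7 / 2 ∧ c a p.1 x ∈ W p.1}

theorem ev_pure {l l' : Filter ι} {P : ι × ι → Prop} (h : ∀ᶠ p in l ×ˢ l', P p) :
    ∀ᶠ i in l, ∀ᶠ p in pure i ×ˢ l', P p :=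
  h.curry.mono fun i hi => by rw [pure_prod]; exact hi

theorem GB.fin_cases {X Y β : Type} [NormedAddCommGroup X] [NormedSpace ℝ X] [NormedAddCommGroup Y]
    [NormedSpace ℝ Y] [Finite β] {l : Filter ι} {f : ι → X → Y} {x : ι → X} (k : ι → β)
    (h : ∀ b, GB (l ⊓ 𝓟 {j | k j = b}) f x) : GB l f x := (GE.fin_cases k fun b => (h b).ge).left

/-- the region covered by the collars and the balls in `s`, to depth `r` -/
def Wr (c : α → ι → E → M) (ρ : α → E → ℝ) (A : Finset α) (r : ℝ) (i : ι) : Set M :=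
  {q | ∃ a ∈ A, q ∈ c a i '' lv (ρ a) r}

variable [T2Space M] [FiniteDimensional ℝ E]

/-- criterion: near the point, `F` is `c b i ∘ g ∘ (c b i0)⁻¹` with an almost-identity `g` -/
theorem GlH.crit (h : GlH 𝒰 c ρ B) {F : ι × ι → M → M} {a b : α} (ha : B a) {κ : Type}
    {m : Filter κ} {e : κ → ι × ι} (he : Tendsto e m ((𝒰 : Filter ι) ×ˢ (𝒰 : Filter ι)))
    {x y : κ → E} {g : κ → E → E}
    (hm : ∀ᶠ j in m, ρ a (x j) ≤ 7 / 2 ∧ ρ b (y j) ≤ 7 / 2 ∧ c a (e j).1 (x j) = c b (e j).1 (y j))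
    (hg : GE m g y (fun _ z => z) y)
    (hF : ∀ᶠ j in m, ∀ᶠ w in 𝓝 (y j), F (e j) (c b (e j).1 w) = c b (e j).2 (g j w)) :
    (∀ᶠ j in m, ∀ᶠ w in 𝓝 (x j), F (e j) (c a (e j).1 w) ∈ c a (e j).2 '' lv (ρ a) 4) ∧
      GE m (fun j => rd c ρ F a (e j)) x (fun _ z => z) x := by
  have he1 : Tendsto (fun j => (e j).1) m 𝒰 := tendsto_fst.comp he
  obtain ⟨τ, hτ, hτ'⟩ := (h.loc b a (Or.inr ha)).at he1 (x := y) (y := x) (hm.mono fun j hj =>
    ⟨lt_of_le_of_lt hj.2.1 (show (7 / 2 : ℝ) < 4 by norm_num),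
      lt_of_le_of_lt hj.1 (show (7 / 2 : ℝ) < 4 by norm_num), hj.2.2.symm⟩)
  obtain ⟨t1, t2⟩ := tr_close (h.dp a) (h.dp b) (h.cont a) (h.cont b) (h.inj a ha)
    (h.loc a b (Or.inl ha)) he hm hg.val
  have hy : ∀ᶠ j in m, τ j (x j) = y j := hτ'.mono fun _ hj => hj.1
  have hF' : ∀ᶠ j in m, ∀ᶠ w in 𝓝 (x j), F (e j) (c a (e j).1 w) = c b (e j).2 (g j (τ j w)) := by
    filter_upwards [hτ', hτ.sm, hF] with j h1 h2 h3
    rw [← h1.1] at h3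
    filter_upwards [h1.2, h2.continuousAt.eventually h3] with w a b
    rw [← a, b]
  refine ⟨?_, ?_⟩
  · filter_upwards [hF', t1, hy, hτ.sm, hg.left.sm] with j h1 h2 h3 h4 h5
    have h6 : Tendsto (fun w => g j (τ j w)) (𝓝 (x j)) (𝓝 (g j (y j))) :=
      h5.continuousAt.tendsto.comp (h3 ▸ h4.continuousAt.tendsto)
    filter_upwards [h1, h6.eventually h2] with w a b
    rw [a]; exact b
  · have g1 := t2.comp hg
    have g2 := (g1.congr_left (x' := fun j => τ j (x j)) (hy.mono fun j hj => ⟨hj, .rfl⟩)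
      ).congr_right (x' := fun j => τ j (x j)) (hy.mono fun j hj => ⟨hj, .rfl⟩)
    have g3 := g2.comp hτ.ge
    refine (g3.congr_left (hF'.mono fun j hj => ⟨rfl, hj.mono fun w hw => ?_⟩)).congr_right ?_
    · simp only [rd, hw]
    · filter_upwards [hτ', hm, he1.eventually (h.inj a ha)] with j h1 h2 h3
      refine ⟨rfl, ?_⟩
      filter_upwards [h1.2, ((h.dp a).op 4).mem_nhds
        (lt_of_le_of_lt h2.1 (show (7 / 2 : ℝ) < 4 by norm_num))] with w a b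
      rw [a, h3.leftInvOn_invFunOn b]

omit [T2Space M] [FiniteDimensional ℝ E] in
/-- the same criterion for bounds at a fixed first index -/
theorem GlH.crit0 (h : GlH 𝒰 c ρ B) {F : ι × ι → M → M} {a b : α} (ha : B a) {κ : Type} {i : ι}
    (hl : Loc (pure i) (c b) (c a) (lv (ρ b) 4) (lv (ρ a) 4))
    {m : Filter κ} {e : κ → ι × ι} (he : Tendsto e m (pure i ×ˢ (𝒰 : Filter ι)))
    {x y : κ → E} {g : κ → E → E}
    (hm : ∀ᶠ j in m, ρ a (x j) < 4 ∧ ρ b (y j) < 4 ∧ c a (e j).1 (x j) = c b (e j).1 (y j))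
    (hg : GB m g y) (hy : ∀ᶠ j in m, ρ b (g j (y j)) < 4)
    (hF : ∀ᶠ j in m, ∀ᶠ w in 𝓝 (y j), F (e j) (c b (e j).1 w) = c b (e j).2 (g j w))
    (hx : ∀ᶠ j in m, F (e j) (c a (e j).1 (x j)) ∈ c a (e j).2 '' lv (ρ a) 4) :
    GB m (fun j => rd c ρ F a (e j)) x := by
  have he2 : Tendsto (fun j => (e j).2) m 𝒰 := tendsto_snd.comp he
  obtain ⟨τ, hτ, hτ'⟩ := hl.at (tendsto_fst.comp he) (x := y) (y := x)
    (hm.mono fun j hj => ⟨hj.2.1, hj.1, hj.2.2.symm⟩)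
  have hu : ∀ᶠ j in m, rd c ρ F a (e j) (x j) ∈ lv (ρ a) 4 ∧ g j (y j) ∈ lv (ρ b) 4 ∧
      c a (e j).2 (rd c ρ F a (e j) (x j)) = c b (e j).2 (g j (y j)) := by
    filter_upwards [hx, hy, hF, hm] with j h1 h2 h3 h4
    exact ⟨(invFunOn_pos h1).1, h2, (invFunOn_pos h1).2.trans (h4.2.2 ▸ h3.self_of_nhds)⟩
  obtain ⟨σ, hσ, hσ'⟩ := (h.loc a b (Or.inl ha)).at he2 hu
  have g1 := (hσ.comp hg).congr (x' := fun j => τ j (x j)) (hτ'.mono fun j hj => ⟨hj.1, .rfl⟩)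
  refine (g1.comp hτ).congr ?_
  filter_upwards [hτ', hτ.sm, hF, hσ', hσ.sm, hg.sm, hu, he2.eventually (h.inj a ha)]
    with j h1 h2 h3 h4 h5 h6 h7 h8
  refine ⟨rfl, ?_⟩
  have t1 : Tendsto (τ j) (𝓝 (x j)) (𝓝 (y j)) := h1.1 ▸ h2.continuousAt.tendsto
  have t2 := h6.continuousAt.tendsto.comp t1
  filter_upwards [h1.2, t1.eventually h3, t2.eventually h4.2, t2.eventually
    (ev_lv (h.dp a) h5 (r := 4) (by rw [h4.1]; exact h7.1))] with w a1 a2 a3 a4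
  have a5 : c b (e j).1 (τ j w) = c a (e j).1 w := a1
  simp only [rd]
  rw [← a5, a2]
  exact (congrArg _ a3.symm).trans (h8.leftInvOn_invFunOn a4)

omit [TopologicalSpace M] [T2Space M] [FiniteDimensional ℝ E] in
/-- `Gd` from a finite case distinction -/
theorem gd_of {F : ι × ι → M → M} {W : ι → Set M} {β : Type} [Finite β]
    (k : α → (ι × ι) × E → β)
    (hk : ∀ a, B a → ∀ b, ∀ m : Filter ((ι × ι) × E), m = un ((𝒰 : Filter ι) ×ˢ (𝒰 : Filter ι))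
        (fun p => {x | ρ a x < 7 / 2 ∧ c a p.1 x ∈ W p.1}) ⊓ 𝓟 {q | k a q = b} →
      (∀ᶠ q in m, ∀ᶠ w in 𝓝 q.2, F q.1 (c a q.1.1 w) ∈ c a q.1.2 '' lv (ρ a) 4) ∧
        GE m (fun q => rd c ρ F a q.1) Prod.snd (fun _ z => z) Prod.snd)
    (hk0 : ∀ a, B a → ∀ b, ∀ᶠ i in (𝒰 : Filter ι), ∀ m : Filter ((ι × ι) × E),
      m = un (pure i ×ˢ (𝒰 : Filter ι))
        (fun p => {x | ρ a x < 7 / 2 ∧ c a p.1 x ∈ W p.1}) ⊓ 𝓟 {q | k a q = b} →
      (∀ᶠ q in m, F q.1 (c a q.1.1 q.2) ∈ c a q.1.2 '' lv (ρ a) 4) →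
        GB m (fun q => rd c ρ F a q.1) Prod.snd) : Gd 𝒰 c ρ B F W := by
  intro a ha
  have h0 := eventually_all.2 fun b => eventually_inf_principal.1 (hk a ha b _ rfl).1
  have h1 : ∀ᶠ p in (𝒰 : Filter ι) ×ˢ (𝒰 : Filter ι), ∀ x, ρ a x < 7 / 2 → c a p.1 x ∈ W p.1 →
      ∀ᶠ w in 𝓝 x, F p (c a p.1 w) ∈ c a p.2 '' lv (ρ a) 4 :=
    (ev_un.1 (h0.mono fun q hq => hq (k a q) rfl)).mono fun p hp x h1 h2 => hp x ⟨h1, h2⟩
  refine ⟨h1, GE.fin_cases (k a) fun b => (hk a ha b _ rfl).2, ?_⟩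
  filter_upwards [eventually_all.2 (hk0 a ha), ev_pure h1] with i h2 h3
  refine GB.fin_cases (k a) fun b => h2 b _ rfl (Eventually.filter_mono inf_le_left ?_)
  exact ev_un.2 (h3.mono fun p hp x hx => (hp x hx.1 hx.2).self_of_nhds)

open Classical in
theorem GlH.base [Fintype α] (h : GlH 𝒰 c ρ B) (a0 : α) {r : ℝ} (hr : r ≤ 7 / 2) :
    ∃ F : ι × ι → M → M, Gd 𝒰 c ρ B F (Wr c ρ (Finset.univ.filter fun a => ¬ B a) r) ∧
      ∀ a, ¬ B a → ∀ᶠ p in (𝒰 : Filter ι) ×ˢ (𝒰 : Filter ι), ∀ z, ρ a z < 4 →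
        F p (c a p.1 z) = c a p.2 z := by
  have : ∀ (i : ι) (q : M) (r : ℝ), ∃ u : α × E, (∃ a, ¬ B a ∧ q ∈ c a i '' lv (ρ a) r) →
      ¬ B u.1 ∧ ρ u.1 u.2 < r ∧ c u.1 i u.2 = q := fun i q r => by
    by_cases hq : ∃ a, ¬ B a ∧ q ∈ c a i '' lv (ρ a) r
    · obtain ⟨a, h1, z, h2, h3⟩ := hq
      exact ⟨(a, z), fun _ => ⟨h1, h2, h3⟩⟩
    · exact ⟨(a0, 0), fun h => absurd h hq⟩
  choose u hu using this
  have hF : ∀ a, ¬ B a → ∀ᶠ p in (𝒰 : Filter ι) ×ˢ (𝒰 : Filter ι), ∀ z, ρ a z < 4 →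
      c (u p.1 (c a p.1 z) 4).1 p.2 (u p.1 (c a p.1 z) 4).2 = c a p.2 z := fun a ha => by
    have := eventually_all.2 fun b => eventually_imp_distrib_left.2 fun hb : ¬ B b => h.sat b a hb ha
    filter_upwards [this] with p hp z hz
    obtain ⟨h1, h2, h3⟩ := hu p.1 (c a p.1 z) 4 ⟨a, ha, z, hz, rfl⟩
    exact hp _ h1 _ h2 _ hz h3
  refine ⟨fun p q => c (u p.1 q 4).1 p.2 (u p.1 q 4).2, ?_, hF⟩
  have hm : ∀ (a b : α) (l : Filter (ι × ι)), ∀ᶠ q in un l (fun p => {x | ρ a x < 7 / 2 ∧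
      c a p.1 x ∈ Wr c ρ (Finset.univ.filter fun a => ¬ B a) r p.1}) ⊓
      𝓟 {q | (u q.1.1 (c a q.1.1 q.2) r).1 = b},
      ¬ B b ∧ ρ a q.2 < 7 / 2 ∧ ρ b (u q.1.1 (c a q.1.1 q.2) r).2 < r ∧
      c a q.1.1 q.2 = c b q.1.1 (u q.1.1 (c a q.1.1 q.2) r).2 := fun a b l => by
    refine eventually_inf_principal.2 ((un_mem _ _).mono fun q h1 h2 => ?_)
    obtain ⟨a', h3, h4⟩ := h1.2
    obtain ⟨h5, h6, h7⟩ := hu q.1.1 (c a q.1.1 q.2) r ⟨a', by simpa using h3, h4⟩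
    rw [show (u q.1.1 (c a q.1.1 q.2) r).1 = b from h2] at h5 h6 h7
    exact ⟨h5, h1.1, h6, h7.symm⟩
  have bot : ∀ {f : (ι × ι) × E → E → E} {x}, GB ⊥ f x :=
    ⟨eventually_bot, fun _ => ⟨0, eventually_bot⟩⟩
  refine gd_of (fun a q => (u q.1.1 (c a q.1.1 q.2) r).1) (fun a ha b => ?_) fun a ha b => ?_
  · intro m hmd
    have he : Tendsto Prod.fst m _ := hmd ▸ (un_fst _ _).mono_left inf_le_left
    have hm := hmd ▸ hm a b _
    by_cases hb : B b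
    · have : m = ⊥ := eventually_false_iff_eq_bot.1 (hm.mono fun q hq => hq.1 hb)
      rw [this]
      exact ⟨eventually_bot, bot, bot, fun _ => tendsto_bot⟩
    refine h.crit (F := fun p q => c (u p.1 q 4).1 p.2 (u p.1 q 4).2) (b := b) (g := fun _ z => z)
      (y := fun q => (u q.1.1 (c a q.1.1 q.2) r).2) ha he
      (hm.mono fun q hq => ⟨hq.2.1.le, hq.2.2.1.le.trans hr, hq.2.2.2⟩)
      (GB.id ((h.dp b).bd (hm.mono fun q hq => by linarith [hq.2.2.1]))).ge ?_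
    filter_upwards [he.eventually (hF b hb), hm] with q h1 h2
    filter_upwards [((h.dp b).op 4).mem_nhds (show ρ b _ < 4 by linarith [h2.2.2.1])] with w hw
    exact h1 w hw
  · by_cases hb : B b
    · refine Eventually.of_forall fun i m hmd _ => ?_
      have : m = ⊥ := eventually_false_iff_eq_bot.1 ((hmd ▸ hm a b _).mono fun q hq => hq.1 hb)
      rw [this]
      exact bot
    filter_upwards [h.loc0 b a (Or.inr ha), ev_pure (hF b hb)] with i hl hF m hmd hx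
    have he : Tendsto Prod.fst m _ := hmd ▸ (un_fst _ _).mono_left inf_le_left
    have hm := hmd ▸ hm a b _
    refine h.crit0 (F := fun p q => c (u p.1 q 4).1 p.2 (u p.1 q 4).2) (g := fun _ z => z)
      (y := fun q => (u q.1.1 (c a q.1.1 q.2) r).2) ha hl he
      (hm.mono fun q hq => ⟨by linarith [hq.2.1], by linarith [hq.2.2.1], hq.2.2.2⟩)
      (GB.id ((h.dp b).bd (hm.mono fun q hq => by linarith [hq.2.2.1])))
      (hm.mono fun q hq => by linarith [hq.2.2.1]) ?_ hx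
    filter_upwards [he.eventually hF, hm] with q h1 h2
    filter_upwards [((h.dp b).op 4).mem_nhds (show ρ b _ < 4 by linarith [h2.2.2.1])] with w hw
    exact h1 w hw

theorem GlH.ub_bump (h : GlH 𝒰 c ρ B) {a : α} (ha : B a) (b : α) {s t : ℝ} (hst : s < t)
    (ht : t < 4) : UB (𝒰 : Filter ι) (fun i w => ext (ρ b) (c b i) s t (fun _ => (1 : ℝ)) (c a i w))
      fun _ => lv (ρ a) 4 :=
  ub_ext (h.dp b) (h.dp a) (h.cont b) (h.cont a) (h.loc b a (Or.inr ha)) hst ht contDiff_const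
    ((h.desc b).mono fun _ hi z hz z' hz' e => ⟨hi z hz z' hz' e, rfl⟩)

theorem GlH.ub_bump0 (h : GlH 𝒰 c ρ B) {a : α} (ha : B a) (b : α) {s t : ℝ} (hst : s < t)
    (ht : t < 4) : ∀ᶠ i in (𝒰 : Filter ι), UB (pure i)
      (fun i w => ext (ρ b) (c b i) s t (fun _ => (1 : ℝ)) (c a i w)) fun _ => lv (ρ a) 4 := by
  filter_upwards [h.cont b, h.cont a, h.loc0 b a (Or.inr ha), h.desc b] with i h1 h2 h3 h4
  exact ub_ext (l := pure i) (c := c b) (c' := c a) (h.dp b) (h.dp a) h1 h2 h3 hst ht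
    contDiff_const fun z hz z' hz' e => ⟨h4 z hz z' hz' e, rfl⟩

end Crest.Agent.N207.Jt

end
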