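import Crest.Agent.N207.I.Glue

/-!
# Row 207, block I (helper24): the gluing theorem
-/

set_option autoImplicit false
open Set Filter Topology Function Metric
open scoped ContDiff

noncomputable section

namespace Crest.Agent.N207.Jt

variable {ι α E : Type} {M : Type*} [NormedAddCommGroup E] [NormedSpace ℝ E]
  [TopologicalSpace M] {𝒰 : Ultrafilter ι} {c : α → ι → E → M} {ρ : α → E → ℝ} {B : α → Prop}
  [T2Space M] [FiniteDimensional ℝ E]

open Classical in
theorem GlH.step (h : GlH 𝒰 c ρ B) {A : Finset α} {a : α} (ha : B a) {r r' : ℝ} (hr : r < r')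
    (hr' : r' ≤ 3) {F : ι × ι → M → M} (hF : Gd 𝒰 c ρ B F (Wr c ρ A r')) :
    ∃ F' : ι × ι → M → M, Gd 𝒰 c ρ B F' (Wr c ρ (insert a A) r) ∧
      ∀ᶠ p in (𝒰 : Filter ι) ×ˢ (𝒰 : Filter ι), ∀ q ∈ Wr c ρ A r p.1, F' p q = F p q := by
  set t := (r + r') / 2 with htd
  have hrt : r < t := by linarith
  have ht4 : t < 4 := by linarith
  set lam : ι → M → ℝ := fun i q =>
    1 - ∏ b ∈ A, (1 - ext (ρ b) (c b i) r t (fun _ => (1 : ℝ)) q) with hlam
  set g : ι × ι → E → E := fun p x => x + lam p.1 (c a p.1 x) • (rd c ρ F a p x - x) with hg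
  set F' : ι × ι → M → M := fun p q => if q ∈ c a p.1 '' lv (ρ a) (7 / 2) then
    c a p.2 (g p (invFunOn (c a p.1) (lv (ρ a) 4) q)) else F p q with hF'
  have hU1 : Tendsto (Prod.fst : ι × ι → ι) ((𝒰 : Filter ι) ×ˢ (𝒰 : Filter ι)) 𝒰 := tendsto_fst
  have hch : ∀ᶠ p in (𝒰 : Filter ι) ×ˢ (𝒰 : Filter ι), ∀ y, ρ a y < 7 / 2 →
      F' p (c a p.1 y) = c a p.2 (g p y) := by
    filter_upwards [hU1.eventually (h.inj a ha)] with p hp y hy
    simp only [hF']
    rw [if_pos ⟨y, hy, rfl⟩, hp.leftInvOn_invFunOn (show ρ a y < 4 by linarith)]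
  have hsame : ∀ᶠ p in (𝒰 : Filter ι) ×ˢ (𝒰 : Filter ι), ∀ q ∈ Wr c ρ A r p.1, F' p q = F p q := by
    filter_upwards [hch, (hF a ha).1, hU1.eventually ((Finset.eventually_all A).2
      fun b _ => h.desc b)] with p h1 h2 h3 q hq
    by_cases hqa : q ∈ c a p.1 '' lv (ρ a) (7 / 2)
    · obtain ⟨y, hy, rfl⟩ := hqa
      obtain ⟨b, hb, z, hz, e⟩ := hq
      have hl : lam p.1 (c a p.1 y) = 1 := by
        simp only [hlam]
        rw [Finset.prod_eq_zero hb, sub_zero]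
        rw [← e, ext_chart r t (fun z hz z' hz' e => ⟨h3 b hb z hz z' hz' e, rfl⟩)
          (show ρ b z < 4 from lt_trans hz (by linarith)), cut_one hrt (le_of_lt hz)]
        simp
      have := (h2 y hy ⟨b, hb, z, lt_trans hz hr, e⟩).self_of_nhds
      rw [h1 y hy]
      simp only [hg, hl, one_smul, add_sub_cancel, rd]
      exact (invFunOn_pos this).2
    · simp only [hF', if_neg hqa]
  refine ⟨F', ?_, hsame⟩
  have hn : ∀ d, B d → ∀ᶠ p in (𝒰 : Filter ι) ×ˢ (𝒰 : Filter ι), ∀ x, ρ d x < 7 / 2 →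
      c d p.1 x ∈ Wr c ρ A r p.1 → ∀ᶠ w in 𝓝 x, F' p (c d p.1 w) = F p (c d p.1 w) := fun d hd => by
    filter_upwards [hsame, hU1.eventually ((Finset.eventually_all A).2 fun b _ =>
      (h.loc b d (Or.inr hd)).choose_spec.1)] with p h2 h3 x h1 ⟨b, hb, z, hz, e⟩
    obtain ⟨t1, t2, t3⟩ := h3 b hb z (lt_trans hz (show r < 4 by linarith)) x
      (lt_trans h1 (show (7 / 2 : ℝ) < 4 by norm_num)) e
    filter_upwards [t3, ev_lv (h.dp b) t2 (r := r) (by rw [t1]; exact hz)] with w a1 a2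
    exact h2 _ ⟨b, hb, _, a2, a1⟩
  have hz : ∀ᶠ p in (𝒰 : Filter ι) ×ˢ (𝒰 : Filter ι), ∀ y ∈ lv (ρ a) r,
      c a p.1 y ∉ Wr c ρ A r' p.1 → g p =ᶠ[𝓝 y] fun z => z := by
    filter_upwards [hU1.eventually ((Finset.eventually_all A).2 fun b _ => h.cont b),
      hU1.eventually (h.cont a)] with p h2 h3 y (h1 : ρ a y < r) h4
    have : ∀ᶠ w in 𝓝 y, ∀ b ∈ A, c a p.1 w ∉ c b p.1 '' lc (ρ b) t :=
      (Finset.eventually_all A).2 fun b hb => ev_notMem (h.dp b) (h.dp a) (h2 b hb) h3 ht4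
        (by linarith) fun ⟨z, hz, e⟩ =>
          h4 ⟨b, hb, z, lt_of_le_of_lt hz (show t < r' by linarith), e⟩
    filter_upwards [this] with w hw
    have : lam p.1 (c a p.1 w) = 0 := by
      simp only [hlam]
      rw [Finset.prod_eq_one fun b hb => by rw [ext_zero hrt _ (hw b hb), sub_zero], sub_self]
    simp only [hg, this, zero_smul, add_zero]
  have hid : ∀ l : Filter (ι × ι), UB l (fun _ z => z) fun _ => lv (ρ a) r := fun l =>
    GB.id ((h.dp a).bd ((un_mem _ _).mono fun q (hq : ρ a q.2 < r) => by linarith))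
  have hin : ∀ l : Filter (ι × ι), ∀ᶠ q in un l (fun _ => lv (ρ a) r) ⊓
      𝓟 {q | c a q.1.1 q.2 ∈ Wr c ρ A r' q.1.1},
      q.2 ∈ {x | ρ a x < 7 / 2 ∧ c a q.1.1 x ∈ Wr c ρ A r' q.1.1} := fun l =>
    eventually_inf_principal.2 ((un_mem _ _).mono fun q (h1 : ρ a q.2 < r) h2 => ⟨by linarith, h2⟩)
  have hgU : UE ((𝒰 : Filter ι) ×ˢ (𝒰 : Filter ι)) g (fun _ z => z) fun _ => lv (ρ a) r := by
    refine GE.cases (fun q => c a q.1.1 q.2 ∈ Wr c ρ A r' q.1.1) ?_ ?_
    · have he := (un_fst _ _).mono_left (inf_le_left (a := un ((𝒰 : Filter ι) ×ˢ (𝒰 : Filter ι))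
        fun _ => lv (ρ a) r) (b := 𝓟 {q | c a q.1.1 q.2 ∈ Wr c ρ A r' q.1.1}))
      have g1 := (hF a ha).2.1.at he (hin _)
      have g2 := (GB.const' 1).sub (GB.prod A fun b _ => (GB.const' 1).sub
        ((h.ub_bump ha b hrt ht4).at (hU1.comp he)
          ((hin _).mono fun q hq => show ρ a _ < 4 by linarith [hq.1])))
      have g3 := g1.right.ge.add (g2.ge.smul (g1.sub g1.right.ge))
      exact g3.congr_right (Eventually.of_forall fun q => ⟨rfl, .of_forall fun w => by simp⟩)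
    · exact (GB.mono (hid _) inf_le_left).ge_congr (eventually_inf_principal.2
        (ev_un.2 (hz.mono fun p hp y h1 h2 => ⟨rfl, hp y h1 h2⟩)))
  have hgB : ∀ᶠ i in (𝒰 : Filter ι), UB (pure i ×ˢ (𝒰 : Filter ι)) g fun _ => lv (ρ a) r := by
    filter_upwards [(hF a ha).2.2, ev_pure hz, (Finset.eventually_all A).2 fun b _ =>
      h.ub_bump0 ha b hrt ht4] with i h1 h2 h3
    refine GB.cases (fun q => c a q.1.1 q.2 ∈ Wr c ρ A r' q.1.1) ?_ ?_
    · have hle := inf_le_left (a := un (pure i ×ˢ (𝒰 : Filter ι))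
        fun _ => lv (ρ a) r) (b := 𝓟 {q | c a q.1.1 q.2 ∈ Wr c ρ A r' q.1.1})
      have he := (un_fst _ _).mono_left hle
      have g1 := h1.at he (hin _)
      have g2 := (GB.const' 1).sub (GB.prod A fun b hb => (GB.const' 1).sub
        ((h3 b hb).at (tendsto_fst.comp he)
          ((hin _).mono fun q hq => show ρ a _ < 4 by linarith [hq.1])))
      exact (GB.mono (hid _) hle).add (g2.smul (g1.sub (GB.mono (hid _) hle)))
    · exact (GB.mono (hid _) inf_le_left).congr (eventually_inf_principal.2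
        (ev_un.2 (h2.mono fun p hp y h1 h2 => ⟨rfl, hp y h1 h2⟩)))
  have hg4 : ∀ᶠ p in (𝒰 : Filter ι) ×ˢ (𝒰 : Filter ι), ∀ y ∈ lv (ρ a) r, ρ a (g p y) < 4 :=
    ev_un.1 ((h.dp a).near (r := r) (by linarith) (by linarith)
      ((un_mem _ _).mono fun q hq => le_of_lt hq) (GE.val hgU))
  have hm1 : ∀ (d : α) (l : Filter (ι × ι)), ∀ᶠ q in un l (fun p => {x | ρ d x < 7 / 2 ∧
      c d p.1 x ∈ Wr c ρ (insert a A) r p.1}) ⊓
      𝓟 {q | decide (c d q.1.1 q.2 ∈ Wr c ρ A r q.1.1) = true},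
      (ρ d q.2 < 7 / 2 ∧ c d q.1.1 q.2 ∈ Wr c ρ A r q.1.1) ∧
      q.2 ∈ {x | ρ d x < 7 / 2 ∧ c d q.1.1 x ∈ Wr c ρ A r' q.1.1} := fun d l => by
    refine eventually_inf_principal.2 ((un_mem _ _).mono fun q h1 h2 => ?_)
    obtain ⟨b, hb, z, hz, e⟩ : c d q.1.1 q.2 ∈ Wr c ρ A r q.1.1 := by simpa using h2
    exact ⟨⟨h1.1, b, hb, z, hz, e⟩, h1.1, b, hb, z, lt_trans hz hr, e⟩
  set y : α → (ι × ι) × E → E := fun d q => invFunOn (c a q.1.1) (lv (ρ a) r) (c d q.1.1 q.2)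
    with hy
  have hm2 : ∀ (d : α) (l : Filter (ι × ι)), ∀ᶠ q in un l (fun p => {x | ρ d x < 7 / 2 ∧
      c d p.1 x ∈ Wr c ρ (insert a A) r p.1}) ⊓
      𝓟 {q | decide (c d q.1.1 q.2 ∈ Wr c ρ A r q.1.1) = false},
      ρ d q.2 < 7 / 2 ∧ ρ a (y d q) < r ∧ c a q.1.1 (y d q) = c d q.1.1 q.2 := fun d l => by
    refine eventually_inf_principal.2 ((un_mem _ _).mono fun q h1 h2 => ⟨h1.1, ?_⟩)
    obtain ⟨b, hb, hq⟩ := h1.2
    rcases Finset.mem_insert.1 hb with rfl | hb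
    · exact invFunOn_pos hq
    · exact absurd (show c d q.1.1 q.2 ∈ Wr c ρ A r q.1.1 from ⟨b, hb, hq⟩) (by simpa using h2)
  have hch' : ∀ᶠ p in (𝒰 : Filter ι) ×ˢ (𝒰 : Filter ι), ∀ y, ρ a y < r →
      ∀ᶠ w in 𝓝 y, F' p (c a p.1 w) = c a p.2 (g p w) := by
    filter_upwards [hch] with p h1 y h2
    filter_upwards [((h.dp a).op (7 / 2)).mem_nhds (show ρ a y < 7 / 2 by linarith)]
      with w hw using h1 w hw
  refine gd_of (fun d q => decide (c d q.1.1 q.2 ∈ Wr c ρ A r q.1.1)) (fun d hd b => ?_)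
    fun d hd b => ?_
  · intro m hmd
    have he : Tendsto Prod.fst m _ := hmd ▸ (un_fst _ _).mono_left inf_le_left
    cases b with
    | true =>
      have hm := hmd ▸ hm1 d _
      have hn : ∀ᶠ q in m, ∀ᶠ w in 𝓝 q.2, F' q.1 (c d q.1.1 w) = F q.1 (c d q.1.1 w) := by
        filter_upwards [hm, he.eventually (hn d hd)] with q h1 h2 using h2 _ h1.1.1 h1.1.2
      refine ⟨?_, ((hF d hd).2.1.at he (hm.mono fun q hq => hq.2)).congr_left (hn.mono fun q hq =>
        ⟨rfl, hq.mono fun w hw => by simp only [rd, hw]⟩)⟩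
      filter_upwards [hn, he.eventually (hF d hd).1, hm] with q h1 h2 h3
      filter_upwards [h1, h2 q.2 h3.2.1 h3.2.2] with w a1 a2
      rw [a1]; exact a2
    | false =>
      have hm := hmd ▸ hm2 d _
      refine h.crit (b := a) (g := fun q => g q.1) (y := y d) hd he
        (hm.mono fun q hq => ⟨hq.1.le, by linarith [hq.2.1], hq.2.2.symm⟩)
        (hgU.at he (hm.mono fun q hq => hq.2.1)) ?_
      filter_upwards [he.eventually hch', hm] with q h1 h2 using h1 _ h2.2.1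
  · cases b with
    | true =>
      filter_upwards [ev_pure (hn d hd), (hF d hd).2.2] with i h1 h2 m hmd _
      have he : Tendsto Prod.fst m _ := hmd ▸ (un_fst _ _).mono_left inf_le_left
      have hm := hmd ▸ hm1 d _
      refine (h2.at he (hm.mono fun q hq => hq.2)).congr ?_
      filter_upwards [hm, he.eventually h1] with q h3 h4
      exact ⟨rfl, (h4 _ h3.1.1 h3.1.2).mono fun w hw => by simp only [rd, hw]⟩
    | false =>
      filter_upwards [h.loc0 a d (Or.inl ha), hgB, ev_pure hg4, ev_pure hch']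
        with i h1 h2 h3 h4 m hmd hx
      have he : Tendsto Prod.fst m _ := hmd ▸ (un_fst _ _).mono_left inf_le_left
      have hm := hmd ▸ hm2 d _
      refine h.crit0 (g := fun q => g q.1) (y := y d) hd h1 he
        (hm.mono fun q hq => ⟨by linarith [hq.1], by linarith [hq.2.1], hq.2.2.symm⟩)
        (h2.at he (hm.mono fun q hq => hq.2.1)) ?_ ?_ hx
      · filter_upwards [he.eventually h3, hm] with q h1 h2 using h1 _ h2.2.1
      · filter_upwards [he.eventually h4, hm] with q h1 h2 using h1 _ h2.2.1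

/-- **Gluing theorem.** -/
theorem GlH.glue [Fintype α] (h : GlH 𝒰 c ρ B) :
    ∃ (F : ι × ι → M → M) (f : α → ι × ι → E → E),
      (∀ a, ∀ᶠ p in (𝒰 : Filter ι) ×ˢ (𝒰 : Filter ι), ∀ x, ρ a x < 2 →
        ρ a (f a p x) < 4 ∧ F p (c a p.1 x) = c a p.2 (f a p x)) ∧
      (∀ a, UE ((𝒰 : Filter ι) ×ˢ (𝒰 : Filter ι)) (f a) (fun _ z => z) fun _ => lv (ρ a) 2) ∧
      (∀ a, ∀ᶠ i in (𝒰 : Filter ι), UB (pure i ×ˢ (𝒰 : Filter ι)) (f a) fun _ => lv (ρ a) 2) ∧
      ∀ a, ¬ B a → ∀ p x, f a p x = x := by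
  classical
  rcases isEmpty_or_nonempty α with hα | ⟨⟨a0⟩⟩
  · exact ⟨fun _ q => q, fun _ _ x => x, fun a => hα.elim a, fun a => hα.elim a,
      fun a => hα.elim a, fun a => hα.elim a⟩
  have key : ∀ s : Finset α, (∀ a ∈ s, B a) → ∀ r < (3 : ℝ), ∃ F : ι × ι → M → M,
      Gd 𝒰 c ρ B F (Wr c ρ (s ∪ Finset.univ.filter fun a => ¬ B a) r) ∧
      ∀ a, ¬ B a → ∀ᶠ p in (𝒰 : Filter ι) ×ˢ (𝒰 : Filter ι), ∀ z, ρ a z < r →
        F p (c a p.1 z) = c a p.2 z := by
    intro s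
    induction s using Finset.induction_on with
    | empty =>
      intro _ r hr
      obtain ⟨F, h1, h2⟩ := h.base a0 (r := r) (by linarith)
      exact ⟨F, by simpa using h1, fun a ha => (h2 a ha).mono fun p hp z hz => hp z (by linarith)⟩
    | insert a s _ ih =>
      intro hs r hr
      obtain ⟨F, h1, h2⟩ := ih (fun b hb => hs b (by simp [hb])) ((r + 3) / 2) (by linarith)
      obtain ⟨F', h3, h4⟩ := h.step (hs a (by simp)) (r := r) (by linarith) (by linarith) h1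
      refine ⟨F', by rwa [Finset.insert_union], fun b hb => ?_⟩
      filter_upwards [h2 b hb, h4] with p a1 a2 z hz
      rw [a2 _ ⟨b, by simp [hb], z, hz, rfl⟩, a1 z (by linarith)]
  obtain ⟨F, h1, h2⟩ := key (Finset.univ.filter B) (fun a ha => by simpa using ha) 2 (by norm_num)
  have hW : ∀ a i x, ρ a x < 2 →
      c a i x ∈ Wr c ρ (Finset.univ.filter B ∪ Finset.univ.filter fun a => ¬ B a) 2 i :=
    fun a i x hx => ⟨a, by by_cases h : B a <;> simp [h], x, hx, rfl⟩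
  refine ⟨F, fun a => if B a then rd c ρ F a else fun _ x => x, fun a => ?_, fun a => ?_,
    fun a => ?_, fun a ha p x => by simp [ha]⟩
  · by_cases ha : B a
    · filter_upwards [(h1 a ha).1] with p hp x hx
      have := invFunOn_pos (hp x (by linarith) (hW a _ x hx)).self_of_nhds
      simp only [if_pos ha]
      exact ⟨this.1, this.2.symm⟩
    · filter_upwards [h2 a ha] with p hp x hx
      simp only [if_neg ha]
      exact ⟨by linarith, hp x hx⟩
  · by_cases ha : B a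
    · simp only [if_pos ha]
      exact (h1 a ha).2.1.mono (Eventually.of_forall fun p x hx =>
        ⟨lt_trans hx (by norm_num), hW a _ x hx⟩)
    · simp only [if_neg ha]
      exact (GB.id ((h.dp a).bd ((un_mem _ _).mono fun q hq =>
        le_of_lt (lt_trans hq (by norm_num))))).ge
  · by_cases ha : B a
    · simp only [if_pos ha]
      exact (h1 a ha).2.2.mono fun i hi => hi.mono (Eventually.of_forall fun p x hx =>
        ⟨lt_trans hx (by norm_num), hW a _ x hx⟩)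
    · simp only [if_neg ha]
      exact Eventually.of_forall fun i => GB.id ((h.dp a).bd ((un_mem _ _).mono fun q hq =>
        le_of_lt (lt_trans hq (by norm_num))))

end Crest.Agent.N207.Jt

end
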