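import Mathlib

/-!
# Row 207, block I (helper24): jet calculus for pointed families of germs along a filter

`GB l f x`: `f j` is smooth at `x j`, all jets bounded along `l`.
`GE l f x g y`: both are `GB` and the jets of `f j` at `x j` and of `g j` at `y j` are
asymptotically equal.  Uniformity on sets `S j` is the filter `un l S` on pairs `(j, x)`.
-/

set_option autoImplicit false
open Set Filter Topology Function Metric Asymptotics
open scoped ContDiff

noncomputable section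

namespace Crest.Agent.N207.Jt

variable {ι κ X Y Z W : Type} [NormedAddCommGroup X] [NormedSpace ℝ X] [NormedAddCommGroup Y]
  [NormedSpace ℝ Y] [NormedAddCommGroup Z] [NormedSpace ℝ Z] [NormedAddCommGroup W]
  [NormedSpace ℝ W]

/-- smooth germs with bounded jets -/
structure GB (l : Filter ι) (f : ι → X → Y) (x : ι → X) : Prop where
  sm : ∀ᶠ j in l, ContDiffAt ℝ ∞ (f j) (x j)
  bd : ∀ k : ℕ, ∃ C : ℝ, ∀ᶠ j in l, ‖iteratedFDeriv ℝ k (f j) (x j)‖ ≤ C

/-- asymptotically equal jets -/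
structure GE (l : Filter ι) (f : ι → X → Y) (x : ι → X) (g : ι → X → Y) (y : ι → X) : Prop where
  left : GB l f x
  right : GB l g y
  lim : ∀ k : ℕ, Tendsto (fun j => iteratedFDeriv ℝ k (f j) (x j) - iteratedFDeriv ℝ k (g j) (y j))
    l (𝓝 0)

variable {l : Filter ι} {f f' f'' : ι → X → Y} {x x' x'' : ι → X}

theorem kle (k : ℕ) : (k : WithTop ℕ∞) ≤ ∞ := by exact_mod_cast le_top

theorem GB.ge (h : GB l f x) : GE l f x f x := ⟨h, h, fun k => by simpa using tendsto_const_nhds⟩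

theorem GE.symm (h : GE l f x f' x') : GE l f' x' f x :=
  ⟨h.right, h.left, fun k => by simpa using (h.lim k).neg⟩

theorem GE.trans (h : GE l f x f' x') (h' : GE l f' x' f'' x'') : GE l f x f'' x'' :=
  ⟨h.left, h'.right, fun k => by simpa using (h.lim k).add (h'.lim k)⟩

theorem GB.comap {m : Filter κ} {e : κ → ι} (h : GB l f x) (he : Tendsto e m l) :
    GB m (fun j => f (e j)) (fun j => x (e j)) :=
  ⟨he.eventually h.sm, fun k => (h.bd k).imp fun _ hC => he.eventually hC⟩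

theorem GE.comap {m : Filter κ} {e : κ → ι} (h : GE l f x f' x') (he : Tendsto e m l) :
    GE m (fun j => f (e j)) (fun j => x (e j)) (fun j => f' (e j)) (fun j => x' (e j)) :=
  ⟨h.left.comap he, h.right.comap he, fun k => (h.lim k).comp he⟩

theorem GB.mono {m : Filter ι} (h : GB l f x) (hm : m ≤ l) : GB m f x :=
  h.comap (e := id) hm

theorem GE.mono {m : Filter ι} (h : GE l f x f' x') (hm : m ≤ l) : GE m f x f' x' :=
  h.comap (e := id) hm

theorem GB.congr (h : GB l f x) (e : ∀ᶠ j in l, x' j = x j ∧ f' j =ᶠ[𝓝 (x j)] f j) :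
    GB l f' x' := by
  refine ⟨?_, fun k => ?_⟩
  · filter_upwards [h.sm, e] with j h1 h2
    rw [h2.1]; exact h1.congr_of_eventuallyEq h2.2
  · obtain ⟨C, hC⟩ := h.bd k
    refine ⟨C, ?_⟩
    filter_upwards [hC, e] with j h1 h2
    rw [h2.1, (h2.2.iteratedFDeriv ℝ k).eq_of_nhds]; exact h1

theorem GB.ge_congr (h : GB l f x) (e : ∀ᶠ j in l, x' j = x j ∧ f' j =ᶠ[𝓝 (x j)] f j) :
    GE l f' x' f x := by
  refine ⟨h.congr e, h, fun k => tendsto_const_nhds.congr' ?_⟩
  filter_upwards [e] with j h2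
  rw [h2.1, (h2.2.iteratedFDeriv ℝ k).eq_of_nhds, sub_self]

theorem GE.congr_left (h : GE l f x f'' x'') (e : ∀ᶠ j in l, x' j = x j ∧ f' j =ᶠ[𝓝 (x j)] f j) :
    GE l f' x' f'' x'' := (h.left.ge_congr e).trans h

theorem GE.congr_right (h : GE l f'' x'' f x)
    (e : ∀ᶠ j in l, x' j = x j ∧ f' j =ᶠ[𝓝 (x j)] f j) : GE l f'' x'' f' x' :=
  (h.symm.congr_left e).symm

theorem GB.val (h : GB l f x) : ∃ C : ℝ, ∀ᶠ j in l, ‖f j (x j)‖ ≤ C := by
  simpa [norm_iteratedFDeriv_zero] using h.bd 0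

theorem GE.val (h : GE l f x f' x') : Tendsto (fun j => f j (x j) - f' j (x' j)) l (𝓝 0) := by
  have := (h.lim 0).norm
  rw [norm_zero] at this
  refine tendsto_zero_iff_norm_tendsto_zero.2 (this.congr fun j => ?_)
  rw [iteratedFDeriv_zero_eq_comp, iteratedFDeriv_zero_eq_comp, comp_apply, comp_apply,
    ← map_sub, LinearIsometryEquiv.norm_map]

theorem GB.bu (h : GB l f x) (k : ℕ) :
    l.IsBoundedUnder (· ≤ ·) fun j => ‖ftaylorSeries ℝ (f j) (x j) k‖ := by
  obtain ⟨C, hC⟩ := h.bd k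
  exact ⟨C, hC⟩

theorem GB.comp {g : ι → Y → Z} (hg : GB l g fun j => f j (x j)) (hf : GB l f x) :
    GB l (fun j z => g j (f j z)) x := by
  refine ⟨?_, fun k => ?_⟩
  · filter_upwards [hg.sm, hf.sm] with j h1 h2 using h1.comp _ h2
  · have := FormalMultilinearSeries.taylorComp_sub_taylorComp_isBigO (l := l)
      (p₁ := fun j => ftaylorSeries ℝ (g j) (f j (x j))) (p₂ := fun _ => 0)
      (q₁ := fun j => ftaylorSeries ℝ (f j) (x j)) (q₂ := fun j => ftaylorSeries ℝ (f j) (x j))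
      (f := fun _ => (1 : ℝ)) (n := k) (fun i _ => hg.bu i)
      (fun i _ => by simpa using (hg.bu i).isBigO_one ℝ) (fun i _ => hf.bu i) (fun i _ => hf.bu i)
      (fun i _ => by simp only [sub_self]; exact isBigO_zero _ _)
    obtain ⟨C, hC⟩ := this.bound
    refine ⟨C, ?_⟩
    filter_upwards [hC, hg.sm, hf.sm] with j h0 h1 h2
    have e := iteratedFDeriv_comp h1 h2 (kle k)
    have z : (0 : FormalMultilinearSeries ℝ Y Z).taylorComp (ftaylorSeries ℝ (f j) (x j)) k = 0 := by
      simp only [FormalMultilinearSeries.taylorComp]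
      refine Finset.sum_eq_zero fun c _ => ?_
      ext v; simp
    rw [z, sub_zero, ← e] at h0
    simpa [Function.comp_def] using h0

theorem GE.comp {g g' : ι → Y → Z} (hg : GE l g (fun j => f j (x j)) g' fun j => f' j (x' j))
    (hf : GE l f x f' x') : GE l (fun j z => g j (f j z)) x (fun j z => g' j (f' j z)) x' := by
  refine ⟨hg.left.comp hf.left, hg.right.comp hf.right, fun k => ?_⟩
  have := FormalMultilinearSeries.taylorComp_sub_taylorComp_isLittleO (l := l)
    (p₁ := fun j => ftaylorSeries ℝ (g j) (f j (x j)))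
    (p₂ := fun j => ftaylorSeries ℝ (g' j) (f' j (x' j)))
    (q₁ := fun j => ftaylorSeries ℝ (f j) (x j)) (q₂ := fun j => ftaylorSeries ℝ (f' j) (x' j))
    (f := fun _ => (1 : ℝ)) (n := k) (fun i _ => hg.left.bu i)
    (fun i _ => (isLittleO_one_iff ℝ).2 (hg.lim i)) (fun i _ => hf.left.bu i)
    (fun i _ => hf.right.bu i) (fun i _ => (isLittleO_one_iff ℝ).2 (hf.lim i))
  refine ((isLittleO_one_iff ℝ).1 this).congr' ?_
  filter_upwards [hg.left.sm, hg.right.sm, hf.left.sm, hf.right.sm] with j h1 h2 h3 h4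
  rw [← iteratedFDeriv_comp h1 h3 (kle k), ← iteratedFDeriv_comp h2 h4 (kle k)]
  rfl

theorem GB.prodMk {g : ι → X → Z} (hf : GB l f x) (hg : GB l g x) :
    GB l (fun j z => (f j z, g j z)) x := by
  refine ⟨?_, fun k => ?_⟩
  · filter_upwards [hg.sm, hf.sm] with j h1 h2 using h2.prodMk h1
  · obtain ⟨C, hC⟩ := hf.bd k
    obtain ⟨D, hD⟩ := hg.bd k
    refine ⟨max C D, ?_⟩
    filter_upwards [hC, hD, hf.sm, hg.sm] with j h1 h2 h3 h4
    rw [iteratedFDeriv_prodMk h3 h4 (kle k), ContinuousMultilinearMap.opNorm_prod]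
    exact max_le_max h1 h2

theorem GE.prodMk {g g' : ι → X → Z} (hf : GE l f x f' x') (hg : GE l g x g' x') :
    GE l (fun j z => (f j z, g j z)) x (fun j z => (f' j z, g' j z)) x' := by
  refine ⟨hf.left.prodMk hg.left, hf.right.prodMk hg.right, fun k => ?_⟩
  have h := (hf.lim k).norm.max (hg.lim k).norm
  rw [norm_zero, norm_zero, max_self] at h
  refine tendsto_zero_iff_norm_tendsto_zero.2 (h.congr' ?_)
  filter_upwards [hf.left.sm, hg.left.sm, hf.right.sm, hg.right.sm] with j h1 h2 h3 h4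
  rw [iteratedFDeriv_prodMk h1 h2 (kle k), iteratedFDeriv_prodMk h3 h4 (kle k),
    ← ContinuousMultilinearMap.opNorm_prod]
  congr 1

/-- a fixed smooth function at points of a compact set -/
theorem GE.fixed {Φ : X → Y} {K : Set X} (hK : IsCompact K) (hΦ : ∀ z ∈ K, ContDiffAt ℝ ∞ Φ z)
    (hx : ∀ᶠ j in l, x j ∈ K) (hx' : ∀ᶠ j in l, x' j ∈ K)
    (h : Tendsto (fun j => x j - x' j) l (𝓝 0)) : GE l (fun _ => Φ) x (fun _ => Φ) x' := by
  have hc : ∀ k : ℕ, ContinuousOn (iteratedFDeriv ℝ k Φ) K := fun k z hz =>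
    ((hΦ z hz).continuousAt_iteratedFDeriv (kle k)).continuousWithinAt
  have hb : ∀ y : ι → X, (∀ᶠ j in l, y j ∈ K) → GB l (fun _ => Φ) y := fun y hy => by
    refine ⟨hy.mono fun j hj => hΦ _ hj, fun k => ?_⟩
    obtain ⟨C, hC⟩ := hK.exists_bound_of_continuousOn (hc k)
    exact ⟨C, hy.mono fun j hj => hC _ hj⟩
  refine ⟨hb x hx, hb x' hx', fun k => ?_⟩
  have hu := Metric.uniformContinuousOn_iff.1 (hK.uniformContinuousOn_of_continuous (hc k))
  refine Metric.tendsto_nhds.2 fun ε hε => ?_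
  obtain ⟨δ, hδ, hh⟩ := hu ε hε
  filter_upwards [hx, hx', Metric.tendsto_nhds.1 h δ hδ] with j h1 h2 h3
  rw [dist_zero_right, ← dist_eq_norm] at h3 ⊢
  exact hh _ h1 _ h2 h3

/-- post-composition with a fixed function, smooth near a compact set -/
theorem GE.smoothOn {Φ : Y → Z} {K : Set Y} (hK : IsCompact K) (hΦ : ∀ z ∈ K, ContDiffAt ℝ ∞ Φ z)
    (h : GE l f x f' x') (hx : ∀ᶠ j in l, f j (x j) ∈ K) (hx' : ∀ᶠ j in l, f' j (x' j) ∈ K) :
    GE l (fun j z => Φ (f j z)) x (fun j z => Φ (f' j z)) x' :=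
  (GE.fixed hK hΦ hx hx' h.val).comp h

theorem GB.smoothOn {Φ : Y → Z} {K : Set Y} (hK : IsCompact K) (hΦ : ∀ z ∈ K, ContDiffAt ℝ ∞ Φ z)
    (h : GB l f x) (hx : ∀ᶠ j in l, f j (x j) ∈ K) : GB l (fun j z => Φ (f j z)) x :=
  (h.ge.smoothOn hK hΦ hx hx).left

theorem GE.smooth [FiniteDimensional ℝ Y] {Φ : Y → Z} (hΦ : ContDiff ℝ ∞ Φ)
    (h : GE l f x f' x') : GE l (fun j z => Φ (f j z)) x (fun j z => Φ (f' j z)) x' := by
  have : ProperSpace Y := FiniteDimensional.proper_real Y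
  obtain ⟨C, hC⟩ := h.left.val
  obtain ⟨D, hD⟩ := h.right.val
  refine h.smoothOn (isCompact_closedBall 0 (max C D)) (fun z _ => hΦ.contDiffAt) ?_ ?_
  · exact hC.mono fun j hj => by simpa using Or.inl hj
  · exact hD.mono fun j hj => by simpa using Or.inr hj

theorem GB.smooth [FiniteDimensional ℝ Y] {Φ : Y → Z} (hΦ : ContDiff ℝ ∞ Φ) (h : GB l f x) :
    GB l (fun j z => Φ (f j z)) x := (h.ge.smooth hΦ).left

/-- constants -/
theorem GE.const {c c' : ι → Y} (hc : ∃ C : ℝ, ∀ᶠ j in l, ‖c j‖ ≤ C)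
    (h : Tendsto (fun j => c j - c' j) l (𝓝 0)) :
    GE l (fun j _ => c j) x (fun j _ => c' j) x' := by
  have hb : ∀ (c : ι → Y) (y : ι → X), (∃ C : ℝ, ∀ᶠ j in l, ‖c j‖ ≤ C) →
      GB l (fun j _ => c j) y := fun c y ⟨C, hC⟩ => by
    refine ⟨Eventually.of_forall fun j => contDiffAt_const, fun k => ?_⟩
    rcases eq_or_ne k 0 with rfl | hk
    · exact ⟨C, by simpa [norm_iteratedFDeriv_zero] using hC⟩
    · exact ⟨0, Eventually.of_forall fun j => by simp [iteratedFDeriv_const_of_ne hk]⟩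
  refine ⟨hb c x hc, hb c' x' ?_, fun k => ?_⟩
  · obtain ⟨C, hC⟩ := hc
    refine ⟨C + 1, ?_⟩
    filter_upwards [hC, Metric.tendsto_nhds.1 h 1 one_pos] with j h1 h2
    rw [dist_zero_right] at h2
    have := norm_sub_le (c j) (c j - c' j)
    rw [sub_sub_cancel] at this
    linarith
  · rcases eq_or_ne k 0 with rfl | hk
    · refine tendsto_zero_iff_norm_tendsto_zero.2
        ((tendsto_zero_iff_norm_tendsto_zero.1 h).congr fun j => ?_)
      rw [iteratedFDeriv_zero_eq_comp, iteratedFDeriv_zero_eq_comp, comp_apply, comp_apply,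
        ← map_sub, LinearIsometryEquiv.norm_map]
    · simpa [iteratedFDeriv_const_of_ne hk] using tendsto_const_nhds

theorem GB.const {c : ι → Y} (hc : ∃ C : ℝ, ∀ᶠ j in l, ‖c j‖ ≤ C) : GB l (fun j _ => c j) x :=
  (GE.const (x' := x) hc (c' := c) (by simpa using tendsto_const_nhds)).left

theorem GE.const' (c : Y) : GE l (fun _ _ => c) x (fun _ _ => c) x' :=
  GE.const ⟨‖c‖, Eventually.of_forall fun _ => le_rfl⟩ (by simpa using tendsto_const_nhds)

theorem GB.const' (c : Y) : GB l (fun _ _ => c) x := (GE.const' (x' := x) c).left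

/-- the identity -/
theorem GE.id [FiniteDimensional ℝ X] (hx : ∃ C : ℝ, ∀ᶠ j in l, ‖x j‖ ≤ C)
    (h : Tendsto (fun j => x j - x' j) l (𝓝 0)) : GE l (fun _ z => z) x (fun _ z => z) x' := by
  have : ProperSpace X := FiniteDimensional.proper_real X
  obtain ⟨C, hC⟩ := hx
  refine GE.fixed (isCompact_closedBall 0 (C + 1)) (fun z _ => contDiffAt_id) ?_ ?_ h
  · exact hC.mono fun j hj => by rw [mem_closedBall_zero_iff]; linarith
  · filter_upwards [hC, Metric.tendsto_nhds.1 h 1 one_pos] with j h1 h2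
    rw [dist_zero_right] at h2
    have := norm_sub_le (x j) (x j - x' j)
    rw [sub_sub_cancel] at this
    rw [mem_closedBall_zero_iff]; linarith

theorem GB.id [FiniteDimensional ℝ X] (hx : ∃ C : ℝ, ∀ᶠ j in l, ‖x j‖ ≤ C) :
    GB l (fun _ z => z) x := (GE.id (x' := x) hx (by simpa using tendsto_const_nhds)).left

theorem GB.fderiv (h : GB l f x) : GB l (fun j => fderiv ℝ (f j)) x :=
  ⟨h.sm.mono fun _ hj => hj.fderiv_right (m := ∞) (by simp), fun k => by
    simpa only [norm_iteratedFDeriv_fderiv] using h.bd (k + 1)⟩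

theorem GE.fderiv (h : GE l f x f' x') :
    GE l (fun j => fderiv ℝ (f j)) x (fun j => fderiv ℝ (f' j)) x' := by
  refine ⟨h.left.fderiv, h.right.fderiv, fun k => ?_⟩
  refine tendsto_zero_iff_norm_tendsto_zero.2
    ((tendsto_zero_iff_norm_tendsto_zero.1 (h.lim (k + 1))).congr fun j => ?_)
  rw [iteratedFDeriv_succ_eq_comp_right, iteratedFDeriv_succ_eq_comp_right, comp_apply,
    comp_apply, ← dist_eq_norm, ← dist_eq_norm, LinearIsometryEquiv.dist_map]

section fd

variable [FiniteDimensional ℝ Y] [FiniteDimensional ℝ Z] {g g' : ι → X → Y}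

theorem GE.add (h : GE l f x f' x') (h' : GE l g x g' x') :
    GE l (fun j z => f j z + g j z) x (fun j z => f' j z + g' j z) x' :=
  (h.prodMk h').smooth (Φ := fun p : Y × Y => p.1 + p.2) (by fun_prop)

theorem GE.sub (h : GE l f x f' x') (h' : GE l g x g' x') :
    GE l (fun j z => f j z - g j z) x (fun j z => f' j z - g' j z) x' :=
  (h.prodMk h').smooth (Φ := fun p : Y × Y => p.1 - p.2) (by fun_prop)

theorem GE.smul {u u' : ι → X → ℝ} (h : GE l u x u' x') (h' : GE l g x g' x') :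
    GE l (fun j z => u j z • g j z) x (fun j z => u' j z • g' j z) x' :=
  (h.prodMk h').smooth (Φ := fun p : ℝ × Y => p.1 • p.2) (by fun_prop)

theorem GE.mul {u u' v v' : ι → X → ℝ} (h : GE l u x u' x') (h' : GE l v x v' x') :
    GE l (fun j z => u j z * v j z) x (fun j z => u' j z * v' j z) x' := h.smul h'

theorem GE.sum {α : Type} (s : Finset α) {w w' : α → ι → X → Y}
    (h : ∀ a ∈ s, GE l (w a) x (w' a) x') :
    GE l (fun j z => ∑ a ∈ s, w a j z) x (fun j z => ∑ a ∈ s, w' a j z) x' := by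
  classical
  induction s using Finset.induction_on with
  | empty => simpa using GE.const' (0 : Y)
  | insert a s ha ih =>
    simpa [Finset.sum_insert ha] using (h a (by simp)).add (ih fun b hb => h b (by simp [hb]))

theorem GE.prod {α : Type} (s : Finset α) {w w' : α → ι → X → ℝ}
    (h : ∀ a ∈ s, GE l (w a) x (w' a) x') :
    GE l (fun j z => ∏ a ∈ s, w a j z) x (fun j z => ∏ a ∈ s, w' a j z) x' := by
  classical
  induction s using Finset.induction_on with
  | empty => simpa using GE.const' (1 : ℝ)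
  | insert a s ha ih =>
    simpa [Finset.prod_insert ha] using (h a (by simp)).mul (ih fun b hb => h b (by simp [hb]))

theorem GE.clm (L : Y →L[ℝ] W) (h : GE l f x f' x') :
    GE l (fun j z => L (f j z)) x (fun j z => L (f' j z)) x' := h.smooth L.contDiff

theorem GE.app {A A' : ι → X → Y →L[ℝ] Z} (h : GE l A x A' x') (h' : GE l g x g' x') :
    GE l (fun j z => A j z (g j z)) x (fun j z => A' j z (g' j z)) x' :=
  (h.prodMk h').smooth (Φ := fun p : (Y →L[ℝ] Z) × Y => p.1 p.2) (by fun_prop)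

theorem GB.add (h : GB l f x) (h' : GB l g x) : GB l (fun j z => f j z + g j z) x :=
  (h.ge.add h'.ge).left

theorem GB.sub (h : GB l f x) (h' : GB l g x) : GB l (fun j z => f j z - g j z) x :=
  (h.ge.sub h'.ge).left

theorem GB.smul {u : ι → X → ℝ} (h : GB l u x) (h' : GB l g x) :
    GB l (fun j z => u j z • g j z) x := (h.ge.smul h'.ge).left

theorem GB.mul {u v : ι → X → ℝ} (h : GB l u x) (h' : GB l v x) :
    GB l (fun j z => u j z * v j z) x := h.smul h'

theorem GB.sum {α : Type} (s : Finset α) {w : α → ι → X → Y} (h : ∀ a ∈ s, GB l (w a) x) :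
    GB l (fun j z => ∑ a ∈ s, w a j z) x := (GE.sum s fun a ha => (h a ha).ge).left

theorem GB.prod {α : Type} (s : Finset α) {w : α → ι → X → ℝ} (h : ∀ a ∈ s, GB l (w a) x) :
    GB l (fun j z => ∏ a ∈ s, w a j z) x := (GE.prod s fun a ha => (h a ha).ge).left

theorem GB.clm (L : Y →L[ℝ] W) (h : GB l f x) : GB l (fun j z => L (f j z)) x :=
  (h.ge.clm L).left

theorem GB.app {A : ι → X → Y →L[ℝ] Z} (h : GB l A x) (h' : GB l g x) :
    GB l (fun j z => A j z (g j z)) x := (h.ge.app h'.ge).left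

end fd

end Crest.Agent.N207.Jt

end
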