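import Crest.Agent.N207.Sk.Dyn2
import Crest.Agent.N207.Rad.Crd
import Crest.Agent.N207.V.Area
import Crest.Agent.N207.AI.Par2

/-!
# Row 207, block I (helper65): the Ricci mass inside an admissible extension
-/

set_option autoImplicit false
set_option linter.unusedSectionVars false

open scoped ContDiff Manifold Topology ENNReal
open Set Filter MeasureTheory
open Crest.GeometryTopology.CoordMetric
open Crest.Agent.N207.Sk

noncomputable section

namespace Crest.Agent.N207.I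

theorem jg_sqrt_det {m : ℕ} {G : MetricField 4} {x : E4} {s η : ℝ} (h : JG m G x s η)
    (hη : η ≤ 1 / 100) : √(G x).det ≤ 20 := by
  have h1 := Matrix.det_le (abv := AbsoluteValue.abs) (A := G x) (x := 2)
    fun i j => Rad.jg_ent_le h hη i j
  rw [Real.sqrt_le_left (by norm_num)]
  have h2 : |(G x).det| ≤ 384 := by
    refine le_trans h1 ?_
    simp [Nat.factorial]; norm_num
  linarith [le_abs_self (G x).det]

theorem sum_two (B : Arr 4 2) : ∑ I, B I ^ 2 = ∑ i, ∑ j, B ![i, j] ^ 2 := by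
  rw [← (piFinTwoEquiv fun _ => Fin 4).symm.sum_comp, Fintype.sum_prod_type]
  rfl

theorem jg_nsq_ric {m : ℕ} {G : MetricField 4} {x : E4} {s η : ℝ} (h : JG m G x s η)
    (hη : η ≤ 1 / 100) (hp : (G x).PosDef) :
    nsq G (ricT G) x ≤ 4 * ∑ i, ∑ j, ricci G x i j ^ 2 := by
  have h1 := Ar.ipA_le_sum_sq hp two_pos.le (Rad.jg_low h hη) (ricT G x)
  rw [sum_two] at h1
  exact h1.trans_eq (by norm_num; rfl)

variable {M : Type*} [TopologicalSpace M] [ChartedSpace E4 M] [IsManifold 𝓘(ℝ, E4) ∞ M]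
  [T3Space M] [ConnectedSpace M] [MeasurableSpace M] [BorelSpace M] [CompactSpace M]

theorem rc_nonneg (g : Met 4 M) (j : ℕ) (p : M) : 0 ≤ g.rc j p :=
  Ar.ipA_nonneg ((g.isRiem p).posDef _ (V.ctr_mem p)) _

/-- the mass in the shell -/
theorem mass_shell {g : Met 4 M} {N : Nk M} {G : MetricField 4} {ρ e y η W : ℝ} {Cs : ℕ → ℝ}
    (h : Ext' g N G ρ e y η Cs W) (hη : η ≤ 1 / 100) :
    ∫⁻ p in N.Ψ '' shell N.a N.b, ENNReal.ofReal (g.rc 0 p) ∂g.vol ≤
      ENNReal.ofReal (81920 * e ^ 2) := by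
  have hP := h.top.par
  have a0 : 0 < ρ / 32 := h.a_eq ▸ h.top.a_pos
  have ρ0 : 0 < ρ := by linarith
  have sub : shell N.a N.b ⊆ {x | ρ / 32 < ‖x‖} := fun x hx => h.a_eq ▸ hx.1
  refine (V.lintegral_par_le hP g Subset.rfl hP.isOpen.measurableSet _).trans ?_
  calc _ ≤ ∫⁻ x in shell N.a N.b, ENNReal.ofReal
        (81920 / ρ ^ 2 * (‖x‖ ^ 2 * ∑ i, ∑ j, ricci G x i j ^ 2)) := by
        refine setLIntegral_mono' hP.isOpen.measurableSet fun x hx => ?_
        rw [← ENNReal.ofReal_mul (V.pdens_nonneg g _ x)]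
        refine ENNReal.ofReal_le_ofReal ?_
        have hx' : ρ / 32 < ‖x‖ := sub hx
        have ev : g.pm N.Ψ =ᶠ[𝓝 x] G := by
          filter_upwards [hP.isOpen.mem_nhds hx] with z hz using (h.eq z hz).symm
        have w : η * √(ρ / 32 / ‖x‖) ≤ 1 / 100 := by
          have : √(ρ / 32 / ‖x‖) ≤ 1 :=
            Real.sqrt_le_one.2 ((div_le_one (a0.trans hx')).2 hx'.le)
          nlinarith [Real.sqrt_nonneg (ρ / 32 / ‖x‖)]
        have e1 : g.rc 0 (N.Ψ x) = nsq G (ricT G) x := by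
          rw [hP.par_rc g 0 hx]
          show ipA (g.pm N.Ψ x)⁻¹ (ricT (g.pm N.Ψ) x) (ricT (g.pm N.Ψ) x) =
            ipA (G x)⁻¹ (ricT G x) (ricT G x)
          rw [(AI.ricT_congr ev).eq_of_nhds, ev.eq_of_nhds]
        have k1 := jg_sqrt_det (h.jet x hx') w
        have k2 := jg_nsq_ric (h.jet x hx') w (h.riem.posDef x hx')
        rw [V.pdens, ev.eq_of_nhds]
        have k3 : (1 : ℝ) ≤ 1024 / ρ ^ 2 * ‖x‖ ^ 2 := by
          rw [div_mul_eq_mul_div, le_div_iff₀ (by positivity)]; nlinarith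
        have s0 : 0 ≤ ∑ i, ∑ j, ricci G x i j ^ 2 := by positivity
        calc _ ≤ 20 * (4 * ∑ i, ∑ j, ricci G x i j ^ 2) :=
              mul_le_mul k1 (e1.trans_le k2) (rc_nonneg g 0 _) (by norm_num)
          _ ≤ 80 * (1024 / ρ ^ 2 * ‖x‖ ^ 2 * ∑ i, ∑ j, ricci G x i j ^ 2) := by
              nlinarith [mul_le_mul_of_nonneg_right k3 s0]
          _ = _ := by ring
    _ ≤ ∫⁻ x in {x : E4 | ρ / 32 < ‖x‖}, ENNReal.ofReal
        (81920 / ρ ^ 2 * (‖x‖ ^ 2 * ∑ i, ∑ j, ricci G x i j ^ 2)) := lintegral_mono_set sub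
    _ = ENNReal.ofReal (81920 / ρ ^ 2 *
          ∫ x in {x : E4 | ρ / 32 < ‖x‖}, ‖x‖ ^ 2 * ∑ i, ∑ j, ricci G x i j ^ 2) := by
        rw [← integral_const_mul, ofReal_integral_eq_lintegral_ofReal (h.ric_int.const_mul _)
          (Eventually.of_forall fun x => by positivity)]
    _ ≤ _ := by
        refine ENNReal.ofReal_le_ofReal ((mul_le_mul_of_nonneg_left h.ric (by positivity)).trans_eq ?_)
        field_simp

theorem lintegral_rc (g : Met 4 M) (j : ℕ) (S : Set M) :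
    ∫⁻ p in S, ENNReal.ofReal (g.rc j p) ∂g.vol = ENNReal.ofReal (∫ p in S, g.rc j p ∂g.vol) :=
  (ofReal_integral_eq_lintegral_ofReal (V.integrable_cont g (g.sm_rc j).continuous).integrableOn
    (Eventually.of_forall fun p => rc_nonneg g j p)).symm

/-- **MASS** -/
theorem mass_le {g : Met 4 M} {N : Nk M} {G : MetricField 4} {ρ e y η W : ℝ} {Cs : ℕ → ℝ}
    (h : Ext' g N G ρ e y η Cs W) (hη : η ≤ 1 / 100) :
    ∫⁻ p in N.Om N.b, ENNReal.ofReal (g.rc 0 p) ∂g.vol ≤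
      ENNReal.ofReal (y ^ 2 + 81920 * e ^ 2) := by
  refine (lintegral_union_le _ _ _).trans ?_
  rw [ENNReal.ofReal_add (sq_nonneg y) (by positivity)]
  refine add_le_add ?_ (mass_shell h hη)
  rw [lintegral_rc]
  exact ENNReal.ofReal_le_ofReal h.mass

theorem mass_le' {g : Met 4 M} {N : Nk M} {G : MetricField 4} {ρ e y η W : ℝ} {Cs : ℕ → ℝ}
    (h : Ext' g N G ρ e y η Cs W) (hη : η ≤ 1 / 100) :
    mass g (N.Om N.b) ≤ y ^ 2 + 81920 * e ^ 2 := by
  have := mass_le h hη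
  rwa [lintegral_rc, ENNReal.ofReal_le_ofReal_iff (by positivity)] at this

end Crest.Agent.N207.I

end
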