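import Crest.Agent.N207.I.Pre

/-!
# Row 207, block I (helper24): the glued metrics on `glob L`
-/

set_option autoImplicit false
open Set Filter Topology Function Metric
open scoped ContDiff Manifold
open Crest.GeometryTopology.CoordMetric
open Crest.Agent.R202.Tens

noncomputable section

namespace Crest.Agent.N207.I

open Jt

namespace TD

variable {M : Type*} {T : TD M}

theorem base_open (v : T.V) (s : T.S) : IsOpen ((T.base v).U s) := by
  have : ∀ a b : ℝ, IsOpen {x : E4 | a < ‖x‖ ∧ ‖x‖ < b} := fun a b =>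
    (isOpen_lt continuous_const continuous_norm).inter (isOpen_lt continuous_norm continuous_const)
  cases s <;> simp only [base, bU, Sum.elim_inl, Sum.elim_inr] <;> split_ifs <;>
    first | exact isOpen_ball | exact isOpen_empty | exact this _ _

theorem base_norm {v : T.V} {s : T.S} {x y : E4} (e : ‖x‖ = ‖y‖) (hx : x ∈ (T.base v).U s) :
    y ∈ (T.base v).U s := by
  cases s with
  | inl a => rwa [mem_base_inl, ← e, ← mem_base_inl]
  | inr w =>
    by_cases hw : w = v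
    · subst hw; rwa [mem_base_out, ← e, ← mem_base_out]
    · rwa [mem_base_inn hw, ← e, ← mem_base_inn hw]

theorem base_ne (hr : 0 < T.r) {v w : T.V} {x : E4} (hx : x ∈ (T.base v).U (Sum.inr w)) :
    x ≠ 0 := by
  rintro rfl
  by_cases hw : w = v
  · subst hw; norm_num [mem_base_out] at hx
  · have := ((mem_base_inn hw).1 hx).2.1
    rw [norm_zero] at this; linarith

variable [TopologicalSpace M] [ChartedSpace E4 M] [IsManifold 𝓘(ℝ, E4) ∞ M] [T3Space M]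
  [ConnectedSpace M]

/-- the metric on `glob L` given by charts `ψ`, `Ψ` that are glued like the charts of `T` -/
theorem Ok.isMet_glob (h : T.Ok) {L : T.V → ℝ} (hL : T.Long L) (m : Met 4 M) {ψ : T.B → E4 → M}
    {Ψ : T.V → E4 → M} {F : T.V → M → M} (hF : ∀ v s, ∀ x ∈ (T.base v).U s,
      F v ((T.base v).c s x) = ((T.inst ψ Ψ L).base v).c s x)
    (hψ : ∀ a, Par (ψ a) (ball 0 2)) (hΨ : ∀ w, Par (Ψ w) (T.nk L w)) {Gn : T.V → MetricField 4}
    (riem : ∀ w, IsRiemannianOn (Gn w) ((T.glob L).U (Sum.inr w)))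
    (inv : ∀ w, ∀ γ ∈ T.Γ w, ∀ x ∈ (T.glob L).U (Sum.inr w),
      matT (Gn w) x = pullT γ (matT (Gn w)) x)
    (eq : ∀ w, ∀ x ∈ (T.glob L).U (Sum.inr w), x ∈ T.nk L w → Gn w x = m.pm (Ψ w) x) :
    (T.glob L).IsMet (Sum.elim (fun a => m.pm (ψ a)) Gn) := by
  have hA := h.str_glob hL
  have key : ∀ v s x, sc (lm L) s v • x ∈ (T.base v).U s →
      F v ((T.base v).c s (sc (lm L) s v • x)) = Sum.elim ψ Ψ s x ∧
      MDifferentiableAt 𝓘(ℝ, E4) 𝓘(ℝ, E4) (Sum.elim ψ Ψ s) x ∧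
      Sum.elim (fun a => m.pm (ψ a)) Gn s x = m.pm (Sum.elim ψ Ψ s) x := fun v s x hx => by
    rw [hF v s _ hx]
    cases s with
    | inl a =>
      simp only [sc, Sum.elim_inl, one_smul] at hx ⊢
      exact ⟨rfl, Gs.par_md (hψ a) (by simpa using (mem_base_inl.1 hx).2), trivial⟩
    | inr w =>
      have e : (if w = v then 1 else Real.exp (L w)) • sc (lm L) (Sum.inr w) v • x = x := by
        simp only [sc, lm, Sum.elim_inr, smul_smul]
        split_ifs <;> simp [← Real.exp_add]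
      have h1 : x ∈ T.nk L w := e ▸ bO_inr hL (base_sub h.r_pos v _ hx)
      exact ⟨by rw [inst_c, e]; rfl, Gs.par_md (hΨ w) h1, eq w x (hA.conv' trivial hx).1 h1⟩
  refine ⟨fun s => ?_, fun a b x Φ hΦ => ?_⟩
  · cases s with
    | inl a => exact Gs.par_riem m (hψ a)
    | inr w => exact riem w
  have hs := hΦ.sm.self_of_nhds
  rcases hA.rel hΦ.mem hΦ.mem' hΦ.eq.self_of_nhds.symm with ⟨v, -, h1, h2, -⟩ | ⟨rfl, γ, hγ, e⟩
  · have e1 : matT (Sum.elim (fun a => m.pm (ψ a)) Gn a) x = matT (m.pm (Sum.elim ψ Ψ a)) x := by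
      funext I; simp only [matT, (key v a x h1).2.2]
    have e2 : matT (Sum.elim (fun a => m.pm (ψ a)) Gn b) (Φ x) =
        matT (m.pm (Sum.elim ψ Ψ b)) (Φ x) := by
      funext I; simp only [matT, (key v b _ h2).2.2]
    refine e1.trans (Eq.trans ?_ (AI.pullT_congr EventuallyEq.rfl e2).symm)
    refine matT_pm m (key v b _ h2).2.1 (hs.differentiableAt (by simp)) ?_
    filter_upwards [hA.conv_ev h trivial h1, hs.continuousAt.eventually (hA.conv_ev h trivial h2),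
      hΦ.eq] with z a1 a2 a3
    rw [a1.2, a2.2] at a3
    rw [← (key v a z a1.1).1, ← (key v b _ a2.1).1, (Prod.mk.inj (Sum.inl.inj a3)).2]
  · rw [AI.pullT_congr ((h.glob_ok hL).tr_eq_iso hΦ hγ e) rfl]
    cases a with
    | inl a =>
      obtain rfl : γ = 1 := hγ
      exact matT_pm m (Gs.par_md (hψ a) hΦ.mem) (by fun_prop) EventuallyEq.rfl
    | inr w => exact inv w γ hγ x hΦ.mem

omit [T3Space M] [ConnectedSpace M] in
/-- the neck metrics are invariant -/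
theorem pm_inv (m : Met 4 M) {Ψ : E4 → M} {U : Set E4} (h : Par Ψ U) {γ : Iso4}
    (hγ : ∀ x ∈ U, γ x ∈ U ∧ Ψ (γ x) = Ψ x) {x : E4} (hx : x ∈ U) :
    matT (m.pm Ψ) x = pullT γ (matT (m.pm Ψ)) x :=
  matT_pm m (Gs.par_md h (hγ x hx).1) (by fun_prop)
    (mem_of_superset (h.isOpen.mem_nhds hx) fun z hz => (hγ z hz).2.symm)

variable {ι : Type} {l : Filter ι} {g : ι → Met 4 M} {φ : ι → T.B → E4 → M}
  {Ψ : ι → T.V → E4 → M} {L : ι → T.V → ℝ}

omit [ConnectedSpace M] in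
theorem Pre.base_ok (h : T.Pre l g φ Ψ L) (fin : ∀ v, Finite (T.Γ v))
    (free : ∀ v, ∀ γ ∈ T.Γ v, ∀ x : E4, x ≠ 0 → γ x = x → γ = 1) (v : T.V) :
    ∀ᶠ i in l, ((T.inst (φ i) (Ψ i) (L i)).base v).Ok := by
  filter_upwards [eventually_all.2 (h.par v), eventually_all.2 (h.fibN v),
    eventually_all.2 (h.injB v)] with i h1 h2 h3
  have hs := base_sub h.r_pos v
  have h4 := fun s => Gs.par_mono (h1 s) (base_open v s) (hs s)
  refine ⟨base_open v, fun s => ?_, fun s γ _ x hx => base_norm (γ.norm_map x).symm hx,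
    fun s γ hγ x hx e => ?_, fun s x hx y hy => ?_, fun a b x hx y hy e => ?_,
    fun a b x hx y hy e => ?_⟩
  · cases s with
    | inl a => exact inferInstanceAs (Finite (⊥ : Subgroup Iso4))
    | inr w => exact fin w
  · cases s with
    | inl a => exact hγ
    | inr w => exact free w γ hγ x (base_ne (T := T) h.r_pos hx) e
  · cases s with
    | inl a =>
      refine ⟨fun e => ⟨1, one_mem _, h3 a (hs _ hx) (hs _ hy) e⟩, ?_⟩
      rintro ⟨γ, hγ, rfl⟩
      obtain rfl : γ = 1 := hγ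
      rfl
    | inr w => exact h2 w x (hs _ hx) y (hs _ hy)
  · obtain ⟨Φ, V, hV, hxV, -, hΦ, hsm, hm⟩ := Gs.exists_trans0 (h4 a) (h4 b) hx hy e.symm
    exact ⟨Φ, ⟨hx, hΦ ▸ hy, (hV.eventually_mem hxV).mono fun z hz => hsm.contDiffAt (hV.mem_nhds hz),
      (hV.eventually_mem hxV).mono fun z hz => (hm z hz).2⟩, hΦ⟩
  · have c1 := (Gs.par_at (h4 a) hx).continuousAt.comp (f := Prod.fst) (x := (x, y))
      continuousAt_fst
    have c2 := (Gs.par_at (h4 b) hy).continuousAt.comp (f := Prod.snd) (x := (x, y))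
      continuousAt_snd
    exact (c1.ne_iff_eventually_ne c2).1 e

omit [ConnectedSpace M] in
/-- `T.Ok` at almost every index -/
theorem Pre.ok (h : T.Pre l g φ Ψ L) (dep_root : T.dep T.root = 0) (r_lt : T.r < 1)
    (fin : ∀ v, Finite (T.Γ v)) (ne_bot : ∀ v, T.Γ v ≠ ⊥)
    (free : ∀ v, ∀ γ ∈ T.Γ v, ∀ x : E4, x ≠ 0 → γ x = x → γ = 1)
    (sepo : ∀ a, ∀ᶠ i in l, ∀ x ∈ ball (0 : E4) 2, ∀ y : E4, 1 < ‖y‖ → ‖y‖ < 4 →
      φ i a x = Ψ i (T.vx a) y → ‖y‖ < 3)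
    (sepi : ∀ a w, T.kid (T.vx a) w → ∀ᶠ i in l, ∀ x ∈ ball (0 : E4) 2, ∀ y : E4, T.r / 4 < ‖y‖ →
      ‖y‖ < T.r → φ i a x = Ψ i w (Real.exp (L i w) • y) → T.r / 3 < ‖y‖)
    (cover : ∀ v s, ∀ᶠ i in l, ∀ x ∈ (T.base v).U s,
      (∃ b, T.vx b = v ∧ ∃ y ∈ ball (0 : E4) 1,
        φ i b y = ((T.inst (φ i) (Ψ i) (L i)).base v).c s x) ∨
      (∃ y : E4, 2 ≤ ‖y‖ ∧ ‖y‖ < 4 ∧ Ψ i v y = ((T.inst (φ i) (Ψ i) (L i)).base v).c s x) ∨
      ∃ w, T.kid v w ∧ ∃ y : E4, T.r / 4 < ‖y‖ ∧ ‖y‖ ≤ T.r / 2 ∧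
        Ψ i w (Real.exp (L i w) • y) = ((T.inst (φ i) (Ψ i) (L i)).base v).c s x) :
    ∀ᶠ i in l, (T.inst (φ i) (Ψ i) (L i)).Ok := by
  filter_upwards [eventually_all.2 (h.base_ok fin free), eventually_all.2 sepo,
    eventually_all.2 fun a => eventually_all.2 fun w => eventually_imp_distrib_left.2 (sepi a w),
    eventually_all.2 fun v => eventually_all.2 fun w => eventually_all.2 fun w' =>
      eventually_imp_distrib_left.2 (h.disj v w w'),
    eventually_all.2 fun v => eventually_all.2 (cover v)] with i h1 h2 h3 h4 h5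
  exact ⟨dep_root, h.dep_par, h.r_pos, r_lt, fin, ne_bot, free, h1, h2, h3,
    fun v w w' hw x hx y hy => h4 v w w' hw x (base_sub h.r_pos v _ hx) y (base_sub h.r_pos v _ hy),
    h5⟩

/-- **the gluing on trees** -/
theorem Pre.fix {𝒰 : Ultrafilter ι} (h : T.Pre 𝒰 g φ Ψ L) {δ : ℝ} (hδ : 0 < δ) :
    ∀ᶠ i0 in (𝒰 : Filter ι), ∃ (F : ι → T.V → M → M) (f : ι → T.B → E4 → E4),
      (∀ᶠ i in (𝒰 : Filter ι), ∀ a, Par (fun x => φ i a (f i a x)) (ball 0 2) ∧
        InjOn (fun x => φ i a (f i a x)) (ball 0 2) ∧ ∀ x ∈ ball (0 : E4) 2,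
          ContDiffAt ℝ ∞ (f i a) x ∧ ‖f i a x - x‖ ≤ δ ∧
          ‖fderiv ℝ (f i a) x - ContinuousLinearMap.id ℝ E4‖ ≤ δ) ∧
      (∀ a, MU (𝒰 : Filter ι) (fun i y => (T.eps (L i) (T.vx a) ^ 2)⁻¹ •
        (g i).pm (fun x => φ i a (f i a x)) y) fun _ => ball 0 2) ∧
      ∀ᶠ i in (𝒰 : Filter ι), ∀ v s, ∀ x ∈ (T.base v).U s,
        F i v (((T.inst (φ i0) (Ψ i0) (L i0)).base v).c s x) =
          ((T.inst (fun a x => φ i a (f i a x)) (Ψ i) (L i)).base v).c s x := by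
  filter_upwards [eventually_all.2 fun v => (h.geo v).fix hδ] with i0 h0
  choose F f h1 h2 h3 using h0
  have hb : ∀ a, lv (T.bρ (T.vx a) (Sum.inl a)) 2 = ball 0 2 := fun a => by
    ext x; simp [lv, bρ, rB_two]
  refine ⟨fun i v => F v i, fun i a => f (T.vx a) (Sum.inl a) i, eventually_all.2 fun a => ?_,
    fun a => ?_, eventually_all.2 fun v => eventually_all.2 fun s => ?_⟩
  · filter_upwards [h1 (T.vx a) (Sum.inl a)] with i hi
    rw [hb] at hi
    refine ⟨hi.1, hi.2.1 rfl (convex_ball _ _), fun x hx => ?_⟩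
    obtain ⟨a1, -, a2⟩ := hi.2.2 x (show x ∈ lv _ 2 from hb a ▸ hx)
    exact ⟨a1, a2⟩
  · have := h2 (T.vx a) (Sum.inl a)
    simp only [hb, un', Met.scale_pm] at this
    exact this
  · filter_upwards [h1 v s] with i hi x hx
    rw [(hi.2.2 x ((bρ_dp h.r_pos v s).2.2.1 hx)).2.1]
    cases s with
    | inl a => obtain rfl := (mem_base_inl.1 hx).1; rfl
    | inr w => rw [h3 v (Sum.inr w) (by simp)]; rfl

end TD

end Crest.Agent.N207.I

end
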