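import Mathlib

/-! # Block I: finitely many scales along an ultrafilter form a chain -/

namespace Crest.Agent.N207.I

open Filter Topology

/-- A total preorder on a finite nonempty type is the pull-back of an initial segment of `ℕ`. -/
theorem rank {κ : Type*} [Finite κ] [Nonempty κ] (r : κ → κ → Prop) (hr : ∀ k, r k k)
    (ht : ∀ k l m, r k l → r l m → r k m) (htot : ∀ k l, r k l ∨ r l k) :
    ∃ (D : ℕ) (dep : κ → ℕ) (rep : ℕ → κ), (∀ k, dep k ≤ D) ∧ (∀ j ≤ D, dep (rep j) = j) ∧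
      ∀ k l, r k l ↔ dep k ≤ dep l := by
  classical
  letI : Preorder κ := { le := r, le_refl := hr, le_trans := ht }
  haveI : Std.Total (α := κ) (· ≤ ·) := ⟨htot⟩
  let A := Antisymmetrization κ (· ≤ ·)
  haveI : Finite A := Quotient.finite _
  letI : Fintype A := Fintype.ofFinite A
  letI : LinearOrder A := inferInstance
  have hne : Nonempty A := ⟨toAntisymmetrization _ (Classical.arbitrary κ)⟩
  have hpos : 0 < Fintype.card A := Fintype.card_pos
  let e : Fin (Fintype.card A) ≃o A := monoEquivOfFin A rfl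
  refine ⟨Fintype.card A - 1, fun k => (e.symm (toAntisymmetrization _ k)).val,
    fun j => if h : j < Fintype.card A then ofAntisymmetrization _ (e ⟨j, h⟩)
      else Classical.arbitrary κ, fun k => ?_, fun j hj => ?_, fun k l => ?_⟩
  · exact Nat.le_sub_one_of_lt (e.symm (toAntisymmetrization _ k)).isLt
  · have h : j < Fintype.card A := by omega
    simp only [dif_pos h]
    rw [toAntisymmetrization_ofAntisymmetrization, OrderIso.symm_apply_apply]
  · rw [← Fin.le_def, e.symm.le_iff_le]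
    exact (toAntisymmetrization_le_toAntisymmetrization_iff (a := k) (b := l)).symm

variable {ι : Type*}

/-- `s ≲ t` along `U`. -/
def Le (U : Ultrafilter ι) (s t : ι → ℝ) : Prop := ∃ C : ℝ, 1 ≤ C ∧ ∀ᶠ i in U, s i ≤ C * t i

/-- `s ≪ t` along `U`. -/
def Ll (U : Ultrafilter ι) (s t : ι → ℝ) : Prop := ∀ ε : ℝ, 0 < ε → ∀ᶠ i in U, s i ≤ ε * t i

variable {U : Ultrafilter ι} {s t u : ι → ℝ}

theorem Le.refl (U : Ultrafilter ι) (s : ι → ℝ) : Le U s s :=
  ⟨1, le_rfl, Eventually.of_forall fun i => by simp⟩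

theorem Le.trans (h : Le U s t) (h' : Le U t u) : Le U s u := by
  obtain ⟨C, hC, h⟩ := h
  obtain ⟨C', hC', h'⟩ := h'
  refine ⟨C * C', one_le_mul_of_one_le_of_one_le hC hC', ?_⟩
  filter_upwards [h, h'] with i h1 h2
  calc s i ≤ C * t i := h1
    _ ≤ C * (C' * u i) := mul_le_mul_of_nonneg_left h2 (by linarith)
    _ = C * C' * u i := by ring

theorem Le.total (U : Ultrafilter ι) (s t : ι → ℝ) : Le U s t ∨ Le U t s := by
  rcases U.em fun i => s i ≤ t i with h | h
  · exact Or.inl ⟨1, le_rfl, by filter_upwards [h] with i hi; simpa using hi⟩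
  · exact Or.inr ⟨1, le_rfl, by filter_upwards [h] with i hi; simpa using (not_le.1 hi).le⟩

theorem ll_of_not_le (hs : ∀ᶠ i in U, 0 ≤ s i) (h : ¬ Le U t s) : Ll U s t := by
  intro ε hε
  have h1 : ¬ ∀ᶠ i in U, t i ≤ max 1 ε⁻¹ * s i := fun h' => h ⟨_, le_max_left _ _, h'⟩
  rw [← Ultrafilter.eventually_not] at h1
  filter_upwards [h1, hs] with i hi hs
  have h2 : ε⁻¹ * s i ≤ t i :=
    (mul_le_mul_of_nonneg_right (le_max_right _ _) hs).trans (not_le.1 hi).le
  calc s i = ε * (ε⁻¹ * s i) := by field_simp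
    _ ≤ ε * t i := mul_le_mul_of_nonneg_left h2 hε.le

theorem Ll.le (h : Ll U s t) : Le U s t := ⟨1, le_rfl, h 1 one_pos⟩

theorem Ll.not_le (h : Ll U s t) (ht : ∀ᶠ i in U, 0 < t i) : ¬ Le U t s := by
  rintro ⟨C, hC, h'⟩
  have hC0 : 0 < C := by linarith
  obtain ⟨i, h1, h2, h3⟩ := ((h (1 / (2 * C)) (by positivity)).and (h'.and ht)).exists
  have : t i ≤ C * (1 / (2 * C) * t i) := h2.trans (mul_le_mul_of_nonneg_left h1 hC0.le)
  have e : C * (1 / (2 * C) * t i) = t i / 2 := by field_simp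
  linarith

theorem Ll.trans_le (h : Ll U s t) (h' : Le U t u) : Ll U s u := by
  obtain ⟨C, hC, h'⟩ := h'
  intro ε hε
  have hC0 : 0 < C := by linarith
  filter_upwards [h (ε / C) (by positivity), h'] with i h1 h2
  calc s i ≤ ε / C * t i := h1
    _ ≤ ε / C * (C * u i) := mul_le_mul_of_nonneg_left h2 (by positivity)
    _ = ε * u i := by field_simp

theorem Le.trans_ll (h : Le U s t) (h' : Ll U t u) : Ll U s u := by
  obtain ⟨C, hC, h⟩ := h
  intro ε hε
  have hC0 : 0 < C := by linarith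
  filter_upwards [h' (ε / C) (by positivity), h] with i h1 h2
  calc s i ≤ C * t i := h2
    _ ≤ C * (ε / C * u i) := mul_le_mul_of_nonneg_left h1 hC0.le
    _ = ε * u i := by field_simp

theorem Ll.trans (h : Ll U s t) (h' : Ll U t u) : Ll U s u := h.le.trans_ll h'

theorem Le.add (h : Le U s u) (h' : Le U t u) : Le U (fun i => s i + t i) u := by
  obtain ⟨C, hC, h⟩ := h
  obtain ⟨C', hC', h'⟩ := h'
  refine ⟨C + C', by linarith, ?_⟩
  filter_upwards [h, h'] with i h1 h2
  linarith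

theorem Le.of_le (h : ∀ᶠ i in U, s i ≤ t i) : Le U s t :=
  ⟨1, le_rfl, by filter_upwards [h] with i hi; simpa using hi⟩

theorem Ll.tendsto (h : Ll U s t) (hs : ∀ᶠ i in U, 0 ≤ s i) (ht : ∀ᶠ i in U, 0 < t i) :
    Tendsto (fun i => s i / t i) U (𝓝 0) := by
  rw [Metric.tendsto_nhds]
  intro ε hε
  filter_upwards [h (ε / 2) (by positivity), hs, ht] with i h1 h2 h3
  rw [Real.dist_eq, sub_zero, abs_of_nonneg (div_nonneg h2 h3.le), div_lt_iff₀ h3]
  nlinarith

theorem Ll.tendsto_log (h : Ll U s t) (hs : ∀ᶠ i in U, 0 < s i) :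
    Tendsto (fun i => Real.log (t i / s i)) U atTop := by
  refine Real.tendsto_log_atTop.comp (tendsto_atTop.2 fun b => ?_)
  filter_upwards [h (max 1 b)⁻¹ (by positivity), hs] with i h1 h2
  have h3 : 0 < max 1 b := by positivity
  rw [le_div_iff₀ h2]
  calc b * s i ≤ max 1 b * s i := mul_le_mul_of_nonneg_right (le_max_right _ _) h2.le
    _ ≤ max 1 b * ((max 1 b)⁻¹ * t i) := mul_le_mul_of_nonneg_left h1 h3.le
    _ = t i := by field_simp

/-- finitely many `≲` have a common constant -/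
theorem Le.unif {κ : Type*} [Finite κ] {s t : κ → ι → ℝ} (ht : ∀ k, ∀ᶠ i in U, 0 ≤ t k i)
    (h : ∀ k, Le U (s k) (t k)) : ∃ C : ℝ, 1 ≤ C ∧ ∀ᶠ i in U, ∀ k, s k i ≤ C * t k i := by
  choose C hC h using h
  obtain ⟨B, hB⟩ := (Set.finite_range C).bddAbove
  refine ⟨max 1 B, le_max_left _ _, eventually_all.2 fun k => ?_⟩
  filter_upwards [h k, ht k] with i h1 h2
  exact h1.trans (mul_le_mul_of_nonneg_right ((hB ⟨k, rfl⟩).trans (le_max_right _ _)) h2)

/-- A chain of scales. -/
structure Chain (U : Ultrafilter ι) (lam : ℕ → ι → ℝ) : Prop where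
  pos : ∀ j i, 0 < lam j i
  ll : ∀ j, Ll U (lam (j + 1)) (lam j)

theorem Chain.ll' {lam : ℕ → ι → ℝ} (h : Chain U lam) {j k : ℕ} (hjk : j < k) :
    Ll U (lam k) (lam j) := by
  induction k, hjk using Nat.le_induction with
  | base => exact h.ll j
  | succ k _ ih => exact (h.ll k).trans ih

theorem Chain.le {lam : ℕ → ι → ℝ} (h : Chain U lam) {j k : ℕ} (hjk : j ≤ k) :
    Le U (lam k) (lam j) := by
  rcases hjk.eq_or_lt with rfl | hlt
  · exact Le.refl _ _
  · exact (h.ll' hlt).le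

theorem Chain.le_iff {lam : ℕ → ι → ℝ} (h : Chain U lam) {j k : ℕ} :
    Le U (lam k) (lam j) ↔ j ≤ k :=
  ⟨fun h' => not_lt.1 fun hlt => (h.ll' hlt).not_le (Eventually.of_forall (h.pos _)) h', h.le⟩

/-- **Scales.** Finitely many positive sequences `≲ top` are each comparable to exactly one member
of a chain starting at `top`. -/
theorem scales (U : Ultrafilter ι) {e : ι → ℝ} (he0 : ∀ i, 0 < e i) (he : Tendsto e U (𝓝 0))
    {top : ι → ℝ} (htop : ∀ i, 0 < top i) {κ : Type*} [Finite κ] (s : κ → ι → ℝ)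
    (hs : ∀ k i, 0 < s k i) (hb : ∀ k, Le U (s k) top) :
    ∃ (D : ℕ) (lam : ℕ → ι → ℝ) (dep : κ → ℕ), lam 0 = top ∧ Chain U lam ∧
      ∀ k, dep k ≤ D ∧ Le U (s k) (lam (dep k)) ∧ Le U (lam (dep k)) (s k) := by
  classical
  let t : Option κ → ι → ℝ := fun k => k.elim top s
  have ht : ∀ k i, 0 < t k i := by
    rintro (_ | k) i
    · exact htop i
    · exact hs k i
  have htb : ∀ k, Le U (t k) top := by
    rintro (_ | k)
    · exact Le.refl _ _
    · exact hb k
  obtain ⟨D, dep, rep, hD, hrep, hr⟩ := rank (fun k l : Option κ => Le U (t l) (t k))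
    (fun k => Le.refl _ _) (fun k l m h h' => h'.trans h) (fun k l => Le.total _ _ _)
  have h0 : dep none = 0 := by
    have := (hr none (rep 0)).1 (htb _)
    rw [hrep 0 (Nat.zero_le _)] at this
    omega
  let rep' : ℕ → Option κ := fun j => if j = 0 then none else rep j
  have hrep' : ∀ j ≤ D, dep (rep' j) = j := by
    intro j hj
    by_cases h : j = 0
    · simp [rep', h, h0]
    · simp [rep', h, hrep j hj]
  refine ⟨D, fun j i => t (rep' (min j D)) i * e i ^ (j - D), fun k => dep (some k), ?_, ⟨?_, ?_⟩,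
    fun k => ?_⟩
  · funext i
    simp [rep', t]
  · intro j i
    exact mul_pos (ht _ _) (pow_pos (he0 i) _)
  · intro j
    by_cases hj : j < D
    · have e1 : j + 1 - D = 0 := by omega
      have e2 : j - D = 0 := by omega
      rw [min_eq_left (by omega : j + 1 ≤ D), min_eq_left hj.le, e1, e2]
      simp only [pow_zero, mul_one]
      refine ll_of_not_le (Eventually.of_forall fun i => (ht _ i).le) fun h => ?_
      have := (hr _ _).1 h
      rw [hrep' _ (by omega), hrep' _ hj.le] at this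
      omega
    · have e1 : j + 1 - D = j - D + 1 := by omega
      rw [min_eq_right (by omega : D ≤ j + 1), min_eq_right (not_lt.1 hj), e1]
      intro ε hε
      filter_upwards [(tendsto_order.1 he).2 ε hε] with i hi
      have h1 : 0 < t (rep' D) i * e i ^ (j - D) := mul_pos (ht _ _) (pow_pos (he0 i) _)
      calc t (rep' D) i * e i ^ (j - D + 1) = e i * (t (rep' D) i * e i ^ (j - D)) := by ring
        _ ≤ ε * (t (rep' D) i * e i ^ (j - D)) := mul_le_mul_of_nonneg_right hi.le h1.le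
  · have hk := hD (some k)
    have e2 : dep (some k) - D = 0 := by omega
    simp only [min_eq_left hk, e2, pow_zero, mul_one]
    exact ⟨hk, (hr _ (some k)).2 (hrep' _ hk).le, (hr (some k) _).2 (hrep' _ hk).ge⟩

theorem exists_null {U : Ultrafilter ℕ} (hU : (U : Filter ℕ) ≤ atTop) :
    ∃ e : ℕ → ℝ, (∀ i, 0 < e i) ∧ Tendsto e U (𝓝 0) :=
  ⟨fun i => 1 / ((i : ℝ) + 1), fun i => by positivity,
    tendsto_one_div_add_atTop_nhds_zero_nat.mono_left hU⟩

end Crest.Agent.N207.I
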