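import Crest.Agent.N207.I.Scale
import Crest.Agent.N207.I.Greedy
import Crest.Agent.N207.I.Rig

/-! # Block I: the bubble tree (metric skeleton) -/

namespace Crest.Agent.N207.I

open Filter Topology MeasureTheory Set

/-- Rooted finite tree given by a parent map and a depth. -/
structure IsTree {V : Type*} (root : V) (par : V → V) (dep : V → ℕ) : Prop where
  dep_root : dep root = 0
  par_root : par root = root
  dep_par : ∀ v, v ≠ root → dep (par v) + 1 = dep v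

theorem IsTree.eq_root {V : Type*} {root : V} {par : V → V} {dep : V → ℕ}
    (h : IsTree root par dep) {v : V} (hv : dep v = 0) : v = root := by
  by_contra hne
  have := h.dep_par v hne
  omega

/-- alive nodes -/
def Alive {α : Type*} (rep : ℕ → α → α) (Reg : ℕ → α → Prop) : ℕ → α → Prop
  | 0, a => rep 0 a = a
  | j + 1, a => rep (j + 1) a = a ∧ ¬ Reg (j + 1) a ∧ Alive rep Reg j (rep j a)

theorem Alive.rep_eq {α : Type*} {rep : ℕ → α → α} {Reg : ℕ → α → Prop} {j : ℕ} {a : α}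
    (h : Alive rep Reg j a) : rep j a = a := by
  cases j with
  | zero => exact h
  | succ j => exact h.1

theorem Alive.le {α : Type*} {rep : ℕ → α → α} {Reg : ℕ → α → Prop} {D : ℕ}
    (hD : ∀ a, Reg (D + 1) a) {j : ℕ} {a : α} (h : Alive rep Reg j a) : j ≤ D := by
  induction j generalizing a with
  | zero => exact Nat.zero_le _
  | succ j ih =>
    have := ih h.2.2
    rcases this.eq_or_lt with rfl | hlt
    · exact absurd (hD a) h.2.1
    · exact hlt

/-- **Tree of classes** for a decreasing sequence of equivalence relations. -/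
theorem tree_abs {α : Type} [Finite α] (a0 : α) (eqv : ℕ → α → α → Prop)
    (heq : ∀ j, Equivalence (eqv j)) (h0 : ∀ a b, eqv 0 a b)
    (Reg : ℕ → α → Prop) {D : ℕ} (hD : ∀ a, Reg (D + 1) a) :
    ∃ (V : Type) (_ : Fintype V) (root : V) (par : V → V) (dep : V → ℕ) (pt : V → α),
      IsTree root par dep ∧ pt root = a0 ∧ (∀ v, dep v ≤ D) ∧
      (∀ v, eqv (dep (par v)) (pt v) (pt (par v))) ∧
      (∀ v w, dep v = dep w → eqv (dep v) (pt v) (pt w) → v = w) ∧
      (∀ v, v ≠ root → ¬ Reg (dep v) (pt v)) ∧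
      ∀ v a, (∀ b, eqv (dep v + 1) a b → eqv (dep v) b (pt v)) →
        (∃ w, w ≠ root ∧ par w = v ∧ eqv (dep v + 1) a (pt w)) ∨
          ∃ b, Reg (dep v + 1) b ∧ eqv (dep v + 1) a b := by
  classical
  obtain ⟨rep, hr0, hr1, hr2⟩ : ∃ rep : ℕ → α → α, (∀ a, rep 0 a = a0) ∧
      (∀ j a, eqv j a (rep j a)) ∧ ∀ j a b, eqv j a b → rep j a = rep j b := by
    refine ⟨fun j a => if j = 0 then a0 else (Quotient.mk ⟨eqv j, heq j⟩ a).out, by simp,
      fun j a => ?_, fun j a b hab => ?_⟩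
    · dsimp only
      split_ifs with h
      · subst h; exact h0 _ _
      · exact (heq j).symm (Quotient.mk_out (s := ⟨eqv j, heq j⟩) a)
    · dsimp only
      split_ifs with h
      · rfl
      · rw [Quotient.sound (s := ⟨eqv j, heq j⟩) hab]
  let V := {p : ℕ × α // Alive rep Reg p.1 p.2}
  haveI : Finite V := by
    refine Finite.of_injective
      (fun v : V => ((⟨v.1.1, Nat.lt_succ_of_le (v.2.le hD)⟩ : Fin (D + 1)), v.1.2)) ?_
    intro v w h
    simp only [Prod.mk.injEq, Fin.mk.injEq] at h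
    exact Subtype.ext (Prod.ext h.1 h.2)
  let root : V := ⟨(0, a0), hr0 a0⟩
  let par : V → V := fun v => match v with
    | ⟨(0, _), _⟩ => root
    | ⟨(j + 1, a), h⟩ => ⟨(j, rep j a), h.2.2⟩
  have hroot : ∀ v : V, v.1.1 = 0 → v = root := by
    rintro ⟨⟨j, a⟩, h⟩ (rfl : j = 0)
    exact Subtype.ext (Prod.ext rfl (h.rep_eq.symm.trans (hr0 a)))
  refine ⟨V, Fintype.ofFinite V, root, par, fun v => v.1.1, fun v => v.1.2, ⟨rfl, rfl, ?_⟩, rfl,
    fun v => v.2.le hD, ?_, ?_, ?_, ?_⟩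
  · rintro ⟨⟨_ | j, a⟩, h⟩ hne
    · exact absurd (hroot _ rfl) hne
    · rfl
  · rintro ⟨⟨_ | j, a⟩, h⟩
    · exact h0 _ _
    · exact hr1 j a
  · rintro ⟨⟨j, a⟩, h⟩ ⟨⟨k, b⟩, h'⟩ (rfl : j = k) hab
    exact Subtype.ext (Prod.ext rfl (h.rep_eq.symm.trans ((hr2 _ _ _ hab).trans h'.rep_eq)))
  · rintro ⟨⟨_ | j, a⟩, h⟩ hne
    · exact absurd (hroot _ rfl) hne
    · exact h.2.1
  · rintro ⟨⟨j, c⟩, h⟩ a ha
    by_cases hreg : Reg (j + 1) (rep (j + 1) a)
    · exact Or.inr ⟨_, hreg, hr1 _ _⟩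
    · have e : rep j (rep (j + 1) a) = c := (hr2 _ _ _ (ha _ (hr1 _ _))).trans h.rep_eq
      refine Or.inl ⟨⟨(j + 1, rep (j + 1) a), (hr2 _ _ _ (hr1 _ _)).symm, hreg, e ▸ h⟩, ?_, ?_,
        hr1 _ _⟩
      · intro hh
        exact Nat.succ_ne_zero j (congrArg (fun v : V => v.1.1) hh)
      · exact Subtype.ext (Prod.ext rfl e)

variable {ι : Type*} {U : Ultrafilter ι}

/-- a sequence comparable to a member of the chain avoids all gaps -/
theorem Chain.gap {lam : ℕ → ι → ℝ} (h : Chain U lam) {s : ι → ℝ} {k : ℕ}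
    (h1 : Le U s (lam k)) (h2 : Le U (lam k) s) (j : ℕ) :
    Le U (lam j) s ∨ Le U s (lam (j + 1)) := by
  rcases le_or_gt k j with hk | hk
  · exact Or.inl ((h.le hk).trans h2)
  · exact Or.inr (h1.trans (h.le hk))

/-- **Scales with zeros allowed.** -/
theorem scales0 (U : Ultrafilter ι) {e : ι → ℝ} (he0 : ∀ i, 0 < e i) (he : Tendsto e U (𝓝 0))
    {top : ι → ℝ} (htop : ∀ i, 0 < top i) {κ : Type*} [Finite κ] (s : κ → ι → ℝ)
    (hb : ∀ k, Le U (s k) top) :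
    ∃ (D : ℕ) (lam : ℕ → ι → ℝ), lam 0 = top ∧ Chain U lam ∧
      (∀ k j, Le U (lam j) (s k) ∨ Le U (s k) (lam (j + 1))) ∧
      ∀ k, Le U (lam D) (s k) ∨ ∀ᶠ i in U, s k i ≤ 0 := by
  classical
  obtain ⟨D, lam, dep, h0, hc, hs⟩ := scales U he0 he htop
    (fun k i => if 0 < s k i then s k i else top i)
    (fun k i => by split_ifs with h; exacts [h, htop i]) (fun k => by
      obtain ⟨C, hC, h⟩ := hb k
      refine ⟨C, hC, ?_⟩
      filter_upwards [h] with i hi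
      split_ifs
      · exact hi
      · nlinarith [htop i])
  have key : ∀ k, (Le U (s k) (lam (dep k)) ∧ Le U (lam (dep k)) (s k)) ∨
      ∀ᶠ i in U, s k i ≤ 0 := fun k => by
    rcases U.em fun i => 0 < s k i with h | h
    · refine Or.inl ⟨Le.trans (Le.of_le ?_) (hs k).2.1, Le.trans (hs k).2.2 (Le.of_le ?_)⟩ <;>
        filter_upwards [h] with i hi <;> simp [hi]
    · exact Or.inr (h.mono fun i hi => not_lt.1 hi)
  refine ⟨D, lam, h0, hc, fun k j => ?_, fun k => ?_⟩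
  · rcases key k with h | h
    · exact hc.gap h.1 h.2 j
    · exact Or.inr (Le.of_le (h.mono fun i hi => hi.trans (hc.pos _ i).le))
  · exact (key k).imp_left fun h => (hc.le (hs k).1).trans h.2

/-- every point lies in a core region or in a neck region -/
theorem cover_dich {V : Type*} [Finite V] {root : V} {par : V → V} {dep : V → ℕ}
    (h : IsTree root par dep) (P Q : V → Prop) (hr : P root) :
    ∃ v, P v ∧ ((∀ w, w ≠ root → par w = v → ¬ Q w) ∨
      ∃ w, w ≠ root ∧ par w = v ∧ Q w ∧ ¬ P w) := by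
  obtain ⟨v, hv, hmax⟩ := (toFinite {v | P v}).exists_maximalFor dep _ ⟨root, hr⟩
  refine ⟨v, hv, ?_⟩
  by_cases hq : ∀ w, w ≠ root → par w = v → ¬ Q w
  · exact Or.inl hq
  · push Not at hq
    obtain ⟨w, h1, h2, h3⟩ := hq
    refine Or.inr ⟨w, h1, h2, h3, fun hw => ?_⟩
    have h4 := h.dep_par w h1
    rw [h2] at h4
    have := hmax hw (by omega)
    omega

/-- **Nets for finitely many sequences of sets**: a fixed finite index set of centres. -/
theorem nets {M : Type*} [MeasurableSpace M] {d : ι → M → M → ℝ} (hd : ∀ i, PD (d i))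
    (ν : ι → Measure M) [∀ i, IsFiniteMeasure (ν i)]
    (hm : ∀ i x r, MeasurableSet {y | d i x y < r}) {V : Type} [Fintype V]
    (K : V → ι → Set M) (z : V → ι → M) (l : V → ι → ℝ) (hl : ∀ v i, 0 < l v i)
    {R c κ C : ℝ} (hc : 0 < c) (hκ : 0 < κ) (n : ℕ)
    (hK : ∀ᶠ i in U, ∀ v, ∀ x ∈ K v i, d i (z v i) x ≤ R * l v i)
    (hv : ∀ᶠ i in U, ∀ v, ∀ x ∈ K v i, κ * (c * l v i) ^ n ≤ (ν i).real {y | d i x y < c * l v i})
    (hV : ∀ᶠ i in U, ∀ v,
      (ν i).real {y | d i (z v i) y < (R + c) * l v i} ≤ C * ((R + c) * l v i) ^ n) :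
    ∃ (A : Type) (_ : Fintype A) (vx : A → V) (y : A → ι → M), ∀ᶠ i in U,
      (∀ a, y a i ∈ K (vx a) i) ∧
        ∀ v, ∀ x ∈ K v i, ∃ a, vx a = v ∧ d i x (y a i) < 3 * (c * l v i) := by
  classical
  obtain ⟨N, hN⟩ := exists_nat_gt (C * (R + c) ^ n / (κ * c ^ n))
  have hN' : C * (R + c) ^ n < (N + 1) * (κ * c ^ n) := by
    rw [div_lt_iff₀ (by positivity)] at hN
    have : 0 < κ * c ^ n := by positivity
    linarith
  have h1 : ∀ᶠ i in U, ∀ v, ∃ Y : Finset M, Y.card ≤ N ∧ ↑Y ⊆ K v i ∧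
      ∀ x ∈ K v i, ∃ y ∈ Y, d i x y < 3 * (c * l v i) := by
    filter_upwards [hK, hv, hV] with i h1 h2 h3 v
    have hp := hl v i
    refine exists_net (V := C * ((R + c) * l v i) ^ n) (hd i) (ν i) (hm i) (by positivity) (h1 v)
      (h2 v) (by rw [← add_mul]; exact h3 v) ?_
    have := mul_lt_mul_of_pos_right hN' (pow_pos hp n)
    rw [mul_pow, mul_pow]
    linarith
  have h2 : ∀ i v, ∃ Y : Finset M, Y.card ≤ N ∧ ((∃ Y : Finset M, Y.card ≤ N ∧ ↑Y ⊆ K v i ∧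
      ∀ x ∈ K v i, ∃ y ∈ Y, d i x y < 3 * (c * l v i)) → ↑Y ⊆ K v i ∧
      ∀ x ∈ K v i, ∃ y ∈ Y, d i x y < 3 * (c * l v i)) := fun i v => by
    by_cases h : ∃ Y : Finset M, Y.card ≤ N ∧ ↑Y ⊆ K v i ∧
      ∀ x ∈ K v i, ∃ y ∈ Y, d i x y < 3 * (c * l v i)
    · obtain ⟨Y, h1, h2⟩ := h
      exact ⟨Y, h1, fun _ => h2⟩
    · exact ⟨∅, by simp, fun h' => absurd h' h⟩
  choose Y hYN hY using h2
  have h3 : ∀ v, ∃ k, ∀ᶠ i in U, (Y i v).card = k := fun v =>
    (ev_const_nat U (fun i => (Y i v).card) N (Eventually.of_forall fun i => hYN i v)).imp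
      fun _ h => h.2
  choose k hk using h3
  have h4 : ∀ v i, ∃ y : Fin (k v) → M, (Y i v).card = k v →
      (∀ j, y j ∈ Y i v) ∧ ∀ x ∈ Y i v, ∃ j, y j = x := fun v i => by
    by_cases h : (Y i v).card = k v
    · obtain ⟨y, hy⟩ := exists_enum _ h
      exact ⟨y, fun _ => hy⟩
    · exact ⟨fun _ => z v i, fun h' => absurd h' h⟩
  choose y hy using h4
  refine ⟨Σ v, Fin (k v), inferInstance, Sigma.fst, fun a i => y a.1 i a.2, ?_⟩
  filter_upwards [h1, eventually_all.2 hk] with i h1 h2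
  refine ⟨fun a => (hY i a.1 (h1 _)).1 ((hy a.1 i (h2 _)).1 a.2), fun v x hx => ?_⟩
  obtain ⟨w, hw, hlt⟩ := (hY i v (h1 v)).2 x hx
  obtain ⟨j, rfl⟩ := (hy v i (h2 v)).2 w hw
  exact ⟨⟨v, j⟩, rfl, hlt⟩

end Crest.Agent.N207.I
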