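import Crest.Agent.N207.I.Tree

/-! # Block I: the bubble tree from the neck dichotomy (metric skeleton, main theorem) -/

namespace Crest.Agent.N207.I

open Filter Topology MeasureTheory Set

variable {ι : Type*} {U : Ultrafilter ι}

/-- finitely many alternatives `s ≲ t ∨ s' ≲ t'` with a common constant -/
theorem Le.unif_or {κ : Type*} [Finite κ] {s t s' t' : κ → ι → ℝ}
    (ht : ∀ k, ∀ᶠ i in U, 0 ≤ t k i) (ht' : ∀ k, ∀ᶠ i in U, 0 ≤ t' k i)
    (h : ∀ k, Le U (s k) (t k) ∨ Le U (s' k) (t' k)) :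
    ∃ C : ℝ, 1 ≤ C ∧ ∀ᶠ i in U, ∀ k, s k i ≤ C * t k i ∨ s' k i ≤ C * t' k i := by
  classical
  obtain ⟨C, hC, h1⟩ := Le.unif (U := U) (s := fun k => if Le U (s k) (t k) then s k else s' k)
    (t := fun k => if Le U (s k) (t k) then t k else t' k)
    (fun k => by split_ifs; exacts [ht k, ht' k])
    (fun k => by split_ifs with hk; exacts [hk, (h k).resolve_left hk])
  refine ⟨C, hC, h1.mono fun i hi k => ?_⟩
  have := hi k
  split_ifs at this
  exacts [Or.inl this, Or.inr this]

/-- finitely many implications `P k → s ≲ t` with a common constant -/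
theorem Le.unif_imp {κ : Type*} [Finite κ] {s t : κ → ι → ℝ} {P : κ → Prop}
    (ht : ∀ k, ∀ᶠ i in U, 0 ≤ t k i) (h : ∀ k, P k → Le U (s k) (t k)) :
    ∃ C : ℝ, 1 ≤ C ∧ ∀ᶠ i in U, ∀ k, P k → s k i ≤ C * t k i := by
  obtain ⟨C, hC, h1⟩ := Le.unif (U := U) (κ := {k // P k}) (s := fun k => s k) (t := fun k => t k)
    (fun k => ht k) (fun k => h k k.2)
  exact ⟨C, hC, h1.mono fun i hi k hk => hi ⟨k, hk⟩⟩

theorem exists_pos_lb {κ : Type*} [Finite κ] (c : κ → ℝ) (hc : ∀ k, 0 < c k) :
    ∃ c0 : ℝ, 0 < c0 ∧ ∀ k, c0 ≤ c k := by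
  rcases isEmpty_or_nonempty κ with h | h
  · exact ⟨1, one_pos, fun k => h.elim k⟩
  · obtain ⟨k, hk⟩ := Finite.exists_min c
    exact ⟨c k, hc k, hk⟩

/-- **The bubble tree.**  `μ i` = energy, `Neck i z a b` = an arbitrary predicate (a neck centred at
`z` between the scales `a` and `b`). -/
theorem tree_met {M : Type*} [MeasurableSpace M] (U : Ultrafilter ι) {e : ι → ℝ}
    (he0 : ∀ i, 0 < e i) (he : Tendsto e U (𝓝 0)) {d : ι → M → M → ℝ} (hd : ∀ i, PD (d i))
    (μ : ι → Measure M) [∀ i, IsFiniteMeasure (μ i)]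
    (hm : ∀ i x r, MeasurableSet {y | d i x y < r}) {ε E K B b0 : ℝ} (hε : 0 < ε)
    (hE : ∀ i, (μ i).real univ ≤ E) (hK : 0 < K) (hb0 : 0 < b0) (Ω : ι → Set M) (x0 : ι → M)
    (hx0 : ∀ i, x0 i ∈ Ω i) {top : ι → ℝ} (htop : ∀ i, 0 < top i)
    (hB : ∀ i, ∀ x ∈ Ω i, d i (x0 i) x ≤ B * top i)
    (hr1 : ∀ i, ∃ r1, 0 < r1 ∧ ∀ x ∈ Ω i, (μ i).real {y | d i x y < r1} ≤ ε)
    (Neck : ι → M → ℝ → ℝ → Prop) {N0 : ℕ}
    (hN : ∀ i, ∀ z ∈ Ω i, ∃ Bad : Finset ℝ, Bad.card ≤ N0 ∧ ∀ a b, 0 < a → a < b →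
      b ≤ b0 * top i → (∀ s ∈ Bad, s ∉ Icc a b) →
        (μ i).real {y | d i z y < b / K} ≤ ε ∨ Neck i z a b) :
    ∃ (V : Type) (_ : Fintype V) (root : V) (par : V → V) (dep : V → ℕ) (lam : ℕ → ι → ℝ)
      (ctr : V → ι → M) (C : ℝ), IsTree root par dep ∧ lam 0 = top ∧ Chain U lam ∧ 1 ≤ C ∧
      (∀ i, ctr root i = x0 i) ∧ (∀ v i, ctr v i ∈ Ω i) ∧
      (∀ᶠ i in U, ∀ v, d i (ctr v i) (ctr (par v) i) ≤ C * lam (dep (par v)) i) ∧
      (∀ᶠ i in U, ∀ v w, v ≠ w → dep v = dep w →
        lam (dep (par v)) i ≤ C * d i (ctr v i) (ctr w i)) ∧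
      (∀ C', C ≤ C' → ∀ᶠ i in U, ∀ v, v ≠ root →
        Neck i (ctr v i) (C' * lam (dep v) i) (lam (dep (par v)) i / C')) ∧
      ∀ ρ, 0 < ρ → ∃ c, 0 < c ∧ ∀ R, ∀ᶠ i in U, ∀ v, ∀ x ∈ Ω i,
        d i x (ctr v i) ≤ R * lam (dep v) i →
        (∀ w, w ≠ root → par w = v → ρ * lam (dep v) i ≤ d i x (ctr w i)) →
        (μ i).real {y | d i x y < c * lam (dep v) i} ≤ ε := by
  classical
  choose r1 hr0 hr1 using hr1
  obtain ⟨N, hNE⟩ := exists_nat_gt (E / ε)
  have hNE' : E < (N + 1) * ε := by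
    rw [div_lt_iff₀ hε] at hNE
    linarith
  choose z hzΩ hz0 hz using fun i =>
    exists_points (hd i) (μ i) (hm i) (hE i) hNE' (hr0 i) (Ω i) (hr1 i) (hx0 i)
  choose Bad hBad hNk using fun i (a : Fin (N + 1)) => hN i (z i a) (hzΩ i a)
  choose bad _ hbad using fun i a => exists_enum_pad (Bad i a) (hBad i a) (top i)
  let ds : Fin (N + 1) → Fin (N + 1) → ι → ℝ := fun a b i => d i (z i a) (z i b)
  let bs : Fin (N + 1) → Fin N0 → ι → ℝ := fun a k i => max 0 (min (bad i a k) (top i))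
  obtain ⟨D, lam, hl0, hc, hgap, hbot⟩ := scales0 U he0 he htop
    (κ := (Fin (N + 1) × Fin (N + 1)) ⊕ (Fin (N + 1) × Fin N0) ⊕ Unit)
    (Sum.elim (fun p => ds p.1 p.2) (Sum.elim (fun p => bs p.1 p.2) fun _ i => min (r1 i) (top i)))
    (by
      rintro (⟨a, b⟩ | ⟨a, k⟩ | _)
      · refine ⟨max 1 (2 * B), le_max_left _ _, Eventually.of_forall fun i => ?_⟩
        have h1 := (hd i).tri (z i a) (x0 i) (z i b)
        rw [(hd i).symm (z i a) (x0 i)] at h1
        have h2 := mul_le_mul_of_nonneg_right (le_max_right 1 (2 * B)) (htop i).le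
        have h3 := hB i _ (hzΩ i a)
        have h4 := hB i _ (hzΩ i b)
        show d i (z i a) (z i b) ≤ _
        linarith
      · exact Le.of_le (Eventually.of_forall fun i => max_le (htop i).le (min_le_right _ _))
      · exact Le.of_le (Eventually.of_forall fun i => min_le_right _ _))
  have hlp : ∀ j, ∀ᶠ i in U, 0 ≤ lam j i := fun j => Eventually.of_forall fun i => (hc.pos j i).le
  have hdp : ∀ a b, ∀ᶠ i in U, 0 ≤ ds a b i := fun a b =>
    Eventually.of_forall fun i => (hd i).nonneg _ _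
  let eqv : ℕ → Fin (N + 1) → Fin (N + 1) → Prop := fun j a b => Le U (ds a b) (lam j)
  have heq : ∀ j, Equivalence (eqv j) := fun j =>
    ⟨fun a => Le.of_le (Eventually.of_forall fun i => by
        simp only [ds, (hd i).self]; exact (hc.pos j i).le),
      fun {a b} h => (Le.of_le (Eventually.of_forall fun i => ((hd i).symm _ _).le)).trans h,
      fun {a b c} h h' =>
        (Le.of_le (Eventually.of_forall fun i => (hd i).tri _ (z i b) _)).trans (h.add h')⟩
  have hmono : ∀ j a b, eqv (j + 1) a b → eqv j a b := fun j a b h => h.trans (hc.ll j).le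
  have h0 : ∀ a b, eqv 0 a b := fun a b => by
    refine ⟨max 1 (2 * B), le_max_left _ _, Eventually.of_forall fun i => ?_⟩
    have h1 := (hd i).tri (z i a) (x0 i) (z i b)
    rw [(hd i).symm (z i a) (x0 i)] at h1
    have h2 := mul_le_mul_of_nonneg_right (le_max_right 1 (2 * B)) (htop i).le
    have h3 := hB i _ (hzΩ i a)
    have h4 := hB i _ (hzΩ i b)
    rw [hl0]
    show d i (z i a) (z i b) ≤ _
    linarith
  let Reg : ℕ → Fin (N + 1) → Prop := fun j a =>
    ∃ c, 0 < c ∧ ∀ᶠ i in U, (μ i).real {y | d i (z i a) y < c * lam (j - 1) i} ≤ ε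
  have hmon : ∀ i x y r r', d i x y + r ≤ r' →
      (μ i).real {w | d i x w < r} ≤ (μ i).real {w | d i y w < r'} := fun i x y r r' h =>
    measureReal_mono fun w (hw : d i x w < r) => by
      have := (hd i).tri y x w
      rw [(hd i).symm y x] at this
      show d i y w < r'
      linarith
  have hD : ∀ a, Reg (D + 1) a := fun a => by
    rcases hbot (Sum.inr (Sum.inr ())) with ⟨C, hC, h⟩ | h
    · refine ⟨C⁻¹, by positivity, h.mono fun i hi => le_trans (hmon i _ _ _ (r1 i) ?_)
        (hr1 i _ (hzΩ i a))⟩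
      have h1 : lam D i ≤ C * r1 i :=
        le_trans hi (mul_le_mul_of_nonneg_left (min_le_left _ _) (by linarith))
      rw [(hd i).self, zero_add, Nat.add_sub_cancel, inv_mul_le_iff₀ (by linarith)]
      exact h1
    · obtain ⟨i, hi⟩ := h.exists
      exact absurd (lt_min (hr0 i) (htop i)) (not_lt.2 hi)
  obtain ⟨V, hV, root, par, dep, pt, hT, hroot, hdep, hpar, hinj, hneck, hcov⟩ :=
    tree_abs 0 eqv heq h0 Reg hD
  obtain ⟨C1, hC1, h1⟩ := Le.unif (U := U) (fun v => hlp (dep (par v))) hpar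
  obtain ⟨C2, hC2, h2⟩ := Le.unif_imp (U := U) (κ := V × V)
    (s := fun p => lam (dep (par p.1))) (t := fun p => ds (pt p.1) (pt p.2))
    (P := fun p => p.1 ≠ p.2 ∧ dep p.1 = dep p.2) (fun p => hdp _ _) (fun p hp => by
      have hne : p.1 ≠ root := fun h => hp.1 (h.trans (hT.eq_root (by
        rw [← hp.2, h, hT.dep_root])).symm)
      refine (hgap (Sum.inl (pt p.1, pt p.2)) (dep (par p.1))).resolve_right fun h => ?_
      rw [hT.dep_par _ hne] at h
      exact hp.1 (hinj _ _ hp.2 h))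
  obtain ⟨C3, hC3, h3⟩ := Le.unif_or (U := U) (κ := V × Fin N0)
    (s := fun p => lam (dep (par p.1))) (t := fun p => bs (pt p.1) p.2)
    (s' := fun p => bs (pt p.1) p.2) (t' := fun p => lam (dep (par p.1) + 1))
    (fun p => Eventually.of_forall fun i => le_max_left _ _) (fun p => hlp _)
    (fun p => hgap (Sum.inr (Sum.inl (pt p.1, p.2))) _)
  have hC4 : 0 < b0⁻¹ := by positivity
  have hltop : ∀ j, ∀ᶠ i in U, lam j i ≤ top i := fun j => by
    rcases Nat.eq_zero_or_pos j with rfl | hj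
    · exact Eventually.of_forall fun i => by rw [hl0]
    · filter_upwards [hc.ll' hj 1 one_pos] with i hi
      rwa [hl0, one_mul] at hi
  refine ⟨V, hV, root, par, dep, lam, fun v i => z i (pt v), C1 + C2 + C3 + b0⁻¹, hT, hl0, hc,
    by linarith, fun i => by simp only [hroot, hz0], fun v i => hzΩ i _, ?_, ?_, ?_, ?_⟩
  · filter_upwards [h1] with i hi v
    exact (hi v).trans (mul_le_mul_of_nonneg_right (by linarith) (hc.pos _ i).le)
  · filter_upwards [h2] with i hi v w hne hdw
    exact (hi (v, w) ⟨hne, hdw⟩).trans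
      (mul_le_mul_of_nonneg_right (by linarith) ((hd i).nonneg _ _))
  · intro C' hC'
    have hC0 : 0 < C' := by linarith
    refine eventually_all.2 fun v => ?_
    by_cases hv : v = root
    · exact Eventually.of_forall fun i h => absurd hv h
    have hdv := hT.dep_par v hv
    have hnr : ¬ ∀ᶠ i in U, (μ i).real
        {y | d i (z i (pt v)) y < (C' * K)⁻¹ * lam (dep v - 1) i} ≤ ε :=
      fun h => hneck v hv ⟨_, by positivity, h⟩
    rw [← Ultrafilter.eventually_not] at hnr
    filter_upwards [hnr, h3, hltop (dep (par v)),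
      hc.ll (dep (par v)) (1 / (2 * C' * C')) (by positivity)] with i hi h3 h4 h5 _
    rw [hdv] at h5
    have p1 := hc.pos (dep v) i
    have p2 := hc.pos (dep (par v)) i
    have q1 : lam (dep (par v)) i / C' ≤ b0 * top i := by
      rw [div_le_iff₀ hC0]
      have : 1 ≤ b0 * C' := by
        have := mul_le_mul_of_nonneg_left (show b0⁻¹ ≤ C' by linarith) hb0.le
        rwa [mul_inv_cancel₀ hb0.ne'] at this
      nlinarith [htop i]
    refine (hNk i (pt v) _ _ (by positivity) ?_ q1 ?_).resolve_left fun h => hi ?_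
    · have : C' * (1 / (2 * C' * C') * lam (dep (par v)) i) = lam (dep (par v)) i / C' / 2 := by
        field_simp
      have h6 := mul_le_mul_of_nonneg_left h5 hC0.le
      have : 0 < lam (dep (par v)) i / C' := by positivity
      linarith
    · intro s hs hI
      obtain ⟨k, rfl⟩ := hbad i (pt v) s hs
      have h6 : lam (dep (par v)) i / C' ≤ lam (dep (par v)) i :=
        div_le_self p2.le (by linarith)
      have h7 : 0 < bad i (pt v) k := lt_of_lt_of_le (by positivity) hI.1
      have e : bs (pt v) k i = bad i (pt v) k := by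
        simp only [bs]
        rw [min_eq_left (hI.2.trans (h6.trans h4)), max_eq_right h7.le]
      have h8 := hI.2
      rw [le_div_iff₀ hC0] at h8
      rcases h3 (v, k) with h | h
      · simp only [e] at h
        nlinarith
      · simp only [e, hdv] at h
        nlinarith [hI.1]
    · have e : dep v - 1 = dep (par v) := by omega
      have e' : (C' * K)⁻¹ * lam (dep (par v)) i = lam (dep (par v)) i / C' / K := by field_simp
      rwa [e, e']
  · intro ρ hρ
    have hc1 : ∀ p : V × Fin (N + 1), ∃ c, 0 < c ∧ (Reg (dep p.1 + 1) p.2 → ∀ᶠ i in U,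
        (μ i).real {y | d i (z i p.2) y < c * lam (dep p.1) i} ≤ ε) := fun p => by
      by_cases h : Reg (dep p.1 + 1) p.2
      · obtain ⟨c, hc0, h⟩ := h
        exact ⟨c, hc0, fun _ => h⟩
      · exact ⟨1, one_pos, fun h' => absurd h' h⟩
    choose cc hcc0 hcc using hc1
    obtain ⟨c0, hc0, hc0'⟩ := exists_pos_lb cc hcc0
    have hcp : 0 < min (ρ / 4) (c0 / 5) := by positivity
    have hc4 := min_le_left (ρ / 4) (c0 / 5)
    have hc5 := min_le_right (ρ / 4) (c0 / 5)
    generalize min (ρ / 4) (c0 / 5) = c at hcp hc4 hc5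
    refine ⟨c, hcp, fun R => eventually_all.2 fun v => ?_⟩
    have key : ∀ a, ∀ᶠ i in U, ∀ x, d i x (z i (pt v)) ≤ R * lam (dep v) i →
        (∀ w, w ≠ root → par w = v → ρ * lam (dep v) i ≤ d i x (z i (pt w))) →
        d i x (z i a) < 3 * (c * lam (dep v) i) →
        (μ i).real {y | d i x y < c * lam (dep v) i} ≤ ε := fun a => by
      by_cases ha : eqv (dep v) a (pt v)
      · rcases hcov v a (fun b hb => (heq _).trans ((heq _).symm (hmono _ _ _ hb)) ha) with
          ⟨w, hw, hwv, h⟩ | ⟨b, hb, h⟩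
        · filter_upwards [Le.trans_ll h (hc.ll _) c hcp] with i hi x _ hx2 hx3
          have h6 := hx2 w hw hwv
          have h7 := (hd i).tri x (z i a) (z i (pt w))
          have h8 := mul_le_mul_of_nonneg_right hc4 (hc.pos (dep v) i).le
          simp only [ds] at hi
          linarith
        · filter_upwards [Le.trans_ll h (hc.ll _) c hcp, hcc (v, b) hb] with i hi hi' x _ _ hx3
          refine le_trans (hmon i _ _ _ _ ?_) hi'
          have h7 := (hd i).tri x (z i a) (z i b)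
          have h8 := mul_le_mul_of_nonneg_right hc5 (hc.pos (dep v) i).le
          have h9 := mul_le_mul_of_nonneg_right (hc0' (v, b)) (hc.pos (dep v) i).le
          simp only [ds] at hi
          linarith
      · have hn : ¬ ∀ᶠ i in U, ds a (pt v) i ≤ max 1 (R + 3 * c) * lam (dep v) i :=
          fun h => ha ⟨_, le_max_left _ _, h⟩
        rw [← Ultrafilter.eventually_not] at hn
        filter_upwards [hn] with i hi x hx1 _ hx3
        refine absurd ?_ hi
        have h7 := (hd i).tri (z i a) x (z i (pt v))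
        rw [(hd i).symm (z i a) x] at h7
        have h8 := mul_le_mul_of_nonneg_right (le_max_right 1 (R + 3 * c)) (hc.pos (dep v) i).le
        simp only [ds]
        linarith
    filter_upwards [eventually_all.2 key] with i hi x hx hx1 hx2
    by_contra hlt
    obtain ⟨a, ha⟩ := hz i x hx _ (not_le.1 hlt)
    exact hlt (hi a x hx1 hx2 ha)

end Crest.Agent.N207.I
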