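import Crest.Agent.N207.I.Geo2
import Crest.Agent.N207.I.Fin2
import Crest.Agent.N207.I.Mass
import Crest.Agent.N207.Sk.Sta2

/-!
# Row 207, block I (helper24): the final glue `SWL' M → WL' F`
-/

set_option autoImplicit false
set_option linter.unusedSectionVars false

open scoped ContDiff Topology Manifold ENNReal
open Set Filter Metric MeasureTheory
open Crest.GeometryTopology.CoordMetric Crest.GeometryTopology.MetricFamily

noncomputable section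

namespace Crest.Agent.N207.I

open Sk

/-- scaling of the exterior action -/
def ACTa : Prop :=
  ∀ (G : MetricField 4) (a0 a s : ℝ) (O : Iso4), 0 < a0 → a0 ≤ a → 0 < s →
    IsRiemannianOn G {x | a0 < ‖x‖} → (∃ R' : ℝ, ∀ x : E4, R' ≤ ‖x‖ → G x = 1) →
    act G a = s ^ 2 * act (rot G s O) (a / s)

/-- the total scalar curvature is the exterior action, up to the size of the scalar curvature -/
def ACTb (M : Type*) : Prop :=
  ∀ (T : TD M) (g : T.V → T.S → MetricField 4) (γ : ℝ) (l : Filter ℕ) (L : ℕ → T.V → ℝ)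
    (G : ℕ → T.S → MetricField 4) (c : ℕ → ℝ), T.Ok → 0 < γ → T.Seq g γ l L G →
    (∀ᶠ i in l, Flat T (G i)) →
    (∀ᶠ i in l, ∀ s, ∀ x ∈ (T.glob (L i)).U s, (s = Sum.inr T.root → ‖x‖ < 6) →
      |scalarCurv (G i s) x| ≤ c i) →
    ∃ C : ℝ, ∀ᶠ i in l,
      |SR T (L i) (G i) - act (G i (Sum.inr T.root)) (9 / 4) / Nat.card (T.Γ T.root)| ≤ C * c i

/-- the Ricci energy inside the outer radius of the neck of an extension -/
def MASS (M : Type*) [TopologicalSpace M] [ChartedSpace E4 M] [IsManifold 𝓘(ℝ, E4) ∞ M]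
    [T3Space M] [ConnectedSpace M] [MeasurableSpace M] [BorelSpace M] : Prop :=
  ∃ C : ℝ, ∀ (g : Met 4 M) (N : Nk M) (G : MetricField 4) (ρ e y η V : ℝ) (Cs : ℕ → ℝ),
    Ext' g N G ρ e y η Cs V → η ≤ 1 / 100 →
    ∫⁻ p in N.Om N.b, ENNReal.ofReal (g.rc 0 p) ∂g.vol ≤ ENNReal.ofReal (y ^ 2 + C * e ^ 2)

variable {M : Type*} [TopologicalSpace M] [ChartedSpace E4 M] [IsManifold 𝓘(ℝ, E4) ∞ M]
  [T3Space M] [ConnectedSpace M] [MeasurableSpace M] [BorelSpace M]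

theorem xt_nn_Om {g : Met 4 M} {N : Nk M} {G : MetricField 4} {ρ e y η V : ℝ} {Cs : ℕ → ℝ}
    (h : Ext' g N G ρ e y η Cs V) (O : Iso4) (Γ0 : Subgroup Iso4) (b : ℝ) :
    (N.nn (ρ / 24) O Γ0 b).Om 6 = N.Om N.b := by
  have hρ := xt_pos h
  have h1 := rs_image N (s := ρ / 24) (by positivity) O Γ0 (3 / 4) 6
  rw [show ρ / 24 * (3 / 4) = N.a by rw [h.a_eq]; ring,
    show ρ / 24 * 6 = N.b by rw [h.b_eq]; ring] at h1
  exact congrArg (N.In ∪ ·) h1

theorem xt_scal {g : Met 4 M} {N : Nk M} {G : MetricField 4} {ρ e y η V C0 : ℝ} {Cs : ℕ → ℝ}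
    (h : Ext' g N G ρ e y η Cs V) (O : Iso4) (hR : ∀ p, |g.scal p| ≤ C0) {x : E4} (h1 : 1 < ‖x‖)
    (h2 : ‖x‖ < 6) : |scalarCurv (rot G (ρ / 24) O) x| ≤ C0 * (ρ / 24) ^ 2 := by
  have hρ := xt_pos h
  have hs : 0 < ρ / 24 := by positivity
  have hx : x ∈ shell (ρ / 32 / (ρ / 24)) (ρ / 4 / (ρ / 24)) := by
    rw [show ρ / 32 / (ρ / 24) = 3 / 4 by field_simp; norm_num,
      show ρ / 4 / (ρ / 24) = 6 by field_simp; norm_num]
    exact ⟨by linarith, h2⟩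
  have e1 := (AI.scalarCurv_congr (mem_of_superset ((isOpen_shell _ _).mem_nhds hx)
    fun z hz => xt_eq h hs O ⊥ hz)).eq_of_nhds
  rw [← h.a_eq, ← h.b_eq] at hx
  rw [e1, show (N.rs (ρ / 24) O ⊥).Ψ = fun x => N.Ψ ((ρ / 24) • O x) from rfl,
    scal_pm (par_rot hs O h.top.par) g hs ((sim_mem_shell hs O).2 hx), abs_mul,
    abs_of_pos (pow_pos hs 2), mul_comm]
  gcongr
  exact hR _

namespace TD

variable {T : TD M} {ι : Type} {l : Filter ι} {m : ι → Met 4 M} {N0 : ι → Nk M}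
  {X : ι → MetricField 4} {ρ e y : ι → ℝ} {s : ι → T.V → ℝ} {R : ι → T.V → Nk M}
  {O : ι → T.V → Iso4} {φ : ι → T.B → E4 → M} {V : ℝ} {Cs : ℕ → ℝ}

theorem GOut.preI [CompactSpace M] (h : T.GOut l m N0 X ρ e y s R O φ) (hM : MASS M)
    (hE : ∀ i, Ext' (m i) (N0 i) (X i) (ρ i) (e i) (y i) (1 / 3200) Cs V)
    (he : Tendsto e l (𝓝 0)) (hy : Tendsto y l (𝓝 0)) : ∃ C : ℝ, 0 ≤ C ∧
      T.PreI l m s φ (fun i w => ((R i w).rs (s i w) (O i w) (T.Γ w)).Ψ)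
        (fun i => rot (X i) (s i T.root) (O i T.root)) (fun i => (N0 i).Om (N0 i).b)
        (fun i => y i ^ 2 + C * e i ^ 2) fun i => 1536 * e i := by
  obtain ⟨C, hC⟩ := hM
  have e1 : ∀ i b, ((R i T.root).nn (s i T.root) (O i T.root) (T.Γ T.root) b).Om 6 =
      (N0 i).Om (N0 i).b := fun i b => by rw [h.R_root, h.s_root]; exact xt_nn_Om (hE i) _ _ _
  refine ⟨|C|, abs_nonneg _, h.cfg.mono fun i hi a => ?_, h.cfg.mono fun i hi w _ => ?_,
    .of_forall fun i => (hC _ _ _ _ _ _ _ _ _ (hE i) (by norm_num)).trans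
      (ENNReal.ofReal_le_ofReal ?_), .of_forall fun i => ?_, .of_forall fun i => by positivity,
    ?_, ?_⟩
  · rintro _ ⟨x, hx, rfl⟩
    exact e1 i _ ▸ hi.ball_sub a (ball_subset_ball (by norm_num) hx)
  · rintro _ ⟨x, hx, rfl⟩
    exact e1 i _ ▸ hi.sub_root w (hi.psi_mem w (hi.nk_sub w hx))
  · gcongr; exact le_abs_self C
  · have hρ := xt_pos (hE i)
    have := xt_ric (hE i) (h.an.s_pos i T.root) (O i T.root) (r := 1) (by
      rw [h.s_root, div_le_one (by positivity)]; linarith)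
    rwa [show 64 * (ρ i / s i T.root) * e i = 1536 * e i by rw [h.s_root]; field_simp; ring]
      at this
  · simpa using (hy.pow 2).add ((he.pow 2).const_mul |C|)
  · simpa using he.const_mul 1536

end TD

theorem mass_stmt [CompactSpace M] : MASS M := ⟨81920, fun _ _ _ _ _ _ _ _ _ h hη => mass_le h hη⟩

variable [CompactSpace M] {F : Flow M}

/-- the inequality along an ultrafilter -/
theorem wl_seq (hB : Base F) (hA : ACTa) (hA' : ACTb M) (hM : MASS M) (hS : SWL' M)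
    {U : Ultrafilter ℕ} {t ρ e y p : ℕ → ℝ} {N0 : ℕ → Nk M} {X : ℕ → MetricField 4} {V η0 : ℝ}
    {Cs : ℕ → ℝ} (hη0 : 0 < η0) (ht : ∀ i, t i ∈ late F)
    (hE : ∀ i, Ext' (F.m (t i)) (N0 i) (X i) (ρ i) (e i) (y i) (1 / 3200) Cs V)
    (hp : ∀ i, |p i - act (X i) (3 * (ρ i / 32)) / Nat.card (N0 i).Γ| ≤ V * ρ i ^ 4)
    (h0 : ∀ i, 0 ≤ e i ∧ 0 ≤ y i) (hρ : Tendsto ρ U (𝓝 0)) (he : Tendsto e U (𝓝 0))
    (hy : Tendsto y U (𝓝 0)) (hp0 : Tendsto (fun i => |p i| / ρ i ^ 2) U (𝓝 0))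
    {T : TD M} {s : ℕ → T.V → ℝ} {R : ℕ → T.V → Nk M} {O : ℕ → T.V → Iso4}
    {φ : ℕ → T.B → E4 → M} (h : T.GOut U (fun i => F.m (t i)) N0 X ρ e y s R O φ) :
    ∃ C : ℝ, ∀ᶠ i in (U : Filter ℕ), |p i| ≤ η0 * ρ i ^ 2 * (y i + e i) + C * ρ i ^ 4 := by
  obtain ⟨C0, hC0⟩ := hB.ok.evo.R_bd
  have hR : ∀ i q, |(F.m (t i)).scal q| ≤ C0 := fun i q => hC0 _ (late_pos (ht i)) q
  obtain ⟨Cm, hCm, hI⟩ := h.preI hM hE he hy
  obtain ⟨i0, h1, h2⟩ := ((h.preS.fin (h.an.preX h.top) hI one_half_pos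
    (.of_forall hR)).and h.cfg).exists
  set T' : TD M := T.inst (φ i0) (fun w => ((R i0 w).rs (s i0 w) (O i0 w) (T.Γ w)).Ψ)
    (T.ls (s i0)) with hT'
  have hO : T'.Ok := h2.ok
  obtain ⟨G, g, C, hC, hL, hQ, -, hG, hb⟩ := h1 hO
  have hρ0 := fun i => xt_pos (hE i)
  have hF : ∀ᶠ i in (U : Filter ℕ), Flat T' (G i) := .of_forall fun i => by
    have := rot_flat (h.an.s_pos i T.root) (O i T.root) (hE i).flat
    rwa [← hG] at this
  obtain ⟨C3, h3⟩ := hA' T' g _ U _ G (fun i => C0 * s i T.root ^ 2) hO one_half_pos hQ hF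
    (hb.mono fun i hi u x hx hx' => by
      by_cases hu : u = Sum.inr T.root
      · subst hu
        rw [hG, h.s_root]
        exact xt_scal (hE i) _ (hR i) hx.1 (hx' rfl)
      · exact hi.2 u hu x hx)
  set S : ℕ → ℝ := fun i => SR T' (T.ls (s i)) (G i) with hSd
  obtain ⟨η', V', Cs', -, -, h4⟩ := h.an.ext
  have h5 : ∀ᶠ i in (U : Filter ℕ),
      |p i - (ρ i / 24) ^ 2 * S i| ≤ (V + C3 * C0 / 24 ^ 4) * ρ i ^ 4 := by
    filter_upwards [h3, h4] with i a1 a2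
    have hr := hρ0 i
    have a3 := hA (X i) (ρ i / 32) (3 * (ρ i / 32)) (ρ i / 24) (O i T.root) (by positivity)
      (by linarith) (by positivity) (hE i).riem (hE i).flat
    have a4 := hp i
    have a5 := a2.2.1.card
    rw [h.R_root] at a5
    rw [show 3 * (ρ i / 32) / (ρ i / 24) = 9 / 4 by field_simp; norm_num] at a3
    rw [a3, ← a5, mul_div_assoc] at a4
    rw [hG, h.s_root] at a1
    have a6 := mul_le_mul_of_nonneg_left a1 (sq_nonneg (ρ i / 24))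
    rw [← abs_of_nonneg (sq_nonneg (ρ i / 24)), ← abs_mul, abs_of_nonneg (sq_nonneg (ρ i / 24)),
      mul_sub, abs_sub_comm] at a6
    refine (abs_sub_le _ _ _).trans ((add_le_add a4 a6).trans (le_of_eq (by ring)))
  have h6 : Tendsto S U (𝓝 0) := by
    have a1 : Tendsto (fun i => 576 * (|p i| / ρ i ^ 2 + (V + C3 * C0 / 24 ^ 4) * ρ i ^ 2)) U
        (𝓝 0) := by
      simpa using (hp0.add ((hρ.pow 2).const_mul (V + C3 * C0 / 24 ^ 4))).const_mul 576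
    refine squeeze_zero_norm' (h5.mono fun i hi => ?_) a1
    have hr := hρ0 i
    have a2 := abs_sub_abs_le_abs_sub ((ρ i / 24) ^ 2 * S i) (p i)
    rw [abs_sub_comm, abs_mul, abs_of_nonneg (sq_nonneg _)] at a2
    rw [Real.norm_eq_abs, ← mul_le_mul_iff_right₀ (show 0 < (ρ i / 24) ^ 2 by positivity)]
    refine (sub_le_iff_le_add.1 (a2.trans hi)).trans (le_of_eq ?_)
    field_simp
    ring
  set K : ℝ := C * (1 + Cm + 1536 ^ 2) with hK
  have hK0 : 0 ≤ K := by positivity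
  have hY : ∀ i, 0 ≤ C * (y i ^ 2 + Cm * e i ^ 2 + (1536 * e i) ^ 2) := fun i => by positivity
  have h7 : ∀ i, √(C * (y i ^ 2 + Cm * e i ^ 2 + (1536 * e i) ^ 2)) ≤ (√K + 1) * (y i + e i) :=
    fun i => by
      obtain ⟨a1, a2⟩ := h0 i
      refine (Real.sqrt_le_sqrt (show _ ≤ K * (y i + e i) ^ 2 from ?_)).trans ?_
      · rw [hK, mul_assoc]
        refine mul_le_mul_of_nonneg_left ?_ hC
        have a3 : e i ^ 2 ≤ (y i + e i) ^ 2 := by gcongr; linarith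
        have a4 : y i ^ 2 ≤ (y i + e i) ^ 2 := by gcongr; linarith
        nlinarith [mul_le_mul_of_nonneg_left a3 hCm]
      · rw [Real.sqrt_mul hK0, Real.sqrt_sq (by positivity)]
        nlinarith
  have h8 := hS T' g U _ G (fun i => √(C * (y i ^ 2 + Cm * e i ^ 2 + (1536 * e i) ^ 2))) hO
    h2.conn hL hQ hF (fun i => Real.sqrt_nonneg _)
    (hb.mono fun i hi => by rw [Real.sq_sqrt (hY i)]; exact hi.1)
    (squeeze_zero (fun i => Real.sqrt_nonneg _) h7 (by simpa using (hy.add he).const_mul (√K + 1)))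
    h6 (η0 / (√K + 1)) (by positivity)
  refine ⟨V + C3 * C0 / 24 ^ 4, ?_⟩
  filter_upwards [h5, h8] with i a1 a2
  obtain ⟨a3, a4⟩ := h0 i
  have a5 : |S i| ≤ η0 * (y i + e i) := a2.trans ((mul_le_mul_of_nonneg_left (h7 i)
    (by positivity)).trans (le_of_eq (by field_simp)))
  have a6 := abs_sub_abs_le_abs_sub (p i) ((ρ i / 24) ^ 2 * S i)
  rw [abs_mul, abs_of_nonneg (sq_nonneg (ρ i / 24))] at a6
  have a7 : (ρ i / 24) ^ 2 * |S i| ≤ ρ i ^ 2 * (η0 * (y i + e i)) :=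
    mul_le_mul (by nlinarith [sq_nonneg (ρ i)]) a5 (abs_nonneg _) (sq_nonneg _)
  linarith

/-- **block I** -/
theorem wl_of (hB : Base F) (hG : GEO F) (hA : ACTa) (hA' : ACTb M) (hS : SWL' M) : WL' F := by
  refine ⟨1 / 3200, by norm_num, fun Cs V η0 hη0 => ?_⟩
  obtain ⟨δ0, hδ0, hG⟩ := hG Cs V
  by_contra hc
  push Not at hc
  choose t ht ρ e y p h1 h2 h3 h4 h5 h6 h7 h8 h9 using fun n : ℕ =>
    hc (min δ0 (1 / ((n : ℝ) + 1))) (n + 1) (by positivity) (by positivity)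
  choose N0 X hE hp using h8
  have hU : ((hyperfilter ℕ : Ultrafilter ℕ) : Filter ℕ) ≤ atTop := Nat.hyperfilter_le_atTop
  have hz : ∀ {u : ℕ → ℝ}, (∀ n, 0 ≤ u n) → (∀ n, u n ≤ min δ0 (1 / ((n : ℝ) + 1))) →
      Tendsto u (hyperfilter ℕ) (𝓝 0) := fun a1 a2 =>
    (squeeze_zero a1 (fun n => (a2 n).trans (min_le_right _ _))
      tendsto_one_div_add_atTop_nhds_zero_nat).mono_left hU
  have hρ := hz (fun n => (h1 n).le) h2
  obtain ⟨T, s, R, O, φ, h⟩ := hG (hyperfilter ℕ) t ρ e y N0 X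
    (fun i => ⟨ht i, (h2 i).trans (min_le_left _ _), hE i⟩) hρ
  obtain ⟨C, hC⟩ := wl_seq hB hA hA' mass_stmt hS hη0 ht hE hp (fun i => ⟨h3 i, h5 i⟩) hρ (hz h3 h4)
    (hz h5 h6) (hz (fun n => by positivity) fun n => (div_le_iff₀ (pow_pos (h1 n) 2)).2 (h7 n)) h
  obtain ⟨i, a1, a2⟩ := (hC.and (hU ((tendsto_natCast_atTop_atTop (R := ℝ)).eventually_ge_atTop
    C))).exists
  have a3 : C ≤ (i : ℝ) := a2
  nlinarith [h9 i, pow_pos (h1 i) 4]

end Crest.Agent.N207.I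

end
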