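import Crest.Agent.N207.I.Wl
import Crest.Agent.N207.I.Geo3
import Crest.Agent.N207.I.Act3

/-!
# Row 207, block I (helper24): `SWL' M → WL' F`
-/

set_option autoImplicit false

open scoped ContDiff Topology Manifold
open Set Filter Metric
open Crest.GeometryTopology.CoordMetric

noncomputable section

namespace Crest.Agent.N207.I

open Sk

theorem actA : ACTa := fun G a0 a s O h0 h1 hs hG hR => by
  have h2 : IsRiemannianOn (rot G s O) {x | a0 / s < ‖x‖} := by
    convert riem_rot hs O hG using 2 with x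
    simp only [mem_setOf_eq, norm_sim hs, div_lt_iff₀ hs, mul_comm s]
  rw [act_eq h0 h1 hG hR, act_eq (div_pos h0 hs) (div_le_div_of_nonneg_right h1 hs.le) h2
    (rot_flat hs O hR), aS_rot hs O h1 hG]

theorem actB (M : Type*) : ACTb M := fun T g γ l L G c h _ hS hF hc => by
  obtain ⟨C, -, hC⟩ := hS.act_le h hF hc
  refine ⟨C, ?_⟩
  filter_upwards [hC, hS.met, hF] with i h1 h2 h3
  have h4 := h2.2.riem (Sum.inr T.root)
  rw [TD.glob_root] at h4
  rwa [act_eq one_pos (by norm_num) h4 h3]

variable {M : Type*} [TopologicalSpace M] [ChartedSpace E4 M] [IsManifold 𝓘(ℝ, E4) ∞ M]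
  [T3Space M] [ConnectedSpace M] [MeasurableSpace M] [BorelSpace M] [CompactSpace M] {F : Flow M}

/-- **block I** -/
theorem wl' (hB : Base F) (hC : CONE F) (hH : HDEC F) (hS : SWL' M) : WL' F :=
  wl_of hB (geo hB hC hH) actA (actB M) hS

end Crest.Agent.N207.I

end
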